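import Vale.Agent.P237.Petty.Cor.Grid.Tiny.N7.Cert

/-!
# P237: a cell down to zero in dimension 7, subdivisions
-/

namespace Vale.Agent.P237.Petty.Cor.Grid.Tiny.N7

def covers25 : cell.Covers Vale.Agent.P237.Petty.Cor.Grid.N7.table row25.1 :=
  ⟨(.cut .d 0 (.cut .v 16777216 (.cut .v 8388608 (.void 2 ⟨⟨0, 0, 100000, 0, 0, 0, 0, 0, 0, ⟨0, 0⟩, 0⟩, 0, 0⟩ 0 0) (.cut .d (-8388608) (.void 3 ⟨⟨66017, 0, 33983, 0, 0, 0, 0, 0, 0, ⟨0, 0⟩, 0⟩, 0, 0⟩ 0 0) (.cut .d (-4194304) (.void 3 ⟨⟨66017, 0, 33983, 0, 0, 0, 0, 0, 0, ⟨0, 0⟩, 0⟩, 0, 0⟩ 0 0) (.cut .d (-2097152) (.void 3 ⟨⟨0, 0, 0, 0, 0, 100000, 0, 0, 0, ⟨0, 0⟩, 0⟩, 0, 0⟩ 0 0) (.cut .d (-1048576)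 (.void 3 ⟨⟨0, 0, 0, 0, 0, 100000, 0, 0, 0, ⟨0, 0⟩, 0⟩, 0, 0⟩ 0 0) (.cut .d (-524288) (.void 3 ⟨⟨0, 0, 0, 0, 0, 100000, 0, 0, 0, ⟨0, 0⟩, 0⟩, 0, 0⟩ 0 0) (.cut .s 13860864 (.pos 3 .mm ⟨⟨0, 0, 0, 0, 0, 305995449, 0, 0, 0, ⟨0, 0⟩, 0⟩, 0, 0⟩ 0 0) (.pos 3 .mm ⟨⟨0, 0, 0, 0, 0, 333299966, 0, 0, 0, ⟨0, 0⟩, 0⟩, 0, 0⟩ 0 0)))))))) (.cut .v 67108864 (.cut .v 33554432 (.cut .v 25165824 (.cut .d (-8388608) (.void 23 ⟨⟨100000, 0, 0, 0, 0, 0, 0, 0, 0, ⟨0, 0⟩, 0⟩, 0, 0⟩ 0 0) (.cut .v 20971520 (.cut .d (-4194304) (.void 25 ⟨⟨100000, 0, 0, 0, 0, 0, 0, 0, 0, ⟨0, 0⟩, 0⟩, 0, 0⟩ 0 0) (.cut .d (-2097152) (.void 25 ⟨⟨100000, 0, 0, 0, 0, 0, 0, 0, 0, ⟨0, 0⟩, 0⟩,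 0, 0⟩ 0 0) (.cut .v 18874368 (.cut .d (-1048576) (.void 27 ⟨⟨100000, 0, 0, 0, 0, 0, 0, 0, 0, ⟨0, 0⟩, 0⟩, 0, 0⟩ 0 0) (.cut .v 17825792 (.cut .d (-524288) (.void 29 ⟨⟨100000, 0, 0, 0, 0, 0, 0, 0, 0, ⟨0, 0⟩, 0⟩, 0, 0⟩ 0 0) (.cut .v 17301504 (.cut .d (-262144) (.void 31 ⟨⟨100000, 0, 0, 0, 0, 0, 0, 0, 0, ⟨0, 0⟩, 0⟩, 0, 0⟩ 0 0) (.cut .v 17039360 (.cut .d (-131072) (.void 33 ⟨⟨100000, 0, 0, 0, 0, 0, 0, 0, 0, ⟨0, 0⟩, 0⟩, 0, 0⟩ 0 0) (.cut .d (-65536) (.void 33 ⟨⟨100000, 0, 0, 0, 0, 0, 0, 0, 0, ⟨0, 0⟩, 0⟩, 0, 0⟩ 0 0) (.cut .d (-32768) (.void 33 ⟨⟨0, 0, 0, 0, 0, 100000, 0, 0, 0, ⟨0, 0⟩, 0⟩, 0, 0⟩ 0 0) (.cut .s 13860864 (.cut .v 16908288 (.cut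 .s 13811712 (.cut .d (-16384) (.cut .l 263642 (.void 37 ⟨⟨0, 0, 0, 0, 0, 100000, 0, 0, 0, ⟨0, 0⟩, 0⟩, 0, 0⟩ 0 0) (.cut .s 13787136 (.pos 37 .mp ⟨⟨82300616, 0, 0, 0, 0, 136826615, 0, 0, 0, ⟨0, 0⟩, 0⟩, 0, 0⟩ 0 0) (.pos 37 .mp ⟨⟨84094724, 0, 0, 0, 0, 139037011, 0, 0, 0, ⟨0, 0⟩, 0⟩, 0, 0⟩ 0 0))) (.cut .l 263642 (.cut .v 16842752 (.cut .s 13787136 (.cut .d (-8192) (.pos 39 .mp ⟨⟨82535805, 0, 0, 0, 0, 136894315, 0, 0, 0, ⟨0, 0⟩, 0⟩, 0, 0⟩ 0 0) (.cut .s 13774848 (.pos 39 .mp ⟨⟨86011188, 0, 0, 0, 0, 123626612, 0, 0, 0, ⟨0, 0⟩, 0⟩, 0, 0⟩ 0 0) (.pos 39 .mp ⟨⟨87029715, 0, 0, 0, 0, 124320608, 0, 0, 0, ⟨0, 0⟩, 0⟩, 0, 0⟩ 0 0))) (.cut .d (-8192)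 (.pos 39 .mp ⟨⟨84320715, 0, 0, 0, 0, 138987909, 0, 0, 0, ⟨0, 0⟩, 0⟩, 0, 0⟩ 0 0) (.cut .s 13799424 (.pos 39 .mp ⟨⟨87969773, 0, 0, 0, 0, 125259296, 0, 0, 0, ⟨0, 0⟩, 0⟩, 0, 0⟩ 0 0) (.pos 39 .mp ⟨⟨88917049, 0, 0, 0, 0, 126236382, 0, 0, 0, ⟨0, 0⟩, 0⟩, 0, 0⟩ 0 0)))) (.pos 40 .mp ⟨⟨108470127, 0, 0, 0, 0, 86699627, 0, 0, 0, ⟨0, 0⟩, 0⟩, 0, 0⟩ 0 0)) (.pos 37 .mp ⟨⟨87782752, 0, 0, 0, 0, 117980402, 0, 0, 0, ⟨0, 0⟩, 0⟩, 0, 0⟩ 0 0))) (.cut .d (-16384) (.cut .l 263642 (.void 37 ⟨⟨0, 0, 0, 0, 0, 100000, 0, 0, 0, ⟨0, 0⟩, 0⟩, 0, 0⟩ 0 0) (.cut .s 13836288 (.pos 37 .mp ⟨⟨85934611, 0, 0, 0, 0, 141350620, 0, 0, 0, ⟨0, 0⟩, 0⟩, 0, 0⟩ 0 0) (.pos 37 .mp ⟨⟨87821389,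 0, 0, 0, 0, 143767034, 0, 0, 0, ⟨0, 0⟩, 0⟩, 0, 0⟩ 0 0))) (.cut .l 263642 (.cut .v 16842752 (.cut .s 13836288 (.cut .d (-8192) (.pos 39 .mp ⟨⟨86151414, 0, 0, 0, 0, 141219259, 0, 0, 0, ⟨0, 0⟩, 0⟩, 0, 0⟩ 0 0) (.cut .s 13824000 (.pos 39 .mp ⟨⟨89876527, 0, 0, 0, 0, 127240266, 0, 0, 0, ⟨0, 0⟩, 0⟩, 0, 0⟩ 0 0) (.cut .s 13830144 (.pos 39 .mp ⟨⟨90291655, 0, 0, 0, 0, 129088920, 0, 0, 0, ⟨0, 0⟩, 0⟩, 0, 0⟩ 0 0) (.pos 39 .mp ⟨⟨90747145, 0, 0, 0, 0, 129679233, 0, 0, 0, ⟨0, 0⟩, 0⟩, 0, 0⟩ 0 0)))) (.cut .d (-8192) (.pos 39 .mp ⟨⟨88029009, 0, 0, 0, 0, 143591976, 0, 0, 0, ⟨0, 0⟩, 0⟩, 0, 0⟩ 0 0) (.cut .v 16809984 (.cut .s 13848576 (.pos 51 .mp ⟨⟨90240513,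 0, 0, 0, 0, 132808340, 0, 0, 0, ⟨0, 0⟩, 0⟩, 0, 0⟩ 0 0) (.pos 51 .mp ⟨⟨91017435, 0, 0, 0, 0, 134384921, 0, 0, 0, ⟨0, 0⟩, 0⟩, 0, 0⟩ 0 0)) (.pos 52 .mp ⟨⟨101580441, 0, 0, 0, 0, 111510025, 0, 0, 0, ⟨0, 0⟩, 0⟩, 0, 0⟩ 0 0)))) (.pos 40 .mp ⟨⟨113052679, 0, 0, 0, 0, 89404594, 0, 0, 0, ⟨0, 0⟩, 0⟩, 0, 0⟩ 0 0)) (.pos 37 .mp ⟨⟨91605118, 0, 0, 0, 0, 122029131, 0, 0, 0, ⟨0, 0⟩, 0⟩, 0, 0⟩ 0 0)))) (.cut .s 13811712 (.pos 38 .mp ⟨⟨107088188, 0, 0, 0, 0, 91437972, 0, 0, 0, ⟨0, 0⟩, 0⟩, 0, 0⟩ 0 0) (.cut .s 13836288 (.pos 38 .mp ⟨⟨101566526, 0, 0, 0, 0, 110405043, 0, 0, 0, ⟨0, 0⟩, 0⟩, 0, 0⟩ 0 0) (.pos 38 .mp ⟨⟨103670152, 0, 0, 0, 0, 112370169, 0, 0, 0,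 ⟨0, 0⟩, 0⟩, 0, 0⟩ 0 0)))) (.cut .v 16908288 (.cut .s 13910016 (.cut .d (-16384) (.cut .l 263642 (.void 37 ⟨⟨0, 0, 0, 0, 0, 100000, 0, 0, 0, ⟨0, 0⟩, 0⟩, 0, 0⟩ 0 0) (.cut .s 13885440 (.pos 37 .mp ⟨⟨89756202, 0, 0, 0, 0, 146285793, 0, 0, 0, ⟨0, 0⟩, 0⟩, 0, 0⟩ 0 0) (.pos 37 .mp ⟨⟨91740236, 0, 0, 0, 0, 148906374, 0, 0, 0, ⟨0, 0⟩, 0⟩, 0, 0⟩ 0 0))) (.cut .l 263642 (.cut .v 16842752 (.cut .s 13885440 (.cut .d (-8192) (.pos 39 .mp ⟨⟨89954648, 0, 0, 0, 0, 146109791, 0, 0, 0, ⟨0, 0⟩, 0⟩, 0, 0⟩ 0 0) (.cut .l 131821 (.cut .v 16809984 (.cut .s 13873152 (.pos 51 .mp ⟨⟨91741388, 0, 0, 0, 0, 136106058, 0, 0, 0, ⟨0, 0⟩, 0⟩, 0, 0⟩ 0 0) (.pos 51 .mp ⟨⟨92707858,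 0, 0, 0, 0, 137375350, 0, 0, 0, ⟨0, 0⟩, 0⟩, 0, 0⟩ 0 0)) (.pos 52 .mp ⟨⟨108277809, 0, 0, 0, 0, 106363492, 0, 0, 0, ⟨0, 0⟩, 0⟩, 0, 0⟩ 0 0)) (.pos 39 .mp ⟨⟨92814671, 0, 0, 0, 0, 130581211, 0, 0, 0, ⟨0, 0⟩, 0⟩, 0, 0⟩ 0 0))) (.cut .d (-8192) (.pos 39 .mp ⟨⟨91929514, 0, 0, 0, 0, 148776562, 0, 0, 0, ⟨0, 0⟩, 0⟩, 0, 0⟩ 0 0) (.cut .l 131821 (.cut .v 16809984 (.cut .s 13897728 (.pos 51 .mp ⟨⟨93710122, 0, 0, 0, 0, 138617820, 0, 0, 0, ⟨0, 0⟩, 0⟩, 0, 0⟩ 0 0) (.pos 51 .mp ⟨⟨94745179, 0, 0, 0, 0, 139840377, 0, 0, 0, ⟨0, 0⟩, 0⟩, 0, 0⟩ 0 0)) (.pos 52 .mp ⟨⟨110823010, 0, 0, 0, 0, 107784702, 0, 0, 0, ⟨0, 0⟩, 0⟩, 0, 0⟩ 0 0)) (.pos 39 .mp ⟨⟨94835337, 0,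 0, 0, 0, 132912992, 0, 0, 0, ⟨0, 0⟩, 0⟩, 0, 0⟩ 0 0)))) (.pos 40 .mp ⟨⟨118402467, 0, 0, 0, 0, 91387395, 0, 0, 0, ⟨0, 0⟩, 0⟩, 0, 0⟩ 0 0)) (.pos 37 .mp ⟨⟨95615066, 0, 0, 0, 0, 126332663, 0, 0, 0, ⟨0, 0⟩, 0⟩, 0, 0⟩ 0 0))) (.cut .d (-16384) (.cut .l 263642 (.void 37 ⟨⟨0, 0, 0, 0, 0, 100000, 0, 0, 0, ⟨0, 0⟩, 0⟩, 0, 0⟩ 0 0) (.cut .s 13934592 (.pos 37 .mp ⟨⟨93774717, 0, 0, 0, 0, 151628195, 0, 0, 0, ⟨0, 0⟩, 0⟩, 0, 0⟩ 0 0) (.pos 37 .mp ⟨⟨95860914, 0, 0, 0, 0, 154450608, 0, 0, 0, ⟨0, 0⟩, 0⟩, 0, 0⟩ 0 0))) (.cut .l 263642 (.cut .v 16842752 (.cut .s 13934592 (.cut .d (-8192) (.pos 39 .mp ⟨⟨93954835, 0, 0, 0, 0, 151596276, 0, 0, 0, ⟨0, 0⟩, 0⟩, 0,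 0⟩ 0 0) (.cut .l 131821 (.cut .v 16809984 (.cut .s 13922304 (.pos 51 .mp ⟨⟨95847239, 0, 0, 0, 0, 140967470, 0, 0, 0, ⟨0, 0⟩, 0⟩, 0, 0⟩ 0 0) (.pos 51 .mp ⟨⟨97034337, 0, 0, 0, 0, 141959391, 0, 0, 0, ⟨0, 0⟩, 0⟩, 0, 0⟩ 0 0)) (.pos 52 .mp ⟨⟨113585109, 0, 0, 0, 0, 108979680, 0, 0, 0, ⟨0, 0⟩, 0⟩, 0, 0⟩ 0 0)) (.pos 39 .mp ⟨⟨96906485, 0, 0, 0, 0, 135298841, 0, 0, 0, ⟨0, 0⟩, 0⟩, 0, 0⟩ 0 0))) (.cut .d (-8192) (.pos 39 .mp ⟨⟨96031878, 0, 0, 0, 0, 154573060, 0, 0, 0, ⟨0, 0⟩, 0⟩, 0, 0⟩ 0 0) (.cut .l 131821 (.cut .d (-4096) (.pos 39 .mp ⟨⟨99107672, 0, 0, 0, 0, 145909244, 0, 0, 0, ⟨0, 0⟩, 0⟩, 0, 0⟩ 0 0) (.cut .s 13946880 (.pos 39 .mp ⟨⟨99099536, 0,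 0, 0, 0, 140966582, 0, 0, 0, ⟨0, 0⟩, 0⟩, 0, 0⟩ 0 0) (.pos 39 .mp ⟨⟨100162872, 0, 0, 0, 0, 142372101, 0, 0, 0, ⟨0, 0⟩, 0⟩, 0, 0⟩ 0 0))) (.pos 39 .mp ⟨⟨99029398, 0, 0, 0, 0, 137735391, 0, 0, 0, ⟨0, 0⟩, 0⟩, 0, 0⟩ 0 0)))) (.pos 40 .mp ⟨⟨124622501, 0, 0, 0, 0, 92457210, 0, 0, 0, ⟨0, 0⟩, 0⟩, 0, 0⟩ 0 0)) (.pos 37 .mp ⟨⟨99822167, 0, 0, 0, 0, 130865376, 0, 0, 0, ⟨0, 0⟩, 0⟩, 0, 0⟩ 0 0)))) (.cut .d (-16384) (.cut .s 13910016 (.pos 38 .mp ⟨⟨114322736, 0, 0, 0, 0, 102421574, 0, 0, 0, ⟨0, 0⟩, 0⟩, 0, 0⟩ 0 0) (.pos 38 .mp ⟨⟨120502654, 0, 0, 0, 0, 103689075, 0, 0, 0, ⟨0, 0⟩, 0⟩, 0, 0⟩ 0 0)) (.pos 38 .mp ⟨⟨161380731, 0, 0, 0, 0, 0, 0, 0, 0, ⟨0, 0⟩,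 0⟩, 0, 0⟩ 0 0))))))) (.pos 34 .mp ⟨⟨196630715, 0, 0, 0, 0, 0, 0, 0, 0, ⟨0, 0⟩, 0⟩, 0, 0⟩ 0 0))) (.pos 32 .mp ⟨⟨216314781, 0, 0, 0, 0, 0, 0, 0, 0, ⟨0, 0⟩, 0⟩, 0, 0⟩ 0 0))) (.void 30 ⟨⟨100000, 0, 0, 0, 0, 0, 0, 0, 0, ⟨0, 0⟩, 0⟩, 0, 0⟩ 0 0))) (.void 28 ⟨⟨100000, 0, 0, 0, 0, 0, 0, 0, 0, ⟨0, 0⟩, 0⟩, 0, 0⟩ 0 0)))) (.void 26 ⟨⟨100000, 0, 0, 0, 0, 0, 0, 0, 0, ⟨0, 0⟩, 0⟩, 0, 0⟩ 0 0))) (.void 24 ⟨⟨100000, 0, 0, 0, 0, 0, 0, 0, 0, ⟨0, 0⟩, 0⟩, 0, 0⟩ 0 0)) (.void 57 ⟨⟨100000, 0, 0, 0, 0, 0, 0, 0, 0, ⟨0, 0⟩, 0⟩, 0, 0⟩ 0 0)) (.void 68 ⟨⟨100000, 0, 0, 0, 0, 0, 0, 0, 0, ⟨0, 0⟩, 0⟩, 0, 0⟩ 0 0))) (.cut .v 16777216 (.cut .v 8388608 (.cut .v 4194304 (.cut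 .v 2097152 (.cut .v 1048576 (.void 81 ⟨⟨0, 0, 19122, 0, 0, 0, 0, 0, 80878, ⟨0, 0⟩, 1983364⟩, 0, 0⟩ 0 0) (.pos 82 .pm ⟨⟨0, 0, 14319772, 0, 0, 0, 0, 0, 0, ⟨0, 0⟩, 0⟩, 0, 118402⟩ 0 0)) (.pos 78 .pm ⟨⟨0, 0, 11482430, 0, 0, 0, 0, 0, 0, ⟨0, 0⟩, 0⟩, 0, 183728⟩ 0 0)) (.pos 5 .pm ⟨⟨0, 0, 12331549, 0, 0, 0, 0, 0, 0, ⟨0, 0⟩, 0⟩, 0, 266406⟩ 0 0)) (.pos 3 .pm ⟨⟨0, 0, 0, 0, 0, 0, 0, 0, 0, ⟨0, 0⟩, 0⟩, 0, 0⟩ 0 0)) (.cut .v 67108864 (.cut .d 1837506 (.cut .v 33554432 (.cut .d 918753 (.cut .v 25165824 (.cut .d 459376 (.cut .v 20971520 (.cut .v 18874368 (.pos 27 .pp ⟨⟨101203054, 0, 0, 0, 0, 0, 0, 0, 0, ⟨0, 0⟩, 0⟩, 9556571, 0⟩ 0 0) (.pos 28 .pp ⟨⟨190856584,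 0, 0, 0, 0, 0, 0, 0, 0, ⟨0, 0⟩, 0⟩, 0, 0⟩ 0 0)) (.pos 26 .pp ⟨⟨271592859, 0, 0, 0, 0, 0, 0, 0, 0, ⟨0, 0⟩, 0⟩, 0, 0⟩ 0 0)) (.pos 23 .pp ⟨⟨0, 0, 0, 0, 0, 0, 0, 0, 0, ⟨0, 0⟩, 0⟩, 18933991, 349141⟩ 0 0)) (.pos 24 .pp ⟨⟨0, 0, 0, 0, 0, 0, 0, 0, 0, ⟨0, 0⟩, 0⟩, 74313107, 0⟩ 0 0)) (.pos 22 .pp ⟨⟨0, 0, 0, 0, 0, 0, 0, 0, 0, ⟨0, 0⟩, 0⟩, 15386455, 393013⟩ 0 0)) (.cut .d 918753 (.void 57 ⟨⟨0, 0, 0, 0, 0, 0, 0, 0, 0, ⟨0, 0⟩, 0⟩, 100000, 0⟩ 0 0) (.pos 57 .pp ⟨⟨0, 0, 0, 0, 0, 0, 0, 0, 0, ⟨0, 0⟩, 0⟩, 89102553, 0⟩ 0 0))) (.pos 56 .pp ⟨⟨0, 0, 0, 0, 0, 0, 0, 0, 0, ⟨0, 0⟩, 0⟩, 0, 583298⟩ 0 0)) (.void 68 ⟨⟨0, 0, 0, 49553, 0, 0, 0, 0, 0, ⟨0, 0⟩, 0⟩, 50447,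 0⟩ 0 0)))),
    by decide +kernel⟩

def covers26 : cell.Covers Vale.Agent.P237.Petty.Cor.Grid.N7.table row26.1 :=
  ⟨(.cut .d 0 (.cut .v 16777216 (.cut .v 8388608 (.void 2 ⟨⟨0, 0, 100000, 0, 0, 0, 0, 0, 0, ⟨0, 0⟩, 0⟩, 0, 0⟩ 0 0) (.cut .d (-8388608) (.void 3 ⟨⟨100000, 0, 0, 0, 0, 0, 0, 0, 0, ⟨0, 0⟩, 0⟩, 0, 0⟩ 0 0) (.cut .d (-4194304) (.void 3 ⟨⟨65778, 0, 34222, 0, 0, 0, 0, 0, 0, ⟨0, 0⟩, 0⟩, 0, 0⟩ 0 0) (.cut .d (-2097152) (.void 3 ⟨⟨0, 0, 0, 0, 0, 100000, 0, 0, 0, ⟨0, 0⟩, 0⟩, 0, 0⟩ 0 0) (.cut .d (-1048576) (.void 3 ⟨⟨0, 0, 0, 0, 0, 100000, 0, 0, 0, ⟨0, 0⟩, 0⟩, 0, 0⟩ 0 0) (.cut .d (-524288) (.void 3 ⟨⟨0, 0, 0, 0, 0, 100000, 0, 0, 0, ⟨0,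 0⟩, 0⟩, 0, 0⟩ 0 0) (.cut .s 14057472 (.pos 3 .mm ⟨⟨0, 0, 0, 0, 0, 363809170, 0, 0, 0, ⟨0, 0⟩, 0⟩, 0, 0⟩ 0 0) (.pos 3 .mm ⟨⟨0, 0, 0, 0, 0, 397812227, 0, 0, 0, ⟨0, 0⟩, 0⟩, 0, 0⟩ 0 0)))))))) (.cut .v 67108864 (.cut .v 33554432 (.cut .v 25165824 (.cut .d (-8388608) (.void 23 ⟨⟨100000, 0, 0, 0, 0, 0, 0, 0, 0, ⟨0, 0⟩, 0⟩, 0, 0⟩ 0 0) (.cut .d (-4194304) (.void 23 ⟨⟨100000, 0, 0, 0, 0, 0, 0, 0, 0, ⟨0, 0⟩, 0⟩, 0, 0⟩ 0 0) (.cut .v 20971520 (.cut .d (-2097152) (.void 25 ⟨⟨100000, 0, 0, 0, 0, 0, 0, 0, 0, ⟨0, 0⟩, 0⟩, 0, 0⟩ 0 0) (.cut .v 18874368 (.cut .d (-1048576) (.void 27 ⟨⟨100000, 0, 0, 0, 0, 0, 0, 0, 0, ⟨0, 0⟩, 0⟩, 0, 0⟩ 0 0) (.cut .v 17825792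 (.cut .d (-524288) (.void 29 ⟨⟨100000, 0, 0, 0, 0, 0, 0, 0, 0, ⟨0, 0⟩, 0⟩, 0, 0⟩ 0 0) (.cut .v 17301504 (.cut .d (-262144) (.void 31 ⟨⟨100000, 0, 0, 0, 0, 0, 0, 0, 0, ⟨0, 0⟩, 0⟩, 0, 0⟩ 0 0) (.cut .v 17039360 (.cut .d (-131072) (.void 33 ⟨⟨100000, 0, 0, 0, 0, 0, 0, 0, 0, ⟨0, 0⟩, 0⟩, 0, 0⟩ 0 0) (.cut .d (-65536) (.void 33 ⟨⟨100000, 0, 0, 0, 0, 0, 0, 0, 0, ⟨0, 0⟩, 0⟩, 0, 0⟩ 0 0) (.cut .d (-32768) (.void 33 ⟨⟨0, 0, 0, 0, 0, 100000, 0, 0, 0, ⟨0, 0⟩, 0⟩, 0, 0⟩ 0 0) (.cut .s 14057472 (.cut .v 16908288 (.cut .s 14008320 (.cut .d (-16384) (.cut .l 263642 (.void 37 ⟨⟨0, 0, 0, 0, 0, 100000, 0, 0, 0, ⟨0, 0⟩, 0⟩, 0, 0⟩ 0 0) (.cut .s 13983744 (.pos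 37 .mp ⟨⟨98000587, 0, 0, 0, 0, 157728931, 0, 0, 0, ⟨0, 0⟩, 0⟩, 0, 0⟩ 0 0) (.pos 37 .mp ⟨⟨100205493, 0, 0, 0, 0, 160448762, 0, 0, 0, ⟨0, 0⟩, 0⟩, 0, 0⟩ 0 0))) (.cut .l 263642 (.cut .v 16842752 (.cut .s 13983744 (.cut .d (-8192) (.pos 39 .mp ⟨⟨98162336, 0, 0, 0, 0, 157717026, 0, 0, 0, ⟨0, 0⟩, 0⟩, 0, 0⟩ 0 0) (.cut .s 13971456 (.pos 39 .mp ⟨⟨102399038, 0, 0, 0, 0, 141402792, 0, 0, 0, ⟨0, 0⟩, 0⟩, 0, 0⟩ 0 0) (.cut .s 13977600 (.pos 39 .mp ⟨⟨102909909, 0, 0, 0, 0, 143403853, 0, 0, 0, ⟨0, 0⟩, 0⟩, 0, 0⟩ 0 0) (.pos 39 .mp ⟨⟨103416302, 0, 0, 0, 0, 144106591, 0, 0, 0, ⟨0, 0⟩, 0⟩, 0, 0⟩ 0 0)))) (.cut .d (-8192) (.pos 39 .mp ⟨⟨100353072, 0, 0, 0,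 0, 160314327, 0, 0, 0, ⟨0, 0⟩, 0⟩, 0, 0⟩ 0 0) (.cut .l 131821 (.cut .d (-4096) (.pos 39 .mp ⟨⟨103528493, 0, 0, 0, 0, 151359910, 0, 0, 0, ⟨0, 0⟩, 0⟩, 0, 0⟩ 0 0) (.cut .s 13996032 (.pos 39 .mp ⟨⟨103578856, 0, 0, 0, 0, 145926816, 0, 0, 0, ⟨0, 0⟩, 0⟩, 0, 0⟩ 0 0) (.pos 39 .mp ⟨⟨104765440, 0, 0, 0, 0, 147054396, 0, 0, 0, ⟨0, 0⟩, 0⟩, 0, 0⟩ 0 0))) (.pos 39 .mp ⟨⟨104132144, 0, 0, 0, 0, 141613314, 0, 0, 0, ⟨0, 0⟩, 0⟩, 0, 0⟩ 0 0)))) (.pos 40 .mp ⟨⟨127427272, 0, 0, 0, 0, 101035341, 0, 0, 0, ⟨0, 0⟩, 0⟩, 0, 0⟩ 0 0)) (.pos 37 .mp ⟨⟨105589003, 0, 0, 0, 0, 133360391, 0, 0, 0, ⟨0, 0⟩, 0⟩, 0, 0⟩ 0 0))) (.cut .d (-16384) (.cut .l 263642 (.void 37 ⟨⟨0,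 0, 0, 0, 0, 100000, 0, 0, 0, ⟨0, 0⟩, 0⟩, 0, 0⟩ 0 0) (.cut .s 14032896 (.pos 37 .mp ⟨⟨102469454, 0, 0, 0, 0, 163301254, 0, 0, 0, ⟨0, 0⟩, 0⟩, 0, 0⟩ 0 0) (.pos 37 .mp ⟨⟨104794008, 0, 0, 0, 0, 166285710, 0, 0, 0, ⟨0, 0⟩, 0⟩, 0, 0⟩ 0 0))) (.cut .l 263642 (.cut .v 16842752 (.cut .s 14032896 (.cut .d (-8192) (.pos 39 .mp ⟨⟨102602755, 0, 0, 0, 0, 163092051, 0, 0, 0, ⟨0, 0⟩, 0⟩, 0, 0⟩ 0 0) (.cut .l 131821 (.cut .v 16809984 (.cut .d (-4096) (.pos 51 .mp ⟨⟨102675100, 0, 0, 0, 0, 161993008, 0, 0, 0, ⟨0, 0⟩, 0⟩, 0, 0⟩ 0 0) (.cut .s 14020608 (.pos 51 .mp ⟨⟨105340064, 0, 0, 0, 0, 149570270, 0, 0, 0, ⟨0, 0⟩, 0⟩, 0, 0⟩ 0 0) (.pos 51 .mp ⟨⟨106575809,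 0, 0, 0, 0, 150736231, 0, 0, 0, ⟨0, 0⟩, 0⟩, 0, 0⟩ 0 0))) (.pos 52 .mp ⟨⟨122403450, 0, 0, 0, 0, 119582139, 0, 0, 0, ⟨0, 0⟩, 0⟩, 0, 0⟩ 0 0)) (.pos 39 .mp ⟨⟨106461334, 0, 0, 0, 0, 144177621, 0, 0, 0, ⟨0, 0⟩, 0⟩, 0, 0⟩ 0 0))) (.cut .d (-8192) (.pos 39 .mp ⟨⟨104912921, 0, 0, 0, 0, 166055245, 0, 0, 0, ⟨0, 0⟩, 0⟩, 0, 0⟩ 0 0) (.cut .l 131821 (.cut .v 16809984 (.cut .d (-4096) (.pos 51 .mp ⟨⟨104978176, 0, 0, 0, 0, 164951677, 0, 0, 0, ⟨0, 0⟩, 0⟩, 0, 0⟩ 0 0) (.cut .s 14045184 (.pos 51 .mp ⟨⟨107814343, 0, 0, 0, 0, 151969066, 0, 0, 0, ⟨0, 0⟩, 0⟩, 0, 0⟩ 0 0) (.pos 51 .mp ⟨⟨109030637, 0, 0, 0, 0, 153329916, 0, 0, 0, ⟨0, 0⟩, 0⟩, 0, 0⟩ 0 0))) (.pos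 52 .mp ⟨⟨125144376, 0, 0, 0, 0, 121617743, 0, 0, 0, ⟨0, 0⟩, 0⟩, 0, 0⟩ 0 0)) (.pos 39 .mp ⟨⟨108851263, 0, 0, 0, 0, 146824619, 0, 0, 0, ⟨0, 0⟩, 0⟩, 0, 0⟩ 0 0)))) (.pos 40 .mp ⟨⟨133224030, 0, 0, 0, 0, 104052074, 0, 0, 0, ⟨0, 0⟩, 0⟩, 0, 0⟩ 0 0)) (.pos 37 .mp ⟨⟨110383193, 0, 0, 0, 0, 138080504, 0, 0, 0, ⟨0, 0⟩, 0⟩, 0, 0⟩ 0 0)))) (.cut .d (-16384) (.cut .s 14008320 (.pos 38 .mp ⟨⟨121221824, 0, 0, 0, 0, 117132134, 0, 0, 0, ⟨0, 0⟩, 0⟩, 0, 0⟩ 0 0) (.cut .s 14032896 (.pos 38 .mp ⟨⟨118243435, 0, 0, 0, 0, 132963618, 0, 0, 0, ⟨0, 0⟩, 0⟩, 0, 0⟩ 0 0) (.pos 38 .mp ⟨⟨120926534, 0, 0, 0, 0, 135239515, 0, 0, 0, ⟨0, 0⟩, 0⟩, 0, 0⟩ 0 0))) (.pos 38 .mp ⟨⟨175302280,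 0, 0, 0, 0, 0, 0, 0, 0, ⟨0, 0⟩, 0⟩, 0, 0⟩ 0 0))) (.cut .v 16908288 (.cut .s 14106624 (.cut .d (-16384) (.cut .l 263642 (.void 37 ⟨⟨0, 0, 0, 0, 0, 100000, 0, 0, 0, ⟨0, 0⟩, 0⟩, 0, 0⟩ 0 0) (.cut .s 14082048 (.pos 37 .mp ⟨⟨107180750, 0, 0, 0, 0, 169401349, 0, 0, 0, ⟨0, 0⟩, 0⟩, 0, 0⟩ 0 0) (.pos 37 .mp ⟨⟨109631332, 0, 0, 0, 0, 172647298, 0, 0, 0, ⟨0, 0⟩, 0⟩, 0, 0⟩ 0 0))) (.cut .l 263642 (.cut .v 16842752 (.cut .s 14082048 (.cut .d (-8192) (.pos 39 .mp ⟨⟨107285159, 0, 0, 0, 0, 169209141, 0, 0, 0, ⟨0, 0⟩, 0⟩, 0, 0⟩ 0 0) (.cut .l 131821 (.cut .v 16809984 (.cut .d (-4096) (.pos 51 .mp ⟨⟨107343272, 0, 0, 0, 0, 168100430, 0, 0, 0, ⟨0, 0⟩, 0⟩,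 0, 0⟩ 0 0) (.cut .s 14069760 (.pos 51 .mp ⟨⟨110254590, 0, 0, 0, 0, 154747075, 0, 0, 0, ⟨0, 0⟩, 0⟩, 0, 0⟩ 0 0) (.pos 51 .mp ⟨⟨111494999, 0, 0, 0, 0, 156199862, 0, 0, 0, ⟨0, 0⟩, 0⟩, 0, 0⟩ 0 0))) (.pos 52 .mp ⟨⟨128136526, 0, 0, 0, 0, 123411473, 0, 0, 0, ⟨0, 0⟩, 0⟩, 0, 0⟩ 0 0)) (.pos 39 .mp ⟨⟨111303547, 0, 0, 0, 0, 149550024, 0, 0, 0, ⟨0, 0⟩, 0⟩, 0, 0⟩ 0 0))) (.cut .d (-8192) (.pos 39 .mp ⟨⟨109721120, 0, 0, 0, 0, 172559158, 0, 0, 0, ⟨0, 0⟩, 0⟩, 0, 0⟩ 0 0) (.cut .l 131821 (.cut .v 16809984 (.cut .d (-4096) (.pos 51 .mp ⟨⟨109772036, 0, 0, 0, 0, 171444669, 0, 0, 0, ⟨0, 0⟩, 0⟩, 0, 0⟩ 0 0) (.cut .s 14094336 (.pos 51 .mp ⟨⟨112752086, 0, 0, 0,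 0, 157688359, 0, 0, 0, ⟨0, 0⟩, 0⟩, 0, 0⟩ 0 0) (.pos 51 .mp ⟨⟨114026074, 0, 0, 0, 0, 159212640, 0, 0, 0, ⟨0, 0⟩, 0⟩, 0, 0⟩ 0 0))) (.pos 52 .mp ⟨⟨131397477, 0, 0, 0, 0, 124930576, 0, 0, 0, ⟨0, 0⟩, 0⟩, 0, 0⟩ 0 0)) (.pos 39 .mp ⟨⟨113819865, 0, 0, 0, 0, 152349442, 0, 0, 0, ⟨0, 0⟩, 0⟩, 0, 0⟩ 0 0)))) (.pos 40 .mp ⟨⟨140029552, 0, 0, 0, 0, 106090180, 0, 0, 0, ⟨0, 0⟩, 0⟩, 0, 0⟩ 0 0)) (.cut .s 14082048 (.pos 37 .mp ⟨⟨112932801, 0, 0, 0, 0, 147297519, 0, 0, 0, ⟨0, 0⟩, 0⟩, 0, 0⟩ 0 0) (.pos 37 .mp ⟨⟨115500848, 0, 0, 0, 0, 150019859, 0, 0, 0, ⟨0, 0⟩, 0⟩, 0, 0⟩ 0 0)))) (.cut .d (-16384) (.cut .l 263642 (.void 37 ⟨⟨0, 0, 0, 0, 0, 100000, 0, 0, 0, ⟨0,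 0⟩, 0⟩, 0, 0⟩ 0 0) (.cut .s 14131200 (.pos 37 .mp ⟨⟨112147467, 0, 0, 0, 0, 176022589, 0, 0, 0, ⟨0, 0⟩, 0⟩, 0, 0⟩ 0 0) (.pos 37 .mp ⟨⟨114730933, 0, 0, 0, 0, 179526151, 0, 0, 0, ⟨0, 0⟩, 0⟩, 0, 0⟩ 0 0))) (.cut .l 263642 (.cut .v 16842752 (.cut .s 14131200 (.cut .d (-8192) (.pos 39 .mp ⟨⟨112222514, 0, 0, 0, 0, 176110915, 0, 0, 0, ⟨0, 0⟩, 0⟩, 0, 0⟩ 0 0) (.cut .l 131821 (.cut .d (-4096) (.pos 39 .mp ⟨⟨115665675, 0, 0, 0, 0, 166374901, 0, 0, 0, ⟨0, 0⟩, 0⟩, 0, 0⟩ 0 0) (.cut .s 14118912 (.pos 39 .mp ⟨⟨115845503, 0, 0, 0, 0, 159680060, 0, 0, 0, ⟨0, 0⟩, 0⟩, 0, 0⟩ 0 0) (.pos 39 .mp ⟨⟨117159457, 0, 0, 0, 0, 161264451, 0, 0, 0, ⟨0, 0⟩, 0⟩, 0, 0⟩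 0 0))) (.pos 39 .mp ⟨⟨116401957, 0, 0, 0, 0, 155218363, 0, 0, 0, ⟨0, 0⟩, 0⟩, 0, 0⟩ 0 0))) (.cut .d (-8192) (.pos 39 .mp ⟨⟨114791113, 0, 0, 0, 0, 179870239, 0, 0, 0, ⟨0, 0⟩, 0⟩, 0, 0⟩ 0 0) (.cut .l 131821 (.cut .d (-4096) (.pos 39 .mp ⟨⟨118509476, 0, 0, 0, 0, 169218709, 0, 0, 0, ⟨0, 0⟩, 0⟩, 0, 0⟩ 0 0) (.cut .s 14143488 (.pos 39 .mp ⟨⟨118482881, 0, 0, 0, 0, 162907385, 0, 0, 0, ⟨0, 0⟩, 0⟩, 0, 0⟩ 0 0) (.pos 39 .mp ⟨⟨119786337, 0, 0, 0, 0, 164691084, 0, 0, 0, ⟨0, 0⟩, 0⟩, 0, 0⟩ 0 0))) (.pos 39 .mp ⟨⟨119051625, 0, 0, 0, 0, 158152154, 0, 0, 0, ⟨0, 0⟩, 0⟩, 0, 0⟩ 0 0)))) (.pos 40 .mp ⟨⟨147986968, 0, 0, 0, 0, 106882806, 0, 0, 0, ⟨0, 0⟩, 0⟩, 0,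 0⟩ 0 0)) (.pos 37 .mp ⟨⟨120719082, 0, 0, 0, 0, 148467939, 0, 0, 0, ⟨0, 0⟩, 0⟩, 0, 0⟩ 0 0)))) (.cut .d (-16384) (.cut .v 16973824 (.cut .v 16941056 (.cut .v 16924672 (.cut .l 263642 (.void 60 ⟨⟨100000, 0, 0, 0, 0, 0, 0, 0, 0, ⟨0, 0⟩, 0⟩, 0, 0⟩ 0 0) (.cut .d (-24576) (.cut .s 14106624 (.pos 60 .mp ⟨⟨111709867, 0, 0, 0, 0, 170626478, 0, 0, 0, ⟨0, 0⟩, 0⟩, 0, 0⟩ 0 0) (.pos 60 .mp ⟨⟨116904357, 0, 0, 0, 0, 177415563, 0, 0, 0, ⟨0, 0⟩, 0⟩, 0, 0⟩ 0 0)) (.pos 60 .mp ⟨⟨192778263, 0, 0, 0, 0, 0, 0, 0, 0, ⟨0, 0⟩, 0⟩, 0, 0⟩ 0 0))) (.pos 61 .mp ⟨⟨210433218, 0, 0, 0, 0, 0, 0, 0, 0, ⟨0, 0⟩, 0⟩, 0, 0⟩ 0 0)) (.pos 59 .mp ⟨⟨211635059, 0, 0, 0, 0, 0, 0,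 0, 0, ⟨0, 0⟩, 0⟩, 0, 0⟩ 0 0)) (.pos 54 .mp ⟨⟨214056941, 0, 0, 0, 0, 0, 0, 0, 0, ⟨0, 0⟩, 0⟩, 0, 0⟩ 0 0)) (.pos 38 .mp ⟨⟨190178372, 0, 0, 0, 0, 0, 0, 0, 0, ⟨0, 0⟩, 0⟩, 0, 0⟩ 0 0))))))) (.pos 34 .mp ⟨⟨230912821, 0, 0, 0, 0, 0, 0, 0, 0, ⟨0, 0⟩, 0⟩, 0, 0⟩ 0 0))) (.pos 32 .mp ⟨⟨254941960, 0, 0, 0, 0, 0, 0, 0, 0, ⟨0, 0⟩, 0⟩, 0, 0⟩ 0 0))) (.void 30 ⟨⟨100000, 0, 0, 0, 0, 0, 0, 0, 0, ⟨0, 0⟩, 0⟩, 0, 0⟩ 0 0))) (.void 28 ⟨⟨100000, 0, 0, 0, 0, 0, 0, 0, 0, ⟨0, 0⟩, 0⟩, 0, 0⟩ 0 0))) (.void 26 ⟨⟨100000, 0, 0, 0, 0, 0, 0, 0, 0, ⟨0, 0⟩, 0⟩, 0, 0⟩ 0 0)))) (.void 24 ⟨⟨100000, 0, 0, 0, 0, 0, 0, 0, 0, ⟨0, 0⟩, 0⟩, 0, 0⟩ 0 0)) (.void 57 ⟨⟨100000, 0, 0, 0, 0,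 0, 0, 0, 0, ⟨0, 0⟩, 0⟩, 0, 0⟩ 0 0)) (.void 68 ⟨⟨100000, 0, 0, 0, 0, 0, 0, 0, 0, ⟨0, 0⟩, 0⟩, 0, 0⟩ 0 0))) (.cut .v 16777216 (.cut .v 8388608 (.cut .v 4194304 (.cut .v 2097152 (.cut .v 1048576 (.void 81 ⟨⟨0, 0, 19122, 0, 0, 0, 0, 0, 80878, ⟨0, 0⟩, 1983364⟩, 0, 0⟩ 0 0) (.pos 82 .pm ⟨⟨0, 0, 15245066, 0, 0, 0, 0, 0, 0, ⟨0, 0⟩, 0⟩, 0, 106954⟩ 0 0)) (.pos 78 .pm ⟨⟨0, 0, 13432203, 0, 0, 0, 0, 0, 0, ⟨0, 0⟩, 0⟩, 0, 137512⟩ 0 0)) (.pos 5 .pm ⟨⟨0, 0, 15685105, 0, 0, 0, 0, 0, 0, ⟨0, 0⟩, 0⟩, 0, 192516⟩ 0 0)) (.pos 3 .pm ⟨⟨0, 0, 0, 0, 0, 0, 0, 0, 0, ⟨0, 0⟩, 0⟩, 0, 0⟩ 0 0)) (.cut .v 67108864 (.cut .d 1693476 (.cut .v 33554432 (.cut .d 846738 (.cut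 .v 25165824 (.cut .d 423369 (.cut .v 20971520 (.cut .v 18874368 (.pos 27 .pp ⟨⟨125756709, 0, 0, 0, 0, 0, 0, 0, 0, ⟨0, 0⟩, 0⟩, 9538496, 0⟩ 0 0) (.pos 28 .pp ⟨⟨222586688, 0, 0, 0, 0, 0, 0, 0, 0, ⟨0, 0⟩, 0⟩, 0, 0⟩ 0 0)) (.pos 26 .pp ⟨⟨316385104, 0, 0, 0, 0, 0, 0, 0, 0, ⟨0, 0⟩, 0⟩, 0, 0⟩ 0 0)) (.pos 23 .pp ⟨⟨0, 0, 0, 0, 0, 0, 0, 0, 0, ⟨0, 0⟩, 0⟩, 23020354, 309932⟩ 0 0)) (.pos 24 .pp ⟨⟨0, 0, 0, 0, 0, 0, 0, 0, 0, ⟨0, 0⟩, 0⟩, 86186526, 0⟩ 0 0)) (.pos 22 .pp ⟨⟨0, 0, 0, 0, 0, 0, 0, 0, 0, ⟨0, 0⟩, 0⟩, 19135186, 347541⟩ 0 0)) (.cut .d 846738 (.void 57 ⟨⟨0, 0, 0, 0, 0, 0, 0, 0, 0, ⟨0, 0⟩, 0⟩, 100000, 0⟩ 0 0) (.pos 57 .pp ⟨⟨0, 0, 0, 0, 0, 0, 0,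 0, 0, ⟨0, 0⟩, 0⟩, 100965276, 0⟩ 0 0))) (.pos 56 .pp ⟨⟨0, 0, 0, 0, 0, 0, 0, 0, 0, ⟨0, 0⟩, 0⟩, 0, 532772⟩ 0 0)) (.void 68 ⟨⟨0, 0, 0, 49797, 0, 0, 0, 0, 0, ⟨0, 0⟩, 0⟩, 50203, 0⟩ 0 0)))),
    by decide +kernel⟩

def covers27 : cell.Covers Vale.Agent.P237.Petty.Cor.Grid.N7.table row27.1 :=
  ⟨(.cut .d 0 (.cut .v 16777216 (.cut .v 8388608 (.void 2 ⟨⟨0, 0, 100000, 0, 0, 0, 0, 0, 0, ⟨0, 0⟩, 0⟩, 0, 0⟩ 0 0) (.cut .d (-8388608) (.void 3 ⟨⟨100000, 0, 0, 0, 0, 0, 0, 0, 0, ⟨0, 0⟩, 0⟩, 0, 0⟩ 0 0) (.cut .d (-4194304) (.void 3 ⟨⟨100000, 0, 0, 0, 0, 0, 0, 0, 0, ⟨0, 0⟩, 0⟩, 0, 0⟩ 0 0) (.cut .d (-2097152) (.void 3 ⟨⟨0, 0, 0, 0, 0, 100000, 0, 0, 0, ⟨0,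 0⟩, 0⟩, 0, 0⟩ 0 0) (.cut .d (-1048576) (.void 3 ⟨⟨0, 0, 0, 0, 0, 100000, 0, 0, 0, ⟨0, 0⟩, 0⟩, 0, 0⟩ 0 0) (.cut .d (-524288) (.void 3 ⟨⟨0, 0, 0, 0, 0, 100000, 0, 0, 0, ⟨0, 0⟩, 0⟩, 0, 0⟩ 0 0) (.cut .s 14237696 (.pos 3 .mm ⟨⟨0, 0, 0, 0, 0, 429636809, 0, 0, 0, ⟨0, 0⟩, 0⟩, 0, 0⟩ 0 0) (.pos 3 .mm ⟨⟨0, 0, 0, 0, 0, 464291460, 0, 0, 0, ⟨0, 0⟩, 0⟩, 0, 0⟩ 0 0)))))))) (.cut .v 268435456 (.cut .v 67108864 (.cut .v 33554432 (.cut .v 25165824 (.cut .d (-8388608) (.void 23 ⟨⟨100000, 0, 0, 0, 0, 0, 0, 0, 0, ⟨0, 0⟩, 0⟩, 0, 0⟩ 0 0) (.cut .d (-4194304) (.void 23 ⟨⟨100000, 0, 0, 0, 0, 0, 0, 0, 0, ⟨0, 0⟩, 0⟩, 0, 0⟩ 0 0) (.cut .v 20971520 (.cut .d (-2097152)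 (.void 25 ⟨⟨100000, 0, 0, 0, 0, 0, 0, 0, 0, ⟨0, 0⟩, 0⟩, 0, 0⟩ 0 0) (.cut .v 18874368 (.cut .d (-1048576) (.void 27 ⟨⟨100000, 0, 0, 0, 0, 0, 0, 0, 0, ⟨0, 0⟩, 0⟩, 0, 0⟩ 0 0) (.cut .v 17825792 (.cut .d (-524288) (.void 29 ⟨⟨100000, 0, 0, 0, 0, 0, 0, 0, 0, ⟨0, 0⟩, 0⟩, 0, 0⟩ 0 0) (.cut .v 17301504 (.cut .d (-262144) (.void 31 ⟨⟨100000, 0, 0, 0, 0, 0, 0, 0, 0, ⟨0, 0⟩, 0⟩, 0, 0⟩ 0 0) (.cut .v 17039360 (.cut .d (-131072) (.void 33 ⟨⟨100000, 0, 0, 0, 0, 0, 0, 0, 0, ⟨0, 0⟩, 0⟩, 0, 0⟩ 0 0) (.cut .d (-65536) (.void 33 ⟨⟨100000, 0, 0, 0, 0, 0, 0, 0, 0, ⟨0, 0⟩, 0⟩, 0, 0⟩ 0 0) (.cut .d (-32768) (.void 33 ⟨⟨0, 0, 0, 0, 0, 100000, 0, 0, 0, ⟨0, 0⟩,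 0⟩, 0, 0⟩ 0 0) (.cut .s 14237696 (.cut .v 16908288 (.cut .s 14196736 (.cut .d (-16384) (.cut .s 14176256 (.pos 37 .mp ⟨⟨117382842, 0, 0, 0, 0, 185020501, 0, 0, 0, ⟨0, 0⟩, 0⟩, 0, 0⟩ 0 0) (.pos 37 .mp ⟨⟨119661337, 0, 0, 0, 0, 187602240, 0, 0, 0, ⟨0, 0⟩, 0⟩, 0, 0⟩ 0 0)) (.cut .l 263642 (.cut .v 16842752 (.cut .s 14176256 (.cut .d (-8192) (.pos 39 .mp ⟨⟨117428100, 0, 0, 0, 0, 182786378, 0, 0, 0, ⟨0, 0⟩, 0⟩, 0, 0⟩ 0 0) (.cut .s 14166016 (.pos 39 .mp ⟨⟨122262193, 0, 0, 0, 0, 163909773, 0, 0, 0, ⟨0, 0⟩, 0⟩, 0, 0⟩ 0 0) (.pos 39 .mp ⟨⟨123430230, 0, 0, 0, 0, 165054651, 0, 0, 0, ⟨0, 0⟩, 0⟩, 0, 0⟩ 0 0))) (.cut .d (-8192) (.pos 39 .mp ⟨⟨119687953,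 0, 0, 0, 0, 185371856, 0, 0, 0, ⟨0, 0⟩, 0⟩, 0, 0⟩ 0 0) (.cut .s 14186496 (.pos 39 .mp ⟨⟨124612069, 0, 0, 0, 0, 166229997, 0, 0, 0, ⟨0, 0⟩, 0⟩, 0, 0⟩ 0 0) (.cut .s 14191616 (.pos 39 .mp ⟨⟨125096471, 0, 0, 0, 0, 168429344, 0, 0, 0, ⟨0, 0⟩, 0⟩, 0, 0⟩ 0 0) (.pos 39 .mp ⟨⟨125635138, 0, 0, 0, 0, 169165723, 0, 0, 0, ⟨0, 0⟩, 0⟩, 0, 0⟩ 0 0))))) (.pos 40 .mp ⟨⟨147024417, 0, 0, 0, 0, 124504491, 0, 0, 0, ⟨0, 0⟩, 0⟩, 0, 0⟩ 0 0)) (.pos 37 .mp ⟨⟨125788301, 0, 0, 0, 0, 155992027, 0, 0, 0, ⟨0, 0⟩, 0⟩, 0, 0⟩ 0 0))) (.cut .d (-16384) (.cut .s 14217216 (.pos 37 .mp ⟨⟨121993097, 0, 0, 0, 0, 190346919, 0, 0, 0, ⟨0, 0⟩, 0⟩, 0, 0⟩ 0 0) (.cut .s 14227456 (.pos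 37 .mp ⟨⟨124379368, 0, 0, 0, 0, 190262434, 0, 0, 0, ⟨0, 0⟩, 0⟩, 0, 0⟩ 0 0) (.pos 37 .mp ⟨⟨125593344, 0, 0, 0, 0, 191734425, 0, 0, 0, ⟨0, 0⟩, 0⟩, 0, 0⟩ 0 0))) (.cut .l 263642 (.cut .v 16842752 (.cut .s 14217216 (.cut .d (-8192) (.pos 39 .mp ⟨⟨122000849, 0, 0, 0, 0, 188119548, 0, 0, 0, ⟨0, 0⟩, 0⟩, 0, 0⟩ 0 0) (.cut .l 131821 (.cut .d (-4096) (.pos 39 .mp ⟨⟨125798234, 0, 0, 0, 0, 177004120, 0, 0, 0, ⟨0, 0⟩, 0⟩, 0, 0⟩ 0 0) (.cut .s 14206976 (.pos 39 .mp ⟨⟨125560665, 0, 0, 0, 0, 171657486, 0, 0, 0, ⟨0, 0⟩, 0⟩, 0, 0⟩ 0 0) (.pos 39 .mp ⟨⟨126804350, 0, 0, 0, 0, 172858053, 0, 0, 0, ⟨0, 0⟩, 0⟩, 0, 0⟩ 0 0))) (.pos 39 .mp ⟨⟨126299929, 0, 0, 0,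 0, 167156441, 0, 0, 0, ⟨0, 0⟩, 0⟩, 0, 0⟩ 0 0))) (.cut .d (-8192) (.pos 39 .mp ⟨⟨124368027, 0, 0, 0, 0, 191033499, 0, 0, 0, ⟨0, 0⟩, 0⟩, 0, 0⟩ 0 0) (.cut .l 131821 (.cut .d (-4096) (.pos 39 .mp ⟨⟨124939662, 0, 0, 0, 0, 191079123, 0, 0, 0, ⟨0, 0⟩, 0⟩, 0, 0⟩ 0 0) (.cut .s 14227456 (.pos 39 .mp ⟨⟨128056894, 0, 0, 0, 0, 174104617, 0, 0, 0, ⟨0, 0⟩, 0⟩, 0, 0⟩ 0 0) (.pos 39 .mp ⟨⟨129318174, 0, 0, 0, 0, 175398026, 0, 0, 0, ⟨0, 0⟩, 0⟩, 0, 0⟩ 0 0))) (.pos 39 .mp ⟨⟨128757189, 0, 0, 0, 0, 169822510, 0, 0, 0, ⟨0, 0⟩, 0⟩, 0, 0⟩ 0 0)))) (.pos 40 .mp ⟨⟨152453374, 0, 0, 0, 0, 128517154, 0, 0, 0, ⟨0, 0⟩, 0⟩, 0, 0⟩ 0 0)) (.cut .s 14217216 (.pos 37 .mp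 ⟨⟨128241420, 0, 0, 0, 0, 164438211, 0, 0, 0, ⟨0, 0⟩, 0⟩, 0, 0⟩ 0 0) (.pos 37 .mp ⟨⟨130752595, 0, 0, 0, 0, 167022816, 0, 0, 0, ⟨0, 0⟩, 0⟩, 0, 0⟩ 0 0))))) (.cut .d (-16384) (.cut .d (-24576) (.pos 38 .mp ⟨⟨140322299, 0, 0, 0, 0, 161726368, 0, 0, 0, ⟨0, 0⟩, 0⟩, 0, 0⟩ 0 0) (.pos 38 .mp ⟨⟨175300100, 0, 0, 0, 0, 77693451, 0, 0, 0, ⟨0, 0⟩, 0⟩, 0, 0⟩ 0 0)) (.pos 38 .mp ⟨⟨205485224, 0, 0, 0, 0, 0, 0, 0, 0, ⟨0, 0⟩, 0⟩, 0, 0⟩ 0 0))) (.cut .d (-16384) (.cut .l 263642 (.void 33 ⟨⟨0, 0, 0, 0, 0, 100000, 0, 0, 0, ⟨0, 0⟩, 0⟩, 0, 0⟩ 0 0) (.cut .v 16908288 (.cut .d (-24576) (.pos 37 .mp ⟨⟨0, 0, 0, 0, 0, 513194958, 0, 0, 0, ⟨0, 0⟩, 0⟩, 0, 0⟩ 0 0) (.cut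 .v 16842752 (.pos 39 .mp ⟨⟨0, 0, 0, 0, 0, 488321357, 0, 0, 0, ⟨0, 0⟩, 0⟩, 0, 0⟩ 0 0) (.cut .s 14278656 (.cut .s 14258176 (.pos 40 .mp ⟨⟨127983054, 0, 0, 0, 0, 191481663, 0, 0, 0, ⟨0, 0⟩, 0⟩, 0, 0⟩ 0 0) (.pos 40 .mp ⟨⟨130503089, 0, 0, 0, 0, 194618447, 0, 0, 0, ⟨0, 0⟩, 0⟩, 0, 0⟩ 0 0)) (.cut .s 14299136 (.pos 40 .mp ⟨⟨133082090, 0, 0, 0, 0, 197886379, 0, 0, 0, ⟨0, 0⟩, 0⟩, 0, 0⟩ 0 0) (.pos 40 .mp ⟨⟨135721483, 0, 0, 0, 0, 201285868, 0, 0, 0, ⟨0, 0⟩, 0⟩, 0, 0⟩ 0 0))))) (.cut .d (-24576) (.pos 38 .mp ⟨⟨141567085, 0, 0, 0, 0, 198678418, 0, 0, 0, ⟨0, 0⟩, 0⟩, 0, 0⟩ 0 0) (.pos 38 .mp ⟨⟨188768468, 0, 0, 0, 0, 81856504, 0, 0, 0, ⟨0, 0⟩, 0⟩, 0,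 0⟩ 0 0)))) (.cut .v 16908288 (.cut .l 263642 (.cut .s 14278656 (.cut .v 16842752 (.cut .s 14258176 (.cut .d (-8192) (.pos 39 .mp ⟨⟨126790764, 0, 0, 0, 0, 194117881, 0, 0, 0, ⟨0, 0⟩, 0⟩, 0, 0⟩ 0 0) (.cut .l 131821 (.cut .d (-4096) (.pos 39 .mp ⟨⟨127362981, 0, 0, 0, 0, 194194340, 0, 0, 0, ⟨0, 0⟩, 0⟩, 0, 0⟩ 0 0) (.cut .s 14247936 (.pos 39 .mp ⟨⟨130586779, 0, 0, 0, 0, 176742695, 0, 0, 0, ⟨0, 0⟩, 0⟩, 0, 0⟩ 0 0) (.pos 39 .mp ⟨⟨131852180, 0, 0, 0, 0, 178168251, 0, 0, 0, ⟨0, 0⟩, 0⟩, 0, 0⟩ 0 0))) (.pos 39 .mp ⟨⟨131272487, 0, 0, 0, 0, 172552875, 0, 0, 0, ⟨0, 0⟩, 0⟩, 0, 0⟩ 0 0))) (.cut .d (-8192) (.pos 39 .mp ⟨⟨129270382, 0, 0, 0, 0, 197377006,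 0, 0, 0, ⟨0, 0⟩, 0⟩, 0, 0⟩ 0 0) (.cut .l 131821 (.cut .d (-4096) (.pos 39 .mp ⟨⟨129843296, 0, 0, 0, 0, 197484869, 0, 0, 0, ⟨0, 0⟩, 0⟩, 0, 0⟩ 0 0) (.cut .s 14268416 (.pos 39 .mp ⟨⟨133132467, 0, 0, 0, 0, 179625192, 0, 0, 0, ⟨0, 0⟩, 0⟩, 0, 0⟩ 0 0) (.pos 39 .mp ⟨⟨134427819, 0, 0, 0, 0, 181113563, 0, 0, 0, ⟨0, 0⟩, 0⟩, 0, 0⟩ 0 0))) (.pos 39 .mp ⟨⟨133847213, 0, 0, 0, 0, 175343994, 0, 0, 0, ⟨0, 0⟩, 0⟩, 0, 0⟩ 0 0)))) (.cut .s 14258176 (.pos 40 .mp ⟨⟨146879672, 0, 0, 0, 0, 150206422, 0, 0, 0, ⟨0, 0⟩, 0⟩, 0, 0⟩ 0 0) (.pos 40 .mp ⟨⟨149915876, 0, 0, 0, 0, 152245723, 0, 0, 0, ⟨0, 0⟩, 0⟩, 0, 0⟩ 0 0))) (.cut .v 16842752 (.cut .s 14299136 (.cut .d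 (-8192) (.pos 39 .mp ⟨⟨131808244, 0, 0, 0, 0, 200815324, 0, 0, 0, ⟨0, 0⟩, 0⟩, 0, 0⟩ 0 0) (.cut .l 131821 (.cut .d (-4096) (.pos 39 .mp ⟨⟨132381972, 0, 0, 0, 0, 200955181, 0, 0, 0, ⟨0, 0⟩, 0⟩, 0, 0⟩ 0 0) (.cut .s 14288896 (.pos 39 .mp ⟨⟨135738418, 0, 0, 0, 0, 182633403, 0, 0, 0, ⟨0, 0⟩, 0⟩, 0, 0⟩ 0 0) (.pos 39 .mp ⟨⟨137061804, 0, 0, 0, 0, 184192057, 0, 0, 0, ⟨0, 0⟩, 0⟩, 0, 0⟩ 0 0))) (.pos 39 .mp ⟨⟨136482805, 0, 0, 0, 0, 178192235, 0, 0, 0, ⟨0, 0⟩, 0⟩, 0, 0⟩ 0 0))) (.cut .d (-8192) (.pos 39 .mp ⟨⟨134405760, 0, 0, 0, 0, 204437433, 0, 0, 0, ⟨0, 0⟩, 0⟩, 0, 0⟩ 0 0) (.cut .l 131821 (.cut .d (-4096) (.pos 39 .mp ⟨⟨134980421, 0, 0, 0, 0, 204609896,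 0, 0, 0, ⟨0, 0⟩, 0⟩, 0, 0⟩ 0 0) (.cut .s 14309376 (.pos 39 .mp ⟨⟨138380374, 0, 0, 0, 0, 185838689, 0, 0, 0, ⟨0, 0⟩, 0⟩, 0, 0⟩ 0 0) (.pos 39 .mp ⟨⟨139706512, 0, 0, 0, 0, 187539627, 0, 0, 0, ⟨0, 0⟩, 0⟩, 0, 0⟩ 0 0))) (.pos 39 .mp ⟨⟨139180749, 0, 0, 0, 0, 181093877, 0, 0, 0, ⟨0, 0⟩, 0⟩, 0, 0⟩ 0 0)))) (.cut .s 14299136 (.pos 40 .mp ⟨⟨153203813, 0, 0, 0, 0, 154016299, 0, 0, 0, ⟨0, 0⟩, 0⟩, 0, 0⟩ 0 0) (.pos 40 .mp ⟨⟨156758240, 0, 0, 0, 0, 155490394, 0, 0, 0, ⟨0, 0⟩, 0⟩, 0, 0⟩ 0 0)))) (.cut .v 16842752 (.pos 39 .mp ⟨⟨0, 0, 0, 0, 0, 405302703, 0, 0, 0, ⟨0, 0⟩, 0⟩, 0, 0⟩ 0 0) (.cut .s 14278656 (.pos 40 .mp ⟨⟨137173581, 0, 0, 0, 0, 166461184,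 0, 0, 0, ⟨0, 0⟩, 0⟩, 0, 0⟩ 0 0) (.pos 40 .mp ⟨⟨142669722, 0, 0, 0, 0, 171711562, 0, 0, 0, ⟨0, 0⟩, 0⟩, 0, 0⟩ 0 0)))) (.pos 38 .mp ⟨⟨220456600, 0, 0, 0, 0, 0, 0, 0, 0, ⟨0, 0⟩, 0⟩, 0, 0⟩ 0 0))))))) (.pos 34 .mp ⟨⟨266256942, 0, 0, 0, 0, 0, 0, 0, 0, ⟨0, 0⟩, 0⟩, 0, 0⟩ 0 0))) (.pos 32 .mp ⟨⟨294291086, 0, 0, 0, 0, 0, 0, 0, 0, ⟨0, 0⟩, 0⟩, 0, 0⟩ 0 0))) (.void 30 ⟨⟨100000, 0, 0, 0, 0, 0, 0, 0, 0, ⟨0, 0⟩, 0⟩, 0, 0⟩ 0 0))) (.void 28 ⟨⟨100000, 0, 0, 0, 0, 0, 0, 0, 0, ⟨0, 0⟩, 0⟩, 0, 0⟩ 0 0))) (.void 26 ⟨⟨100000, 0, 0, 0, 0, 0, 0, 0, 0, ⟨0, 0⟩, 0⟩, 0, 0⟩ 0 0)))) (.void 24 ⟨⟨100000, 0, 0, 0, 0, 0, 0, 0, 0, ⟨0, 0⟩, 0⟩, 0, 0⟩ 0 0)) (.void 57 ⟨⟨100000,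 0, 0, 0, 0, 0, 0, 0, 0, ⟨0, 0⟩, 0⟩, 0, 0⟩ 0 0)) (.void 68 ⟨⟨100000, 0, 0, 0, 0, 0, 0, 0, 0, ⟨0, 0⟩, 0⟩, 0, 0⟩ 0 0)) (.void 87 ⟨⟨90360, 0, 0, 9640, 0, 0, 0, 0, 0, ⟨0, 0⟩, 0⟩, 0, 0⟩ 0 0))) (.cut .v 16777216 (.cut .v 8388608 (.cut .v 4194304 (.cut .v 2097152 (.cut .v 1048576 (.pos 81 .pm ⟨⟨0, 0, 24005608, 0, 0, 0, 0, 0, 15701464, ⟨0, 0⟩, 1983364⟩, 0, 0⟩ 0 0) (.pos 82 .pm ⟨⟨0, 0, 16988144, 0, 0, 0, 0, 0, 0, ⟨0, 0⟩, 0⟩, 0, 97044⟩ 0 0)) (.pos 78 .pm ⟨⟨0, 0, 16143685, 0, 0, 0, 0, 0, 0, ⟨0, 0⟩, 0⟩, 0, 124771⟩ 0 0)) (.pos 5 .pm ⟨⟨0, 0, 20215528, 0, 0, 0, 0, 0, 0, ⟨0, 0⟩, 0⟩, 0, 192523⟩ 0 0)) (.pos 3 .pm ⟨⟨0, 0, 0, 0, 0, 0, 0, 0, 0, ⟨0, 0⟩,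 0⟩, 0, 0⟩ 0 0)) (.cut .v 268435456 (.cut .v 67108864 (.cut .d 1553447 (.cut .v 33554432 (.cut .d 776723 (.cut .v 25165824 (.cut .d 388361 (.cut .v 20971520 (.cut .v 18874368 (.pos 27 .pp ⟨⟨142806748, 0, 0, 0, 0, 0, 0, 0, 0, ⟨0, 0⟩, 0⟩, 12222901, 0⟩ 0 0) (.pos 28 .pp ⟨⟨258383706, 0, 0, 0, 0, 0, 0, 0, 0, ⟨0, 0⟩, 0⟩, 0, 0⟩ 0 0)) (.pos 26 .pp ⟨⟨364202475, 0, 0, 0, 0, 0, 0, 0, 0, ⟨0, 0⟩, 0⟩, 0, 0⟩ 0 0)) (.pos 23 .pp ⟨⟨0, 0, 0, 0, 0, 0, 0, 0, 0, ⟨0, 0⟩, 0⟩, 28173665, 271946⟩ 0 0)) (.pos 24 .pp ⟨⟨0, 0, 0, 0, 0, 0, 0, 0, 0, ⟨0, 0⟩, 0⟩, 98759837, 0⟩ 0 0)) (.pos 22 .pp ⟨⟨0, 0, 0, 0, 0, 0, 0, 0, 0, ⟨0, 0⟩, 0⟩, 24027877, 302754⟩ 0 0)) (.cut .d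 776723 (.void 57 ⟨⟨0, 0, 0, 0, 0, 0, 0, 0, 0, ⟨0, 0⟩, 0⟩, 100000, 0⟩ 0 0) (.pos 57 .pp ⟨⟨0, 0, 0, 0, 0, 0, 0, 0, 0, ⟨0, 0⟩, 0⟩, 115164269, 0⟩ 0 0))) (.pos 56 .pp ⟨⟨0, 0, 0, 0, 0, 0, 0, 0, 0, ⟨0, 0⟩, 0⟩, 0, 481306⟩ 0 0)) (.void 68 ⟨⟨0, 0, 0, 49999, 0, 0, 0, 0, 0, ⟨0, 0⟩, 0⟩, 50001, 0⟩ 0 0)) (.void 87 ⟨⟨0, 0, 0, 0, 0, 0, 0, 0, 0, ⟨0, 0⟩, 0⟩, 100000, 0⟩ 0 0)))),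
    by decide +kernel⟩

def covers28 : cell.Covers Vale.Agent.P237.Petty.Cor.Grid.N7.table row28.1 :=
  ⟨(.cut .d 0 (.cut .v 16777216 (.cut .v 8388608 (.void 2 ⟨⟨0, 0, 100000, 0, 0, 0, 0, 0, 0, ⟨0, 0⟩, 0⟩, 0, 0⟩ 0 0) (.cut .d (-8388608) (.void 3 ⟨⟨100000, 0, 0, 0, 0, 0, 0, 0, 0, ⟨0, 0⟩, 0⟩, 0, 0⟩ 0 0) (.cut .d (-4194304) (.void 3 ⟨⟨100000, 0, 0, 0, 0, 0, 0, 0, 0, ⟨0, 0⟩, 0⟩, 0, 0⟩ 0 0) (.cut .d (-2097152) (.void 3 ⟨⟨0, 0, 0, 0, 0, 100000, 0, 0, 0, ⟨0, 0⟩, 0⟩, 0, 0⟩ 0 0) (.cut .d (-1048576) (.void 3 ⟨⟨0, 0, 0, 0, 0, 100000, 0, 0, 0, ⟨0, 0⟩, 0⟩, 0, 0⟩ 0 0) (.cut .d (-524288) (.void 3 ⟨⟨0, 0, 0, 0, 0, 100000, 0, 0, 0, ⟨0, 0⟩, 0⟩, 0, 0⟩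 0 0) (.cut .s 14401536 (.pos 3 .mm ⟨⟨0, 0, 0, 0, 0, 502657318, 0, 0, 0, ⟨0, 0⟩, 0⟩, 0, 0⟩ 0 0) (.pos 3 .mm ⟨⟨0, 0, 0, 0, 0, 545061970, 0, 0, 0, ⟨0, 0⟩, 0⟩, 0, 0⟩ 0 0)))))))) (.cut .v 268435456 (.cut .v 67108864 (.cut .v 33554432 (.cut .v 25165824 (.cut .d (-8388608) (.void 23 ⟨⟨100000, 0, 0, 0, 0, 0, 0, 0, 0, ⟨0, 0⟩, 0⟩, 0, 0⟩ 0 0) (.cut .d (-4194304) (.void 23 ⟨⟨100000, 0, 0, 0, 0, 0, 0, 0, 0, ⟨0, 0⟩, 0⟩, 0, 0⟩ 0 0) (.cut .v 20971520 (.cut .d (-2097152) (.void 25 ⟨⟨100000, 0, 0, 0, 0, 0, 0, 0, 0, ⟨0, 0⟩, 0⟩, 0, 0⟩ 0 0) (.cut .v 18874368 (.cut .d (-1048576) (.void 27 ⟨⟨100000, 0, 0, 0, 0, 0, 0, 0, 0, ⟨0, 0⟩, 0⟩, 0, 0⟩ 0 0) (.cut .v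 17825792 (.cut .d (-524288) (.void 29 ⟨⟨100000, 0, 0, 0, 0, 0, 0, 0, 0, ⟨0, 0⟩, 0⟩, 0, 0⟩ 0 0) (.cut .v 17301504 (.cut .d (-262144) (.void 31 ⟨⟨100000, 0, 0, 0, 0, 0, 0, 0, 0, ⟨0, 0⟩, 0⟩, 0, 0⟩ 0 0) (.cut .v 17039360 (.cut .d (-131072) (.void 33 ⟨⟨100000, 0, 0, 0, 0, 0, 0, 0, 0, ⟨0, 0⟩, 0⟩, 0, 0⟩ 0 0) (.cut .d (-65536) (.void 33 ⟨⟨100000, 0, 0, 0, 0, 0, 0, 0, 0, ⟨0, 0⟩, 0⟩, 0, 0⟩ 0 0) (.cut .d (-32768) (.void 33 ⟨⟨0, 0, 0, 0, 0, 100000, 0, 0, 0, ⟨0, 0⟩, 0⟩, 0, 0⟩ 0 0) (.cut .s 14401536 (.cut .d (-16384) (.cut .l 263642 (.void 33 ⟨⟨0, 0, 0, 0, 0, 100000, 0, 0, 0, ⟨0, 0⟩, 0⟩, 0, 0⟩ 0 0) (.cut .d (-24576) (.void 33 ⟨⟨0, 0, 0, 0, 0, 100000,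 0, 0, 0, ⟨0, 0⟩, 0⟩, 0, 0⟩ 0 0) (.cut .v 16908288 (.cut .l 395463 (.pos 37 .mp ⟨⟨139285374, 0, 0, 0, 0, 234998960, 0, 0, 0, ⟨0, 0⟩, 0⟩, 0, 0⟩ 0 0) (.cut .s 14360576 (.pos 37 .mp ⟨⟨137175259, 0, 0, 0, 0, 210545451, 0, 0, 0, ⟨0, 0⟩, 0⟩, 0, 0⟩ 0 0) (.pos 37 .mp ⟨⟨142751364, 0, 0, 0, 0, 217394875, 0, 0, 0, ⟨0, 0⟩, 0⟩, 0, 0⟩ 0 0))) (.cut .s 14360576 (.pos 38 .mp ⟨⟨169917448, 0, 0, 0, 0, 146308485, 0, 0, 0, ⟨0, 0⟩, 0⟩, 0, 0⟩ 0 0) (.pos 38 .mp ⟨⟨177292978, 0, 0, 0, 0, 149559524, 0, 0, 0, ⟨0, 0⟩, 0⟩, 0, 0⟩ 0 0))))) (.cut .v 16908288 (.cut .s 14360576 (.cut .l 263642 (.cut .v 16842752 (.cut .s 14340096 (.cut .d (-8192) (.pos 39 .mp ⟨⟨137064749,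 0, 0, 0, 0, 208256874, 0, 0, 0, ⟨0, 0⟩, 0⟩, 0, 0⟩ 0 0) (.cut .l 131821 (.cut .d (-4096) (.pos 39 .mp ⟨⟨137640432, 0, 0, 0, 0, 208463315, 0, 0, 0, ⟨0, 0⟩, 0⟩, 0, 0⟩ 0 0) (.cut .s 14329856 (.pos 39 .mp ⟨⟨141044863, 0, 0, 0, 0, 189285264, 0, 0, 0, ⟨0, 0⟩, 0⟩, 0, 0⟩ 0 0) (.pos 39 .mp ⟨⟨142497348, 0, 0, 0, 0, 190552337, 0, 0, 0, ⟨0, 0⟩, 0⟩, 0, 0⟩ 0 0))) (.pos 39 .mp ⟨⟨141946972, 0, 0, 0, 0, 184658878, 0, 0, 0, ⟨0, 0⟩, 0⟩, 0, 0⟩ 0 0))) (.cut .d (-8192) (.pos 39 .mp ⟨⟨139792784, 0, 0, 0, 0, 211463831, 0, 0, 0, ⟨0, 0⟩, 0⟩, 0, 0⟩ 0 0) (.cut .l 131821 (.cut .d (-4096) (.pos 39 .mp ⟨⟨140366848, 0, 0, 0, 0, 211712335, 0, 0, 0, ⟨0, 0⟩, 0⟩, 0, 0⟩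 0 0) (.cut .s 14350336 (.pos 39 .mp ⟨⟨143936040, 0, 0, 0, 0, 191944351, 0, 0, 0, ⟨0, 0⟩, 0⟩, 0, 0⟩ 0 0) (.pos 39 .mp ⟨⟨145361242, 0, 0, 0, 0, 193461067, 0, 0, 0, ⟨0, 0⟩, 0⟩, 0, 0⟩ 0 0))) (.pos 39 .mp ⟨⟨144781452, 0, 0, 0, 0, 187694053, 0, 0, 0, ⟨0, 0⟩, 0⟩, 0, 0⟩ 0 0)))) (.cut .s 14340096 (.pos 40 .mp ⟨⟨158266000, 0, 0, 0, 0, 161239392, 0, 0, 0, ⟨0, 0⟩, 0⟩, 0, 0⟩ 0 0) (.pos 40 .mp ⟨⟨161025503, 0, 0, 0, 0, 164441009, 0, 0, 0, ⟨0, 0⟩, 0⟩, 0, 0⟩ 0 0))) (.cut .s 14340096 (.pos 37 .mp ⟨⟨144236538, 0, 0, 0, 0, 181412301, 0, 0, 0, ⟨0, 0⟩, 0⟩, 0, 0⟩ 0 0) (.pos 37 .mp ⟨⟨147136947, 0, 0, 0, 0, 184346515, 0, 0, 0, ⟨0, 0⟩, 0⟩, 0, 0⟩ 0 0))) (.cut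 .l 263642 (.cut .d (-8192) (.cut .v 16842752 (.cut .s 14381056 (.pos 39 .mp ⟨⟨142588050, 0, 0, 0, 0, 214880941, 0, 0, 0, ⟨0, 0⟩, 0⟩, 0, 0⟩ 0 0) (.pos 39 .mp ⟨⟨145452229, 0, 0, 0, 0, 218513782, 0, 0, 0, ⟨0, 0⟩, 0⟩, 0, 0⟩ 0 0)) (.pos 40 .mp ⟨⟨168317107, 0, 0, 0, 0, 167827169, 0, 0, 0, ⟨0, 0⟩, 0⟩, 0, 0⟩ 0 0)) (.cut .v 16842752 (.cut .s 14381056 (.cut .l 131821 (.cut .d (-4096) (.pos 39 .mp ⟨⟨143160558, 0, 0, 0, 0, 215172399, 0, 0, 0, ⟨0, 0⟩, 0⟩, 0, 0⟩ 0 0) (.cut .s 14370816 (.pos 39 .mp ⟨⟨146804042, 0, 0, 0, 0, 195017341, 0, 0, 0, ⟨0, 0⟩, 0⟩, 0, 0⟩ 0 0) (.pos 39 .mp ⟨⟨148264659, 0, 0, 0, 0, 196613231, 0, 0, 0, ⟨0, 0⟩, 0⟩, 0, 0⟩ 0 0)))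 (.pos 39 .mp ⟨⟨147686257, 0, 0, 0, 0, 190820664, 0, 0, 0, ⟨0, 0⟩, 0⟩, 0, 0⟩ 0 0)) (.cut .l 131821 (.cut .d (-4096) (.pos 39 .mp ⟨⟨146023245, 0, 0, 0, 0, 218849119, 0, 0, 0, ⟨0, 0⟩, 0⟩, 0, 0⟩ 0 0) (.cut .v 16809984 (.cut .s 14391296 (.pos 51 .mp ⟨⟨149074525, 0, 0, 0, 0, 199641094, 0, 0, 0, ⟨0, 0⟩, 0⟩, 0, 0⟩ 0 0) (.pos 51 .mp ⟨⟨150565282, 0, 0, 0, 0, 201329542, 0, 0, 0, ⟨0, 0⟩, 0⟩, 0, 0⟩ 0 0)) (.pos 52 .mp ⟨⟨238516463, 0, 0, 0, 0, 0, 0, 0, 0, ⟨0, 0⟩, 0⟩, 0, 0⟩ 0 0))) (.pos 39 .mp ⟨⟨150663162, 0, 0, 0, 0, 194034189, 0, 0, 0, ⟨0, 0⟩, 0⟩, 0, 0⟩ 0 0))) (.pos 40 .mp ⟨⟨238217716, 0, 0, 0, 0, 0, 0, 0, 0, ⟨0, 0⟩, 0⟩, 0, 0⟩ 0 0))) (.cut .v 16842752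 (.pos 39 .mp ⟨⟨0, 0, 0, 0, 0, 450983128, 0, 0, 0, ⟨0, 0⟩, 0⟩, 0, 0⟩ 0 0) (.cut .s 14381056 (.pos 40 .mp ⟨⟨151444221, 0, 0, 0, 0, 188075108, 0, 0, 0, ⟨0, 0⟩, 0⟩, 0, 0⟩ 0 0) (.pos 40 .mp ⟨⟨154515648, 0, 0, 0, 0, 191099225, 0, 0, 0, ⟨0, 0⟩, 0⟩, 0, 0⟩ 0 0))))) (.pos 38 .mp ⟨⟨237705197, 0, 0, 0, 0, 0, 0, 0, 0, ⟨0, 0⟩, 0⟩, 0, 0⟩ 0 0))) (.cut .d (-16384) (.cut .l 263642 (.void 33 ⟨⟨0, 0, 0, 0, 0, 100000, 0, 0, 0, ⟨0, 0⟩, 0⟩, 0, 0⟩ 0 0) (.cut .d (-24576) (.void 33 ⟨⟨0, 0, 0, 0, 0, 100000, 0, 0, 0, ⟨0, 0⟩, 0⟩, 0, 0⟩ 0 0) (.cut .v 16908288 (.cut .l 395463 (.pos 37 .mp ⟨⟨150874572, 0, 0, 0, 0, 251477258, 0, 0, 0, ⟨0, 0⟩, 0⟩, 0, 0⟩ 0 0) (.cut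 .s 14442496 (.pos 37 .mp ⟨⟨148604924, 0, 0, 0, 0, 224807020, 0, 0, 0, ⟨0, 0⟩, 0⟩, 0, 0⟩ 0 0) (.pos 37 .mp ⟨⟨154750198, 0, 0, 0, 0, 232771462, 0, 0, 0, ⟨0, 0⟩, 0⟩, 0, 0⟩ 0 0))) (.cut .s 14442496 (.pos 38 .mp ⟨⟨185895171, 0, 0, 0, 0, 151501304, 0, 0, 0, ⟨0, 0⟩, 0⟩, 0, 0⟩ 0 0) (.pos 38 .mp ⟨⟨195879750, 0, 0, 0, 0, 151839784, 0, 0, 0, ⟨0, 0⟩, 0⟩, 0, 0⟩ 0 0))))) (.cut .v 16908288 (.cut .s 14442496 (.cut .l 263642 (.cut .d (-8192) (.cut .v 16842752 (.cut .s 14422016 (.pos 39 .mp ⟨⟨148387060, 0, 0, 0, 0, 222368128, 0, 0, 0, ⟨0, 0⟩, 0⟩, 0, 0⟩ 0 0) (.pos 39 .mp ⟨⟨151394344, 0, 0, 0, 0, 226449951, 0, 0, 0, ⟨0, 0⟩, 0⟩, 0, 0⟩ 0 0)) (.pos 40 .mp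 ⟨⟨176091106, 0, 0, 0, 0, 171638885, 0, 0, 0, ⟨0, 0⟩, 0⟩, 0, 0⟩ 0 0)) (.cut .v 16842752 (.cut .s 14422016 (.cut .l 131821 (.cut .d (-4096) (.pos 39 .mp ⟨⟨148956653, 0, 0, 0, 0, 222748301, 0, 0, 0, ⟨0, 0⟩, 0⟩, 0, 0⟩ 0 0) (.cut .v 16809984 (.cut .s 14411776 (.pos 51 .mp ⟨⟨152074467, 0, 0, 0, 0, 203057922, 0, 0, 0, ⟨0, 0⟩, 0⟩, 0, 0⟩ 0 0) (.pos 51 .mp ⟨⟨153602314, 0, 0, 0, 0, 204826283, 0, 0, 0, ⟨0, 0⟩, 0⟩, 0, 0⟩ 0 0)) (.pos 52 .mp ⟨⟨242990223, 0, 0, 0, 0, 0, 0, 0, 0, ⟨0, 0⟩, 0⟩, 0, 0⟩ 0 0))) (.pos 39 .mp ⟨⟨153714003, 0, 0, 0, 0, 197329987, 0, 0, 0, ⟨0, 0⟩, 0⟩, 0, 0⟩ 0 0)) (.cut .l 131821 (.cut .d (-4096) (.pos 39 .mp ⟨⟨151962582, 0, 0,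 0, 0, 226875951, 0, 0, 0, ⟨0, 0⟩, 0⟩, 0, 0⟩ 0 0) (.cut .v 16809984 (.cut .s 14432256 (.pos 51 .mp ⟨⟨155149062, 0, 0, 0, 0, 206634668, 0, 0, 0, ⟨0, 0⟩, 0⟩, 0, 0⟩ 0 0) (.pos 51 .mp ⟨⟨156714955, 0, 0, 0, 0, 208483117, 0, 0, 0, ⟨0, 0⟩, 0⟩, 0, 0⟩ 0 0)) (.pos 52 .mp ⟨⟨247630013, 0, 0, 0, 0, 0, 0, 0, 0, ⟨0, 0⟩, 0⟩, 0, 0⟩ 0 0))) (.pos 39 .mp ⟨⟨156840682, 0, 0, 0, 0, 200703293, 0, 0, 0, ⟨0, 0⟩, 0⟩, 0, 0⟩ 0 0))) (.pos 40 .mp ⟨⟨247249390, 0, 0, 0, 0, 0, 0, 0, 0, ⟨0, 0⟩, 0⟩, 0, 0⟩ 0 0))) (.cut .d (-8192) (.cut .v 16842752 (.pos 39 .mp ⟨⟨0, 0, 0, 0, 0, 474697957, 0, 0, 0, ⟨0, 0⟩, 0⟩, 0, 0⟩ 0 0) (.cut .s 14422016 (.pos 40 .mp ⟨⟨157663555, 0, 0,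 0, 0, 195126817, 0, 0, 0, ⟨0, 0⟩, 0⟩, 0, 0⟩ 0 0) (.pos 40 .mp ⟨⟨160889908, 0, 0, 0, 0, 198441980, 0, 0, 0, ⟨0, 0⟩, 0⟩, 0, 0⟩ 0 0))) (.pos 37 .mp ⟨⟨151524669, 0, 0, 0, 0, 0, 0, 0, 0, ⟨0, 0⟩, 0⟩, 0, 0⟩ 0 0))) (.cut .l 263642 (.cut .d (-8192) (.cut .s 14462976 (.pos 37 .mp ⟨⟨155872901, 0, 0, 0, 0, 232096405, 0, 0, 0, ⟨0, 0⟩, 0⟩, 0, 0⟩ 0 0) (.pos 37 .mp ⟨⟨159057050, 0, 0, 0, 0, 236692194, 0, 0, 0, ⟨0, 0⟩, 0⟩, 0, 0⟩ 0 0)) (.cut .v 16842752 (.cut .s 14462976 (.cut .l 131821 (.cut .d (-4096) (.pos 39 .mp ⟨⟨155042899, 0, 0, 0, 0, 231238287, 0, 0, 0, ⟨0, 0⟩, 0⟩, 0, 0⟩ 0 0) (.cut .s 14452736 (.pos 39 .mp ⟨⟨159007189, 0, 0, 0, 0, 208898017, 0,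 0, 0, ⟨0, 0⟩, 0⟩, 0, 0⟩ 0 0) (.pos 39 .mp ⟨⟨160618746, 0, 0, 0, 0, 210812564, 0, 0, 0, ⟨0, 0⟩, 0⟩, 0, 0⟩ 0 0))) (.pos 39 .mp ⟨⟨160045169, 0, 0, 0, 0, 204149213, 0, 0, 0, ⟨0, 0⟩, 0⟩, 0, 0⟩ 0 0)) (.cut .l 131821 (.cut .d (-4096) (.pos 39 .mp ⟨⟨158199536, 0, 0, 0, 0, 235841746, 0, 0, 0, ⟨0, 0⟩, 0⟩, 0, 0⟩ 0 0) (.cut .s 14473216 (.pos 39 .mp ⟨⟨162250284, 0, 0, 0, 0, 212767100, 0, 0, 0, ⟨0, 0⟩, 0⟩, 0, 0⟩ 0 0) (.pos 39 .mp ⟨⟨163902064, 0, 0, 0, 0, 214761645, 0, 0, 0, ⟨0, 0⟩, 0⟩, 0, 0⟩ 0 0))) (.pos 39 .mp ⟨⟨163329503, 0, 0, 0, 0, 207662717, 0, 0, 0, ⟨0, 0⟩, 0⟩, 0, 0⟩ 0 0))) (.pos 40 .mp ⟨⟨256954816, 0, 0, 0, 0, 0, 0, 0, 0, ⟨0, 0⟩, 0⟩, 0, 0⟩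 0 0))) (.cut .s 14462976 (.cut .s 14452736 (.pos 37 .mp ⟨⟨161108818, 0, 0, 0, 0, 202469692, 0, 0, 0, ⟨0, 0⟩, 0⟩, 0, 0⟩ 0 0) (.pos 37 .mp ⟨⟨162759000, 0, 0, 0, 0, 204193573, 0, 0, 0, ⟨0, 0⟩, 0⟩, 0, 0⟩ 0 0)) (.pos 37 .mp ⟨⟨166121089, 0, 0, 0, 0, 203644159, 0, 0, 0, ⟨0, 0⟩, 0⟩, 0, 0⟩ 0 0)))) (.pos 38 .mp ⟨⟨256113249, 0, 0, 0, 0, 0, 0, 0, 0, ⟨0, 0⟩, 0⟩, 0, 0⟩ 0 0))))))) (.pos 34 .mp ⟨⟨308368288, 0, 0, 0, 0, 0, 0, 0, 0, ⟨0, 0⟩, 0⟩, 0, 0⟩ 0 0))) (.pos 32 .mp ⟨⟨341798293, 0, 0, 0, 0, 0, 0, 0, 0, ⟨0, 0⟩, 0⟩, 0, 0⟩ 0 0))) (.void 30 ⟨⟨100000, 0, 0, 0, 0, 0, 0, 0, 0, ⟨0, 0⟩, 0⟩, 0, 0⟩ 0 0))) (.void 28 ⟨⟨100000, 0, 0, 0, 0, 0, 0, 0, 0, ⟨0, 0⟩,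 0⟩, 0, 0⟩ 0 0))) (.void 26 ⟨⟨100000, 0, 0, 0, 0, 0, 0, 0, 0, ⟨0, 0⟩, 0⟩, 0, 0⟩ 0 0)))) (.void 24 ⟨⟨100000, 0, 0, 0, 0, 0, 0, 0, 0, ⟨0, 0⟩, 0⟩, 0, 0⟩ 0 0)) (.void 57 ⟨⟨100000, 0, 0, 0, 0, 0, 0, 0, 0, ⟨0, 0⟩, 0⟩, 0, 0⟩ 0 0)) (.void 68 ⟨⟨100000, 0, 0, 0, 0, 0, 0, 0, 0, ⟨0, 0⟩, 0⟩, 0, 0⟩ 0 0)) (.void 87 ⟨⟨90260, 0, 0, 9740, 0, 0, 0, 0, 0, ⟨0, 0⟩, 0⟩, 0, 0⟩ 0 0))) (.cut .v 16777216 (.cut .v 8388608 (.cut .v 4194304 (.cut .v 2097152 (.cut .v 1048576 (.pos 81 .pm ⟨⟨0, 0, 24749750, 0, 0, 0, 0, 0, 16168793, ⟨0, 0⟩, 1983364⟩, 0, 0⟩ 0 0) (.pos 82 .pm ⟨⟨0, 0, 19275024, 0, 0, 0, 0, 0, 0, ⟨0, 0⟩, 0⟩, 0, 87188⟩ 0 0)) (.pos 78 .pm ⟨⟨0, 0, 19334480,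 0, 0, 0, 0, 0, 0, ⟨0, 0⟩, 0⟩, 0, 112099⟩ 0 0)) (.pos 5 .pm ⟨⟨0, 0, 25528529, 0, 0, 0, 0, 0, 0, ⟨0, 0⟩, 0⟩, 0, 174668⟩ 0 0)) (.pos 3 .pm ⟨⟨0, 0, 0, 0, 0, 0, 0, 0, 0, ⟨0, 0⟩, 0⟩, 0, 0⟩ 0 0)) (.cut .v 268435456 (.cut .v 67108864 (.cut .d 1439693 (.cut .v 33554432 (.cut .d 719846 (.cut .v 25165824 (.cut .d 359923 (.cut .v 20971520 (.cut .v 18874368 (.pos 27 .pp ⟨⟨172068714, 0, 0, 0, 0, 0, 0, 0, 0, ⟨0, 0⟩, 0⟩, 12481007, 0⟩ 0 0) (.pos 28 .pp ⟨⟨297346596, 0, 0, 0, 0, 0, 0, 0, 0, ⟨0, 0⟩, 0⟩, 0, 0⟩ 0 0)) (.pos 26 .pp ⟨⟨418640428, 0, 0, 0, 0, 0, 0, 0, 0, ⟨0, 0⟩, 0⟩, 0, 0⟩ 0 0)) (.pos 23 .pp ⟨⟨0, 0, 0, 0, 0, 0, 0, 0, 0, ⟨0, 0⟩, 0⟩, 33531324,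 240178⟩ 0 0)) (.pos 24 .pp ⟨⟨0, 0, 0, 0, 0, 0, 0, 0, 0, ⟨0, 0⟩, 0⟩, 113092239, 0⟩ 0 0)) (.pos 22 .pp ⟨⟨0, 0, 0, 0, 0, 0, 0, 0, 0, ⟨0, 0⟩, 0⟩, 29265233, 265177⟩ 0 0)) (.cut .d 719846 (.void 57 ⟨⟨0, 0, 0, 0, 0, 0, 0, 0, 0, ⟨0, 0⟩, 0⟩, 100000, 0⟩ 0 0) (.pos 57 .pp ⟨⟨0, 0, 0, 0, 0, 0, 0, 0, 0, ⟨0, 0⟩, 0⟩, 129363178, 0⟩ 0 0))) (.pos 56 .pp ⟨⟨0, 0, 0, 0, 0, 0, 0, 0, 0, ⟨0, 0⟩, 0⟩, 0, 436670⟩ 0 0)) (.void 68 ⟨⟨0, 0, 0, 50201, 0, 0, 0, 0, 0, ⟨0, 0⟩, 0⟩, 49799, 0⟩ 0 0)) (.void 87 ⟨⟨0, 0, 0, 0, 0, 0, 0, 0, 0, ⟨0, 0⟩, 0⟩, 100000, 0⟩ 0 0)))),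
    by decide +kernel⟩

def covers29 : cell.Covers Vale.Agent.P237.Petty.Cor.Grid.N7.table row29.1 :=
  ⟨(.cut .d 0 (.cut .v 16777216 (.cut .v 8388608 (.void 2 ⟨⟨0, 0, 100000, 0, 0, 0, 0, 0, 0, ⟨0, 0⟩, 0⟩, 0, 0⟩ 0 0) (.cut .d (-8388608) (.void 3 ⟨⟨100000, 0, 0, 0, 0, 0, 0, 0, 0, ⟨0, 0⟩, 0⟩, 0, 0⟩ 0 0) (.cut .d (-4194304) (.void 3 ⟨⟨100000, 0, 0, 0, 0, 0, 0, 0, 0, ⟨0, 0⟩, 0⟩, 0, 0⟩ 0 0) (.cut .d (-2097152) (.void 3 ⟨⟨65147, 0, 34853, 0, 0, 0, 0, 0, 0, ⟨0, 0⟩, 0⟩, 0, 0⟩ 0 0) (.cut .d (-1048576) (.void 3 ⟨⟨0, 0, 0, 0, 0, 100000, 0, 0, 0, ⟨0, 0⟩, 0⟩, 0, 0⟩ 0 0) (.cut .d (-524288) (.void 3 ⟨⟨0, 0, 0, 0, 0, 100000, 0, 0, 0, ⟨0, 0⟩, 0⟩, 0,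 0⟩ 0 0) (.cut .s 14565376 (.pos 3 .mm ⟨⟨0, 0, 0, 0, 0, 592248316, 0, 0, 0, ⟨0, 0⟩, 0⟩, 0, 0⟩ 0 0) (.pos 3 .mm ⟨⟨0, 0, 0, 0, 0, 644654369, 0, 0, 0, ⟨0, 0⟩, 0⟩, 0, 0⟩ 0 0)))))))) (.cut .v 268435456 (.cut .v 67108864 (.cut .v 33554432 (.cut .v 25165824 (.cut .d (-8388608) (.void 23 ⟨⟨100000, 0, 0, 0, 0, 0, 0, 0, 0, ⟨0, 0⟩, 0⟩, 0, 0⟩ 0 0) (.cut .d (-4194304) (.void 23 ⟨⟨100000, 0, 0, 0, 0, 0, 0, 0, 0, ⟨0, 0⟩, 0⟩, 0, 0⟩ 0 0) (.cut .v 20971520 (.cut .d (-2097152) (.void 25 ⟨⟨100000, 0, 0, 0, 0, 0, 0, 0, 0, ⟨0, 0⟩, 0⟩, 0, 0⟩ 0 0) (.cut .v 18874368 (.cut .d (-1048576) (.void 27 ⟨⟨100000, 0, 0, 0, 0, 0, 0, 0, 0, ⟨0, 0⟩, 0⟩, 0, 0⟩ 0 0) (.cut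 .v 17825792 (.cut .d (-524288) (.void 29 ⟨⟨100000, 0, 0, 0, 0, 0, 0, 0, 0, ⟨0, 0⟩, 0⟩, 0, 0⟩ 0 0) (.cut .v 17301504 (.cut .d (-262144) (.void 31 ⟨⟨100000, 0, 0, 0, 0, 0, 0, 0, 0, ⟨0, 0⟩, 0⟩, 0, 0⟩ 0 0) (.cut .d (-131072) (.void 31 ⟨⟨100000, 0, 0, 0, 0, 0, 0, 0, 0, ⟨0, 0⟩, 0⟩, 0, 0⟩ 0 0) (.cut .v 17039360 (.cut .d (-65536) (.void 33 ⟨⟨100000, 0, 0, 0, 0, 0, 0, 0, 0, ⟨0, 0⟩, 0⟩, 0, 0⟩ 0 0) (.cut .d (-32768) (.void 33 ⟨⟨0, 0, 0, 0, 0, 100000, 0, 0, 0, ⟨0, 0⟩, 0⟩, 0, 0⟩ 0 0) (.cut .d (-16384) (.cut .l 263642 (.void 33 ⟨⟨0, 0, 0, 0, 0, 100000, 0, 0, 0, ⟨0, 0⟩, 0⟩, 0, 0⟩ 0 0) (.cut .d (-24576) (.void 33 ⟨⟨0, 0, 0, 0, 0, 100000, 0, 0, 0,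 ⟨0, 0⟩, 0⟩, 0, 0⟩ 0 0) (.cut .s 14565376 (.cut .v 16908288 (.cut .d (-20480) (.pos 37 .mp ⟨⟨163096535, 0, 0, 0, 0, 271545498, 0, 0, 0, ⟨0, 0⟩, 0⟩, 0, 0⟩ 0 0) (.cut .s 14524416 (.pos 37 .mp ⟨⟨161203109, 0, 0, 0, 0, 247418078, 0, 0, 0, ⟨0, 0⟩, 0⟩, 0, 0⟩ 0 0) (.cut .s 14544896 (.pos 37 .mp ⟨⟨168020853, 0, 0, 0, 0, 247650626, 0, 0, 0, ⟨0, 0⟩, 0⟩, 0, 0⟩ 0 0) (.pos 37 .mp ⟨⟨171563001, 0, 0, 0, 0, 251832016, 0, 0, 0, ⟨0, 0⟩, 0⟩, 0, 0⟩ 0 0)))) (.cut .s 14524416 (.pos 38 .mp ⟨⟨192250121, 0, 0, 0, 0, 183326819, 0, 0, 0, ⟨0, 0⟩, 0⟩, 0, 0⟩ 0 0) (.pos 38 .mp ⟨⟨200622598, 0, 0, 0, 0, 188596072, 0, 0, 0, ⟨0, 0⟩, 0⟩, 0, 0⟩ 0 0))) (.cut .l 395463 (.void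 33 ⟨⟨0, 0, 0, 0, 0, 100000, 0, 0, 0, ⟨0, 0⟩, 0⟩, 0, 0⟩ 0 0) (.cut .v 16908288 (.cut .s 14606336 (.pos 37 .mp ⟨⟨175197221, 0, 0, 0, 0, 261981885, 0, 0, 0, ⟨0, 0⟩, 0⟩, 0, 0⟩ 0 0) (.pos 37 .mp ⟨⟨182752091, 0, 0, 0, 0, 271799427, 0, 0, 0, ⟨0, 0⟩, 0⟩, 0, 0⟩ 0 0)) (.cut .s 14606336 (.pos 38 .mp ⟨⟨210590973, 0, 0, 0, 0, 192140156, 0, 0, 0, ⟨0, 0⟩, 0⟩, 0, 0⟩ 0 0) (.pos 38 .mp ⟨⟨222371503, 0, 0, 0, 0, 193548724, 0, 0, 0, ⟨0, 0⟩, 0⟩, 0, 0⟩ 0 0))))))) (.cut .s 14565376 (.cut .v 16908288 (.cut .s 14524416 (.cut .s 14503936 (.cut .l 263642 (.cut .d (-8192) (.pos 37 .mp ⟨⟨162320613, 0, 0, 0, 0, 241549488, 0, 0, 0, ⟨0, 0⟩, 0⟩, 0, 0⟩ 0 0) (.cut .v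 16842752 (.cut .l 131821 (.cut .d (-4096) (.pos 39 .mp ⟨⟨161434967, 0, 0, 0, 0, 240706205, 0, 0, 0, ⟨0, 0⟩, 0⟩, 0, 0⟩ 0 0) (.cut .s 14493696 (.pos 39 .mp ⟨⟨165535558, 0, 0, 0, 0, 216906821, 0, 0, 0, ⟨0, 0⟩, 0⟩, 0, 0⟩ 0 0) (.pos 39 .mp ⟨⟨167269440, 0, 0, 0, 0, 218510096, 0, 0, 0, ⟨0, 0⟩, 0⟩, 0, 0⟩ 0 0))) (.pos 39 .mp ⟨⟨166702238, 0, 0, 0, 0, 212119761, 0, 0, 0, ⟨0, 0⟩, 0⟩, 0, 0⟩ 0 0)) (.pos 40 .mp ⟨⟨263282116, 0, 0, 0, 0, 0, 0, 0, 0, ⟨0, 0⟩, 0⟩, 0, 0⟩ 0 0))) (.cut .s 14493696 (.pos 37 .mp ⟨⟨167838775, 0, 0, 0, 0, 209899260, 0, 0, 0, ⟨0, 0⟩, 0⟩, 0, 0⟩ 0 0) (.pos 37 .mp ⟨⟨169578272, 0, 0, 0, 0, 211688451, 0, 0, 0, ⟨0, 0⟩, 0⟩, 0, 0⟩ 0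 0))) (.cut .l 263642 (.cut .d (-8192) (.pos 37 .mp ⟨⟨165674860, 0, 0, 0, 0, 245394743, 0, 0, 0, ⟨0, 0⟩, 0⟩, 0, 0⟩ 0 0) (.cut .v 16842752 (.cut .l 131821 (.cut .d (-4096) (.pos 39 .mp ⟨⟨164756183, 0, 0, 0, 0, 244572925, 0, 0, 0, ⟨0, 0⟩, 0⟩, 0, 0⟩ 0 0) (.cut .s 14514176 (.pos 39 .mp ⟨⟨168985844, 0, 0, 0, 0, 220272793, 0, 0, 0, ⟨0, 0⟩, 0⟩, 0, 0⟩ 0 0) (.cut .s 14519296 (.pos 39 .mp ⟨⟨169356161, 0, 0, 0, 0, 224262976, 0, 0, 0, ⟨0, 0⟩, 0⟩, 0, 0⟩ 0 0) (.pos 39 .mp ⟨⟨170167302, 0, 0, 0, 0, 225307558, 0, 0, 0, ⟨0, 0⟩, 0⟩, 0, 0⟩ 0 0)))) (.pos 39 .mp ⟨⟨170162737, 0, 0, 0, 0, 215805526, 0, 0, 0, ⟨0, 0⟩, 0⟩, 0, 0⟩ 0 0)) (.pos 40 .mp ⟨⟨268120752,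 0, 0, 0, 0, 0, 0, 0, 0, ⟨0, 0⟩, 0⟩, 0, 0⟩ 0 0))) (.cut .s 14514176 (.pos 37 .mp ⟨⟨171340475, 0, 0, 0, 0, 213508138, 0, 0, 0, ⟨0, 0⟩, 0⟩, 0, 0⟩ 0 0) (.pos 37 .mp ⟨⟨173125688, 0, 0, 0, 0, 215357559, 0, 0, 0, ⟨0, 0⟩, 0⟩, 0, 0⟩ 0 0)))) (.cut .s 14544896 (.cut .l 263642 (.cut .d (-8192) (.pos 37 .mp ⟨⟨169116307, 0, 0, 0, 0, 249514551, 0, 0, 0, ⟨0, 0⟩, 0⟩, 0, 0⟩ 0 0) (.cut .v 16842752 (.cut .l 131821 (.cut .d (-4096) (.pos 39 .mp ⟨⟨168163860, 0, 0, 0, 0, 248713876, 0, 0, 0, ⟨0, 0⟩, 0⟩, 0, 0⟩ 0 0) (.cut .v 16809984 (.cut .s 14534656 (.pos 51 .mp ⟨⟨171723686, 0, 0, 0, 0, 225542182, 0, 0, 0, ⟨0, 0⟩, 0⟩, 0, 0⟩ 0 0) (.cut .s 14539776 (.pos 51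 .mp ⟨⟨173860205, 0, 0, 0, 0, 225847980, 0, 0, 0, ⟨0, 0⟩, 0⟩, 0, 0⟩ 0 0) (.pos 51 .mp ⟨⟨174697403, 0, 0, 0, 0, 226942212, 0, 0, 0, ⟨0, 0⟩, 0⟩, 0, 0⟩ 0 0))) (.pos 52 .mp ⟨⟨272444603, 0, 0, 0, 0, 0, 0, 0, 0, ⟨0, 0⟩, 0⟩, 0, 0⟩ 0 0))) (.pos 39 .mp ⟨⟨173713884, 0, 0, 0, 0, 219610700, 0, 0, 0, ⟨0, 0⟩, 0⟩, 0, 0⟩ 0 0)) (.pos 40 .mp ⟨⟨273158712, 0, 0, 0, 0, 0, 0, 0, 0, ⟨0, 0⟩, 0⟩, 0, 0⟩ 0 0))) (.cut .s 14534656 (.pos 37 .mp ⟨⟨174934219, 0, 0, 0, 0, 217235938, 0, 0, 0, ⟨0, 0⟩, 0⟩, 0, 0⟩ 0 0) (.pos 37 .mp ⟨⟨176766381, 0, 0, 0, 0, 219142492, 0, 0, 0, ⟨0, 0⟩, 0⟩, 0, 0⟩ 0 0))) (.cut .l 263642 (.cut .d (-8192) (.pos 37 .mp ⟨⟨172647302, 0, 0, 0, 0,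 253916732, 0, 0, 0, ⟨0, 0⟩, 0⟩, 0, 0⟩ 0 0) (.cut .v 16842752 (.cut .l 131821 (.cut .d (-4096) (.pos 39 .mp ⟨⟨171660327, 0, 0, 0, 0, 253136867, 0, 0, 0, ⟨0, 0⟩, 0⟩, 0, 0⟩ 0 0) (.cut .v 16809984 (.cut .l 65910 (.cut .d (-2048) (.pos 51 .mp ⟨⟨171171133, 0, 0, 0, 0, 252738238, 0, 0, 0, ⟨0, 0⟩, 0⟩, 0, 0⟩ 0 0) (.cut .s 14555136 (.pos 51 .mp ⟨⟨174192966, 0, 0, 0, 0, 231717142, 0, 0, 0, ⟨0, 0⟩, 0⟩, 0, 0⟩ 0 0) (.pos 51 .mp ⟨⟨176036684, 0, 0, 0, 0, 233684611, 0, 0, 0, ⟨0, 0⟩, 0⟩, 0, 0⟩ 0 0))) (.pos 51 .mp ⟨⟨175794773, 0, 0, 0, 0, 225799156, 0, 0, 0, ⟨0, 0⟩, 0⟩, 0, 0⟩ 0 0)) (.pos 52 .mp ⟨⟨277673367, 0, 0, 0, 0, 0, 0, 0, 0, ⟨0, 0⟩, 0⟩, 0, 0⟩ 0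 0))) (.pos 39 .mp ⟨⟨177358144, 0, 0, 0, 0, 223529108, 0, 0, 0, ⟨0, 0⟩, 0⟩, 0, 0⟩ 0 0)) (.pos 40 .mp ⟨⟨278401263, 0, 0, 0, 0, 0, 0, 0, 0, ⟨0, 0⟩, 0⟩, 0, 0⟩ 0 0))) (.cut .s 14555136 (.pos 37 .mp ⟨⟨178622495, 0, 0, 0, 0, 221076424, 0, 0, 0, ⟨0, 0⟩, 0⟩, 0, 0⟩ 0 0) (.pos 37 .mp ⟨⟨180502886, 0, 0, 0, 0, 223036927, 0, 0, 0, ⟨0, 0⟩, 0⟩, 0, 0⟩ 0 0))))) (.pos 38 .mp ⟨⟨277478867, 0, 0, 0, 0, 0, 0, 0, 0, ⟨0, 0⟩, 0⟩, 0, 0⟩ 0 0)) (.cut .v 16908288 (.cut .s 14606336 (.cut .s 14585856 (.cut .l 263642 (.cut .d (-8192) (.pos 37 .mp ⟨⟨176270279, 0, 0, 0, 0, 258609396, 0, 0, 0, ⟨0, 0⟩, 0⟩, 0, 0⟩ 0 0) (.cut .v 16842752 (.cut .l 131821 (.cut .d (-4096)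 (.pos 39 .mp ⟨⟨175247999, 0, 0, 0, 0, 257850000, 0, 0, 0, ⟨0, 0⟩, 0⟩, 0, 0⟩ 0 0) (.cut .v 16809984 (.cut .l 65910 (.cut .d (-2048) (.pos 51 .mp ⟨⟨174741241, 0, 0, 0, 0, 257461449, 0, 0, 0, ⟨0, 0⟩, 0⟩, 0, 0⟩ 0 0) (.cut .s 14575616 (.pos 51 .mp ⟨⟨177892386, 0, 0, 0, 0, 235735623, 0, 0, 0, ⟨0, 0⟩, 0⟩, 0, 0⟩ 0 0) (.pos 51 .mp ⟨⟨179759671, 0, 0, 0, 0, 237872180, 0, 0, 0, ⟨0, 0⟩, 0⟩, 0, 0⟩ 0 0))) (.pos 51 .mp ⟨⟨179487422, 0, 0, 0, 0, 229898400, 0, 0, 0, ⟨0, 0⟩, 0⟩, 0, 0⟩ 0 0)) (.pos 52 .mp ⟨⟨283111640, 0, 0, 0, 0, 0, 0, 0, 0, ⟨0, 0⟩, 0⟩, 0, 0⟩ 0 0))) (.pos 39 .mp ⟨⟨181098072, 0, 0, 0, 0, 227554395, 0, 0, 0, ⟨0, 0⟩, 0⟩, 0, 0⟩ 0 0)) (.pos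 40 .mp ⟨⟨283853870, 0, 0, 0, 0, 0, 0, 0, 0, ⟨0, 0⟩, 0⟩, 0, 0⟩ 0 0))) (.cut .s 14575616 (.pos 37 .mp ⟨⟨182407885, 0, 0, 0, 0, 225023180, 0, 0, 0, ⟨0, 0⟩, 0⟩, 0, 0⟩ 0 0) (.pos 37 .mp ⟨⟨184337832, 0, 0, 0, 0, 227034354, 0, 0, 0, ⟨0, 0⟩, 0⟩, 0, 0⟩ 0 0))) (.cut .l 263642 (.cut .d (-8192) (.pos 37 .mp ⟨⟨179987766, 0, 0, 0, 0, 263600957, 0, 0, 0, ⟨0, 0⟩, 0⟩, 0, 0⟩ 0 0) (.cut .v 16842752 (.cut .l 131821 (.cut .d (-4096) (.pos 39 .mp ⟨⟨178929379, 0, 0, 0, 0, 262861677, 0, 0, 0, ⟨0, 0⟩, 0⟩, 0, 0⟩ 0 0) (.cut .v 16809984 (.cut .l 65910 (.cut .d (-2048) (.pos 51 .mp ⟨⟨178404661, 0, 0, 0, 0, 262483021, 0, 0, 0, ⟨0, 0⟩, 0⟩, 0, 0⟩ 0 0) (.cut .s 14596096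 (.pos 51 .mp ⟨⟨181638404, 0, 0, 0, 0, 240095558, 0, 0, 0, ⟨0, 0⟩, 0⟩, 0, 0⟩ 0 0) (.pos 51 .mp ⟨⟨183528019, 0, 0, 0, 0, 242408232, 0, 0, 0, ⟨0, 0⟩, 0⟩, 0, 0⟩ 0 0))) (.pos 51 .mp ⟨⟨183276976, 0, 0, 0, 0, 234100329, 0, 0, 0, ⟨0, 0⟩, 0⟩, 0, 0⟩ 0 0)) (.pos 52 .mp ⟨⟨288765076, 0, 0, 0, 0, 0, 0, 0, 0, ⟨0, 0⟩, 0⟩, 0, 0⟩ 0 0))) (.pos 39 .mp ⟨⟨184936323, 0, 0, 0, 0, 231680021, 0, 0, 0, ⟨0, 0⟩, 0⟩, 0, 0⟩ 0 0)) (.pos 40 .mp ⟨⟨289522204, 0, 0, 0, 0, 0, 0, 0, 0, ⟨0, 0⟩, 0⟩, 0, 0⟩ 0 0))) (.cut .s 14596096 (.pos 37 .mp ⟨⟨186293070, 0, 0, 0, 0, 229069605, 0, 0, 0, ⟨0, 0⟩, 0⟩, 0, 0⟩ 0 0) (.pos 37 .mp ⟨⟨188273950, 0, 0, 0, 0, 231128076, 0, 0, 0, ⟨0,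 0⟩, 0⟩, 0, 0⟩ 0 0)))) (.cut .s 14626816 (.cut .l 263642 (.cut .d (-8192) (.pos 37 .mp ⟨⟨183802384, 0, 0, 0, 0, 268900146, 0, 0, 0, ⟨0, 0⟩, 0⟩, 0, 0⟩ 0 0) (.cut .v 16842752 (.cut .l 131821 (.cut .d (-4096) (.pos 39 .mp ⟨⟨182707068, 0, 0, 0, 0, 268180618, 0, 0, 0, ⟨0, 0⟩, 0⟩, 0, 0⟩ 0 0) (.cut .v 16809984 (.cut .l 65910 (.cut .d (-2048) (.pos 51 .mp ⟨⟨182163981, 0, 0, 0, 0, 267811671, 0, 0, 0, ⟨0, 0⟩, 0⟩, 0, 0⟩ 0 0) (.cut .s 14616576 (.pos 51 .mp ⟨⟨185428213, 0, 0, 0, 0, 244811953, 0, 0, 0, ⟨0, 0⟩, 0⟩, 0, 0⟩ 0 0) (.pos 51 .mp ⟨⟨187338600, 0, 0, 0, 0, 247308712, 0, 0, 0, ⟨0, 0⟩, 0⟩, 0, 0⟩ 0 0))) (.pos 51 .mp ⟨⟨187166149, 0, 0, 0, 0, 238398286,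 0, 0, 0, ⟨0, 0⟩, 0⟩, 0, 0⟩ 0 0)) (.pos 52 .mp ⟨⟨294639544, 0, 0, 0, 0, 0, 0, 0, 0, ⟨0, 0⟩, 0⟩, 0, 0⟩ 0 0))) (.pos 39 .mp ⟨⟨188875650, 0, 0, 0, 0, 235899249, 0, 0, 0, ⟨0, 0⟩, 0⟩, 0, 0⟩ 0 0)) (.pos 40 .mp ⟨⟨295412148, 0, 0, 0, 0, 0, 0, 0, 0, ⟨0, 0⟩, 0⟩, 0, 0⟩ 0 0))) (.cut .s 14616576 (.pos 37 .mp ⟨⟨190280829, 0, 0, 0, 0, 233208898, 0, 0, 0, ⟨0, 0⟩, 0⟩, 0, 0⟩ 0 0) (.pos 37 .mp ⟨⟨192314072, 0, 0, 0, 0, 235311190, 0, 0, 0, ⟨0, 0⟩, 0⟩, 0, 0⟩ 0 0))) (.cut .l 263642 (.cut .d (-8192) (.pos 37 .mp ⟨⟨187716854, 0, 0, 0, 0, 274516025, 0, 0, 0, ⟨0, 0⟩, 0⟩, 0, 0⟩ 0 0) (.cut .v 16842752 (.cut .l 131821 (.cut .d (-4096) (.pos 39 .mp ⟨⟨186583764, 0,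 0, 0, 0, 273815874, 0, 0, 0, ⟨0, 0⟩, 0⟩, 0, 0⟩ 0 0) (.cut .v 16809984 (.cut .s 14637056 (.pos 51 .mp ⟨⟨190576133, 0, 0, 0, 0, 247153937, 0, 0, 0, ⟨0, 0⟩, 0⟩, 0, 0⟩ 0 0) (.pos 51 .mp ⟨⟨192599850, 0, 0, 0, 0, 249597173, 0, 0, 0, ⟨0, 0⟩, 0⟩, 0, 0⟩ 0 0)) (.pos 52 .mp ⟨⟨300741138, 0, 0, 0, 0, 0, 0, 0, 0, ⟨0, 0⟩, 0⟩, 0, 0⟩ 0 0))) (.pos 39 .mp ⟨⟨192918914, 0, 0, 0, 0, 240205137, 0, 0, 0, ⟨0, 0⟩, 0⟩, 0, 0⟩ 0 0)) (.pos 40 .mp ⟨⟨301529811, 0, 0, 0, 0, 0, 0, 0, 0, ⟨0, 0⟩, 0⟩, 0, 0⟩ 0 0))) (.cut .s 14637056 (.pos 37 .mp ⟨⟨194374051, 0, 0, 0, 0, 237434054, 0, 0, 0, ⟨0, 0⟩, 0⟩, 0, 0⟩ 0 0) (.pos 37 .mp ⟨⟨196461143, 0, 0, 0, 0, 239576583, 0, 0, 0,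 ⟨0, 0⟩, 0⟩, 0, 0⟩ 0 0))))) (.pos 38 .mp ⟨⟨300010556, 0, 0, 0, 0, 0, 0, 0, 0, ⟨0, 0⟩, 0⟩, 0, 0⟩ 0 0)))))) (.pos 34 .mp ⟨⟨346901549, 0, 0, 0, 0, 0, 0, 0, 0, ⟨0, 0⟩, 0⟩, 0, 0⟩ 0 0)))) (.pos 32 .mp ⟨⟨399940286, 0, 0, 0, 0, 0, 0, 0, 0, ⟨0, 0⟩, 0⟩, 0, 0⟩ 0 0))) (.void 30 ⟨⟨100000, 0, 0, 0, 0, 0, 0, 0, 0, ⟨0, 0⟩, 0⟩, 0, 0⟩ 0 0))) (.void 28 ⟨⟨100000, 0, 0, 0, 0, 0, 0, 0, 0, ⟨0, 0⟩, 0⟩, 0, 0⟩ 0 0))) (.void 26 ⟨⟨100000, 0, 0, 0, 0, 0, 0, 0, 0, ⟨0, 0⟩, 0⟩, 0, 0⟩ 0 0)))) (.void 24 ⟨⟨100000, 0, 0, 0, 0, 0, 0, 0, 0, ⟨0, 0⟩, 0⟩, 0, 0⟩ 0 0)) (.void 57 ⟨⟨100000, 0, 0, 0, 0, 0, 0, 0, 0, ⟨0, 0⟩, 0⟩, 0, 0⟩ 0 0)) (.void 68 ⟨⟨100000, 0, 0, 0, 0, 0, 0, 0,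 0, ⟨0, 0⟩, 0⟩, 0, 0⟩ 0 0)) (.void 87 ⟨⟨90161, 0, 0, 9839, 0, 0, 0, 0, 0, ⟨0, 0⟩, 0⟩, 0, 0⟩ 0 0))) (.cut .v 16777216 (.cut .v 8388608 (.cut .v 4194304 (.cut .v 2097152 (.cut .v 1048576 (.pos 81 .pm ⟨⟨0, 0, 25881890, 0, 0, 0, 0, 0, 16606131, ⟨0, 0⟩, 1983364⟩, 0, 0⟩ 0 0) (.pos 82 .pm ⟨⟨0, 0, 22748013, 0, 0, 0, 0, 0, 0, ⟨0, 0⟩, 0⟩, 0, 69279⟩ 0 0)) (.pos 78 .pm ⟨⟨0, 0, 23498634, 0, 0, 0, 0, 0, 0, ⟨0, 0⟩, 0⟩, 0, 99295⟩ 0 0)) (.pos 5 .pm ⟨⟨0, 0, 33786028, 0, 0, 0, 0, 0, 0, ⟨0, 0⟩, 0⟩, 0, 156926⟩ 0 0)) (.pos 3 .pm ⟨⟨0, 0, 0, 0, 0, 0, 0, 0, 0, ⟨0, 0⟩, 0⟩, 0, 0⟩ 0 0)) (.cut .v 268435456 (.cut .v 67108864 (.cut .d 1328514 (.cut .v 33554432 (.cut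 .d 664257 (.cut .v 25165824 (.cut .d 332128 (.cut .v 20971520 (.cut .v 18874368 (.pos 27 .pp ⟨⟨208628937, 0, 0, 0, 0, 0, 0, 0, 0, ⟨0, 0⟩, 0⟩, 12549592, 0⟩ 0 0) (.pos 28 .pp ⟨⟨344574971, 0, 0, 0, 0, 0, 0, 0, 0, ⟨0, 0⟩, 0⟩, 0, 0⟩ 0 0)) (.pos 26 .pp ⟨⟨484585440, 0, 0, 0, 0, 0, 0, 0, 0, ⟨0, 0⟩, 0⟩, 0, 0⟩ 0 0)) (.pos 23 .pp ⟨⟨0, 0, 0, 0, 0, 0, 0, 0, 0, ⟨0, 0⟩, 0⟩, 40141740, 210102⟩ 0 0)) (.cut .d 332128 (.pos 24 .pp ⟨⟨0, 0, 0, 0, 0, 0, 0, 0, 0, ⟨0, 0⟩, 0⟩, 143083730, 0⟩ 0 0) (.pos 24 .pp ⟨⟨0, 0, 0, 0, 0, 0, 0, 0, 0, ⟨0, 0⟩, 0⟩, 100729892, 0⟩ 0 0))) (.pos 22 .pp ⟨⟨0, 0, 0, 0, 0, 0, 0, 0, 0, ⟨0, 0⟩, 0⟩, 35885613, 229422⟩ 0 0)) (.cut .d 664257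 (.void 57 ⟨⟨0, 0, 0, 0, 0, 0, 0, 0, 0, ⟨0, 0⟩, 0⟩, 100000, 0⟩ 0 0) (.pos 57 .pp ⟨⟨0, 0, 0, 0, 0, 0, 0, 0, 0, ⟨0, 0⟩, 0⟩, 146294775, 0⟩ 0 0))) (.pos 56 .pp ⟨⟨0, 0, 0, 0, 0, 0, 0, 0, 0, ⟨0, 0⟩, 0⟩, 0, 392315⟩ 0 0)) (.void 68 ⟨⟨0, 0, 0, 50402, 0, 0, 0, 0, 0, ⟨0, 0⟩, 0⟩, 49598, 0⟩ 0 0)) (.void 87 ⟨⟨0, 0, 0, 0, 0, 0, 0, 0, 0, ⟨0, 0⟩, 0⟩, 100000, 0⟩ 0 0)))),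
    by decide +kernel⟩

def covers30 : cell.Covers Vale.Agent.P237.Petty.Cor.Grid.N7.table row30.1 :=
  ⟨(.cut .d 0 (.cut .v 16777216 (.cut .v 8388608 (.void 2 ⟨⟨0, 0, 100000, 0, 0, 0, 0, 0, 0, ⟨0, 0⟩, 0⟩, 0, 0⟩ 0 0) (.cut .d (-8388608) (.void 3 ⟨⟨100000, 0, 0, 0, 0, 0, 0, 0, 0, ⟨0, 0⟩, 0⟩, 0, 0⟩ 0 0) (.cut .d (-4194304) (.void 3 ⟨⟨100000, 0, 0, 0, 0, 0, 0, 0, 0, ⟨0, 0⟩, 0⟩, 0, 0⟩ 0 0) (.cut .d (-2097152) (.void 3 ⟨⟨64951, 0, 35049, 0, 0, 0, 0, 0, 0, ⟨0, 0⟩, 0⟩, 0, 0⟩ 0 0) (.cut .d (-1048576) (.void 3 ⟨⟨0, 0, 0, 0, 0, 100000, 0, 0, 0, ⟨0, 0⟩, 0⟩, 0, 0⟩ 0 0) (.cut .d (-524288) (.void 3 ⟨⟨0, 0, 0, 0, 0, 100000, 0, 0, 0, ⟨0, 0⟩, 0⟩, 0,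 0⟩ 0 0) (.cut .s 14729216 (.pos 3 .mm ⟨⟨0, 0, 0, 0, 0, 703320403, 0, 0, 0, ⟨0, 0⟩, 0⟩, 0, 0⟩ 0 0) (.pos 3 .mm ⟨⟨0, 0, 0, 0, 0, 768923702, 0, 0, 0, ⟨0, 0⟩, 0⟩, 0, 0⟩ 0 0)))))))) (.cut .v 268435456 (.cut .v 67108864 (.cut .v 33554432 (.cut .d (-8388608) (.void 22 ⟨⟨99999, 0, 0, 0, 0, 0, 0, 0, 0, ⟨0, 0⟩, 0⟩, 0, 0⟩ 0 0) (.cut .v 25165824 (.cut .d (-4194304) (.void 23 ⟨⟨100000, 0, 0, 0, 0, 0, 0, 0, 0, ⟨0, 0⟩, 0⟩, 0, 0⟩ 0 0) (.cut .v 20971520 (.cut .d (-2097152) (.void 25 ⟨⟨100000, 0, 0, 0, 0, 0, 0, 0, 0, ⟨0, 0⟩, 0⟩, 0, 0⟩ 0 0) (.cut .v 18874368 (.cut .d (-1048576) (.void 27 ⟨⟨100000, 0, 0, 0, 0, 0, 0, 0, 0, ⟨0, 0⟩, 0⟩, 0, 0⟩ 0 0) (.cut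 .v 17825792 (.cut .d (-524288) (.void 29 ⟨⟨100000, 0, 0, 0, 0, 0, 0, 0, 0, ⟨0, 0⟩, 0⟩, 0, 0⟩ 0 0) (.cut .v 17301504 (.cut .d (-262144) (.void 31 ⟨⟨100000, 0, 0, 0, 0, 0, 0, 0, 0, ⟨0, 0⟩, 0⟩, 0, 0⟩ 0 0) (.cut .d (-131072) (.void 31 ⟨⟨100000, 0, 0, 0, 0, 0, 0, 0, 0, ⟨0, 0⟩, 0⟩, 0, 0⟩ 0 0) (.cut .v 17039360 (.cut .d (-65536) (.void 33 ⟨⟨100000, 0, 0, 0, 0, 0, 0, 0, 0, ⟨0, 0⟩, 0⟩, 0, 0⟩ 0 0) (.cut .d (-32768) (.void 33 ⟨⟨0, 0, 0, 0, 0, 100000, 0, 0, 0, ⟨0, 0⟩, 0⟩, 0, 0⟩ 0 0) (.cut .d (-16384) (.cut .l 263642 (.void 33 ⟨⟨0, 0, 0, 0, 0, 100000, 0, 0, 0, ⟨0, 0⟩, 0⟩, 0, 0⟩ 0 0) (.cut .l 395463 (.void 33 ⟨⟨0, 0, 0, 0, 0, 100000, 0, 0, 0, ⟨0,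 0⟩, 0⟩, 0, 0⟩ 0 0) (.cut .d (-24576) (.void 33 ⟨⟨0, 0, 0, 0, 0, 100000, 0, 0, 0, ⟨0, 0⟩, 0⟩, 0, 0⟩ 0 0) (.cut .d (-20480) (.void 33 ⟨⟨0, 0, 0, 0, 0, 100000, 0, 0, 0, ⟨0, 0⟩, 0⟩, 0, 0⟩ 0 0) (.cut .v 16908288 (.cut .v 16842752 (.pos 39 .mp ⟨⟨0, 0, 0, 0, 0, 722833984, 0, 0, 0, ⟨0, 0⟩, 0⟩, 0, 0⟩ 0 0) (.cut .v 16875520 (.pos 64 .mp ⟨⟨0, 0, 0, 0, 0, 733415990, 0, 0, 0, ⟨0, 0⟩, 0⟩, 0, 0⟩ 0 0) (.cut .s 14729216 (.cut .s 14688256 (.pos 65 .mp ⟨⟨193247086, 0, 0, 0, 0, 279188797, 0, 0, 0, ⟨0, 0⟩, 0⟩, 0, 0⟩ 0 0) (.pos 65 .mp ⟨⟨201778900, 0, 0, 0, 0, 289144878, 0, 0, 0, ⟨0, 0⟩, 0⟩, 0, 0⟩ 0 0)) (.cut .s 14770176 (.pos 65 .mp ⟨⟨210788109, 0, 0, 0,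 0, 300142962, 0, 0, 0, ⟨0, 0⟩, 0⟩, 0, 0⟩ 0 0) (.pos 65 .mp ⟨⟨220303400, 0, 0, 0, 0, 312181719, 0, 0, 0, ⟨0, 0⟩, 0⟩, 0, 0⟩ 0 0))))) (.cut .s 14729216 (.pos 38 .mp ⟨⟨273065231, 0, 0, 0, 0, 132922587, 0, 0, 0, ⟨0, 0⟩, 0⟩, 0, 0⟩ 0 0) (.cut .s 14770176 (.pos 38 .mp ⟨⟨259919879, 0, 0, 0, 0, 198038023, 0, 0, 0, ⟨0, 0⟩, 0⟩, 0, 0⟩ 0 0) (.pos 38 .mp ⟨⟨276708956, 0, 0, 0, 0, 194879581, 0, 0, 0, ⟨0, 0⟩, 0⟩, 0, 0⟩ 0 0)))))))) (.cut .s 14729216 (.cut .v 16908288 (.cut .s 14688256 (.cut .s 14667776 (.cut .l 263642 (.cut .d (-8192) (.pos 37 .mp ⟨⟨192096229, 0, 0, 0, 0, 279201437, 0, 0, 0, ⟨0, 0⟩, 0⟩, 0, 0⟩ 0 0) (.cut .v 16842752 (.cut .l 131821 (.cut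 .d (-4096) (.pos 39 .mp ⟨⟨190901869, 0, 0, 0, 0, 278598857, 0, 0, 0, ⟨0, 0⟩, 0⟩, 0, 0⟩ 0 0) (.cut .s 14657536 (.pos 39 .mp ⟨⟨195507754, 0, 0, 0, 0, 250302454, 0, 0, 0, ⟨0, 0⟩, 0⟩, 0, 0⟩ 0 0) (.cut .s 14662656 (.pos 39 .mp ⟨⟨195943257, 0, 0, 0, 0, 254958486, 0, 0, 0, ⟨0, 0⟩, 0⟩, 0, 0⟩ 0 0) (.pos 39 .mp ⟨⟨196963370, 0, 0, 0, 0, 256076446, 0, 0, 0, ⟨0, 0⟩, 0⟩, 0, 0⟩ 0 0)))) (.pos 39 .mp ⟨⟨197077017, 0, 0, 0, 0, 245554090, 0, 0, 0, ⟨0, 0⟩, 0⟩, 0, 0⟩ 0 0)) (.pos 40 .mp ⟨⟨307889733, 0, 0, 0, 0, 0, 0, 0, 0, ⟨0, 0⟩, 0⟩, 0, 0⟩ 0 0))) (.cut .s 14657536 (.pos 37 .mp ⟨⟨198582102, 0, 0, 0, 0, 242218835, 0, 0, 0, ⟨0, 0⟩, 0⟩, 0, 0⟩ 0 0) (.pos 37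 .mp ⟨⟨200731549, 0, 0, 0, 0, 244406249, 0, 0, 0, ⟨0, 0⟩, 0⟩, 0, 0⟩ 0 0))) (.cut .v 16842752 (.cut .l 263642 (.cut .d (-8192) (.pos 39 .mp ⟨⟨194144086, 0, 0, 0, 0, 283435031, 0, 0, 0, ⟨0, 0⟩, 0⟩, 0, 0⟩ 0 0) (.cut .l 131821 (.cut .d (-4096) (.pos 39 .mp ⟨⟨194928461, 0, 0, 0, 0, 283672655, 0, 0, 0, ⟨0, 0⟩, 0⟩, 0, 0⟩ 0 0) (.cut .v 16809984 (.cut .l 65910 (.cut .d (-2048) (.pos 51 .mp ⟨⟨194313690, 0, 0, 0, 0, 283380345, 0, 0, 0, ⟨0, 0⟩, 0⟩, 0, 0⟩ 0 0) (.cut .s 14678016 (.pos 51 .mp ⟨⟨197517532, 0, 0, 0, 0, 259136986, 0, 0, 0, ⟨0, 0⟩, 0⟩, 0, 0⟩ 0 0) (.pos 51 .mp ⟨⟨199728236, 0, 0, 0, 0, 261190797, 0, 0, 0, ⟨0, 0⟩, 0⟩, 0, 0⟩ 0 0))) (.pos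 51 .mp ⟨⟨199475194, 0, 0, 0, 0, 252849312, 0, 0, 0, ⟨0, 0⟩, 0⟩, 0, 0⟩ 0 0)) (.pos 52 .mp ⟨⟨313055904, 0, 0, 0, 0, 0, 0, 0, 0, ⟨0, 0⟩, 0⟩, 0, 0⟩ 0 0))) (.pos 39 .mp ⟨⟨201349895, 0, 0, 0, 0, 250089125, 0, 0, 0, ⟨0, 0⟩, 0⟩, 0, 0⟩ 0 0))) (.pos 39 .mp ⟨⟨0, 0, 0, 0, 0, 608352118, 0, 0, 0, ⟨0, 0⟩, 0⟩, 0, 0⟩ 0 0)) (.cut .s 14678016 (.pos 40 .mp ⟨⟨214738036, 0, 0, 0, 0, 227717011, 0, 0, 0, ⟨0, 0⟩, 0⟩, 0, 0⟩ 0 0) (.cut .s 14683136 (.pos 40 .mp ⟨⟨212019713, 0, 0, 0, 0, 238596665, 0, 0, 0, ⟨0, 0⟩, 0⟩, 0, 0⟩ 0 0) (.pos 40 .mp ⟨⟨212970379, 0, 0, 0, 0, 240034801, 0, 0, 0, ⟨0, 0⟩, 0⟩, 0, 0⟩ 0 0))))) (.cut .s 14708736 (.cut .v 16842752 (.cut .l 263642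 (.cut .d (-8192) (.pos 39 .mp ⟨⟨198358451, 0, 0, 0, 0, 288557638, 0, 0, 0, ⟨0, 0⟩, 0⟩, 0, 0⟩ 0 0) (.cut .s 14698496 (.cut .s 14693376 (.pos 39 .mp ⟨⟨205458832, 0, 0, 0, 0, 254997473, 0, 0, 0, ⟨0, 0⟩, 0⟩, 0, 0⟩ 0 0) (.pos 39 .mp ⟨⟨206568210, 0, 0, 0, 0, 256147726, 0, 0, 0, ⟨0, 0⟩, 0⟩, 0, 0⟩ 0 0)) (.cut .s 14703616 (.pos 39 .mp ⟨⟨207685278, 0, 0, 0, 0, 257314426, 0, 0, 0, ⟨0, 0⟩, 0⟩, 0, 0⟩ 0 0) (.pos 39 .mp ⟨⟨208810094, 0, 0, 0, 0, 258497575, 0, 0, 0, ⟨0, 0⟩, 0⟩, 0, 0⟩ 0 0)))) (.pos 39 .mp ⟨⟨0, 0, 0, 0, 0, 621350022, 0, 0, 0, ⟨0, 0⟩, 0⟩, 0, 0⟩ 0 0)) (.cut .d (-8192) (.cut .s 14698496 (.pos 40 .mp ⟨⟨215289332, 0, 0, 0, 0, 240907508, 0,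 0, 0, ⟨0, 0⟩, 0⟩, 0, 0⟩ 0 0) (.pos 40 .mp ⟨⟨217641386, 0, 0, 0, 0, 243016139, 0, 0, 0, ⟨0, 0⟩, 0⟩, 0, 0⟩ 0 0)) (.pos 40 .mp ⟨⟨317278620, 0, 0, 0, 0, 0, 0, 0, 0, ⟨0, 0⟩, 0⟩, 0, 0⟩ 0 0))) (.cut .v 16842752 (.cut .l 263642 (.cut .d (-8192) (.pos 39 .mp ⟨⟨202689309, 0, 0, 0, 0, 294055754, 0, 0, 0, ⟨0, 0⟩, 0⟩, 0, 0⟩ 0 0) (.cut .s 14718976 (.cut .d (-4096) (.pos 39 .mp ⟨⟨205255439, 0, 0, 0, 0, 275403466, 0, 0, 0, ⟨0, 0⟩, 0⟩, 0, 0⟩ 0 0) (.cut .s 14713856 (.pos 39 .mp ⟨⟨206872790, 0, 0, 0, 0, 266460249, 0, 0, 0, ⟨0, 0⟩, 0⟩, 0, 0⟩ 0 0) (.pos 39 .mp ⟨⟨208012453, 0, 0, 0, 0, 267659898, 0, 0, 0, ⟨0, 0⟩, 0⟩, 0, 0⟩ 0 0))) (.cut .d (-4096) (.pos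 39 .mp ⟨⟨207416367, 0, 0, 0, 0, 278230220, 0, 0, 0, ⟨0, 0⟩, 0⟩, 0, 0⟩ 0 0) (.cut .s 14724096 (.pos 39 .mp ⟨⟨209154947, 0, 0, 0, 0, 268891366, 0, 0, 0, ⟨0, 0⟩, 0⟩, 0, 0⟩ 0 0) (.pos 39 .mp ⟨⟨210300176, 0, 0, 0, 0, 270155115, 0, 0, 0, ⟨0, 0⟩, 0⟩, 0, 0⟩ 0 0))))) (.pos 39 .mp ⟨⟨0, 0, 0, 0, 0, 634737331, 0, 0, 0, ⟨0, 0⟩, 0⟩, 0, 0⟩ 0 0)) (.cut .d (-8192) (.cut .s 14718976 (.pos 40 .mp ⟨⟨220026515, 0, 0, 0, 0, 245195243, 0, 0, 0, ⟨0, 0⟩, 0⟩, 0, 0⟩ 0 0) (.cut .s 14724096 (.pos 40 .mp ⟨⟨219452375, 0, 0, 0, 0, 252170883, 0, 0, 0, ⟨0, 0⟩, 0⟩, 0, 0⟩ 0 0) (.pos 40 .mp ⟨⟨220635070, 0, 0, 0, 0, 253396194, 0, 0, 0, ⟨0, 0⟩, 0⟩, 0, 0⟩ 0 0))) (.pos 40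 .mp ⟨⟨323691510, 0, 0, 0, 0, 0, 0, 0, 0, ⟨0, 0⟩, 0⟩, 0, 0⟩ 0 0))))) (.pos 38 .mp ⟨⟨326429723, 0, 0, 0, 0, 0, 0, 0, 0, ⟨0, 0⟩, 0⟩, 0, 0⟩ 0 0)) (.cut .v 16908288 (.cut .s 14770176 (.cut .s 14749696 (.cut .v 16842752 (.cut .l 263642 (.cut .d (-8192) (.pos 39 .mp ⟨⟨207140089, 0, 0, 0, 0, 299940970, 0, 0, 0, ⟨0, 0⟩, 0⟩, 0, 0⟩ 0 0) (.cut .s 14739456 (.cut .d (-4096) (.pos 39 .mp ⟨⟨209655355, 0, 0, 0, 0, 281011806, 0, 0, 0, ⟨0, 0⟩, 0⟩, 0, 0⟩ 0 0) (.cut .s 14734336 (.pos 39 .mp ⟨⟨211448039, 0, 0, 0, 0, 271451616, 0, 0, 0, ⟨0, 0⟩, 0⟩, 0, 0⟩ 0 0) (.pos 39 .mp ⟨⟨212598434, 0, 0, 0, 0, 272781345, 0, 0, 0, ⟨0, 0⟩, 0⟩, 0, 0⟩ 0 0))) (.cut .d (-4096)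 (.pos 39 .mp ⟨⟨211974955, 0, 0, 0, 0, 283743248, 0, 0, 0, ⟨0, 0⟩, 0⟩, 0, 0⟩ 0 0) (.cut .s 14744576 (.pos 39 .mp ⟨⟨213751256, 0, 0, 0, 0, 274144785, 0, 0, 0, ⟨0, 0⟩, 0⟩, 0, 0⟩ 0 0) (.pos 39 .mp ⟨⟨214906398, 0, 0, 0, 0, 275542427, 0, 0, 0, ⟨0, 0⟩, 0⟩, 0, 0⟩ 0 0))))) (.pos 39 .mp ⟨⟨0, 0, 0, 0, 0, 648512440, 0, 0, 0, ⟨0, 0⟩, 0⟩, 0, 0⟩ 0 0)) (.cut .d (-8192) (.cut .l 263642 (.pos 40 .mp ⟨⟨226409708, 0, 0, 0, 0, 257204214, 0, 0, 0, ⟨0, 0⟩, 0⟩, 0, 0⟩ 0 0) (.cut .s 14739456 (.pos 40 .mp ⟨⟨218509619, 0, 0, 0, 0, 262016626, 0, 0, 0, ⟨0, 0⟩, 0⟩, 0, 0⟩ 0 0) (.pos 40 .mp ⟨⟨220929292, 0, 0, 0, 0, 264517199, 0, 0, 0, ⟨0, 0⟩, 0⟩, 0, 0⟩ 0 0))) (.pos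 40 .mp ⟨⟨330380618, 0, 0, 0, 0, 0, 0, 0, 0, ⟨0, 0⟩, 0⟩, 0, 0⟩ 0 0))) (.cut .d (-8192) (.cut .l 263642 (.pos 37 .mp ⟨⟨213584812, 0, 0, 0, 0, 308329487, 0, 0, 0, ⟨0, 0⟩, 0⟩, 0, 0⟩ 0 0) (.cut .s 14759936 (.pos 37 .mp ⟨⟨208107598, 0, 0, 0, 0, 302993036, 0, 0, 0, ⟨0, 0⟩, 0⟩, 0, 0⟩ 0 0) (.pos 37 .mp ⟨⟨210461292, 0, 0, 0, 0, 305913429, 0, 0, 0, ⟨0, 0⟩, 0⟩, 0, 0⟩ 0 0))) (.cut .v 16842752 (.cut .l 263642 (.cut .s 14759936 (.cut .d (-4096) (.pos 39 .mp ⟨⟨214377767, 0, 0, 0, 0, 286419476, 0, 0, 0, ⟨0, 0⟩, 0⟩, 0, 0⟩ 0 0) (.cut .s 14754816 (.pos 39 .mp ⟨⟨216063751, 0, 0, 0, 0, 276974770, 0, 0, 0, ⟨0, 0⟩, 0⟩, 0, 0⟩ 0 0) (.pos 39 .mp ⟨⟨217223204,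 0, 0, 0, 0, 278442319, 0, 0, 0, ⟨0, 0⟩, 0⟩, 0, 0⟩ 0 0))) (.cut .s 14765056 (.cut .s 14762496 (.pos 39 .mp ⟨⟨221102978, 0, 0, 0, 0, 273070116, 0, 0, 0, ⟨0, 0⟩, 0⟩, 0, 0⟩ 0 0) (.pos 39 .mp ⟨⟨221710981, 0, 0, 0, 0, 273759446, 0, 0, 0, ⟨0, 0⟩, 0⟩, 0, 0⟩ 0 0)) (.pos 39 .mp ⟨⟨222933343, 0, 0, 0, 0, 273978267, 0, 0, 0, ⟨0, 0⟩, 0⟩, 0, 0⟩ 0 0))) (.pos 39 .mp ⟨⟨0, 0, 0, 0, 0, 0, 0, 0, 0, ⟨0, 0⟩, 0⟩, 0, 0⟩ 0 0)) (.pos 40 .mp ⟨⟨337354026, 0, 0, 0, 0, 0, 0, 0, 0, ⟨0, 0⟩, 0⟩, 0, 0⟩ 0 0)))) (.cut .s 14790656 (.cut .d (-8192) (.cut .l 263642 (.pos 37 .mp ⟨⟨218324967, 0, 0, 0, 0, 315095165, 0, 0, 0, ⟨0, 0⟩, 0⟩, 0, 0⟩ 0 0) (.cut .s 14780416 (.pos 37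 .mp ⟨⟨212883780, 0, 0, 0, 0, 308804102, 0, 0, 0, ⟨0, 0⟩, 0⟩, 0, 0⟩ 0 0) (.pos 37 .mp ⟨⟨215401276, 0, 0, 0, 0, 311595127, 0, 0, 0, ⟨0, 0⟩, 0⟩, 0, 0⟩ 0 0))) (.cut .v 16842752 (.cut .l 263642 (.cut .s 14780416 (.cut .s 14775296 (.pos 39 .mp ⟨⟨224164235, 0, 0, 0, 0, 275375150, 0, 0, 0, ⟨0, 0⟩, 0⟩, 0, 0⟩ 0 0) (.pos 39 .mp ⟨⟨225403720, 0, 0, 0, 0, 276788444, 0, 0, 0, ⟨0, 0⟩, 0⟩, 0, 0⟩ 0 0)) (.cut .s 14785536 (.pos 39 .mp ⟨⟨226651864, 0, 0, 0, 0, 278218139, 0, 0, 0, ⟨0, 0⟩, 0⟩, 0, 0⟩ 0 0) (.pos 39 .mp ⟨⟨227908732, 0, 0, 0, 0, 279664228, 0, 0, 0, ⟨0, 0⟩, 0⟩, 0, 0⟩ 0 0))) (.pos 39 .mp ⟨⟨0, 0, 0, 0, 0, 0, 0, 0, 0, ⟨0, 0⟩, 0⟩, 0, 0⟩ 0 0)) (.pos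 40 .mp ⟨⟨344620146, 0, 0, 0, 0, 0, 0, 0, 0, ⟨0, 0⟩, 0⟩, 0, 0⟩ 0 0))) (.cut .d (-8192) (.cut .l 263642 (.pos 37 .mp ⟨⟨223197253, 0, 0, 0, 0, 322288806, 0, 0, 0, ⟨0, 0⟩, 0⟩, 0, 0⟩ 0 0) (.cut .s 14800896 (.pos 37 .mp ⟨⟨217999029, 0, 0, 0, 0, 314328215, 0, 0, 0, ⟨0, 0⟩, 0⟩, 0, 0⟩ 0 0) (.pos 37 .mp ⟨⟨220672181, 0, 0, 0, 0, 317018111, 0, 0, 0, ⟨0, 0⟩, 0⟩, 0, 0⟩ 0 0))) (.cut .v 16842752 (.cut .l 263642 (.cut .l 131821 (.cut .d (-4096) (.pos 39 .mp ⟨⟨221687539, 0, 0, 0, 0, 321860169, 0, 0, 0, ⟨0, 0⟩, 0⟩, 0, 0⟩ 0 0) (.cut .l 65910 (.cut .d (-2048) (.pos 39 .mp ⟨⟨224248752, 0, 0, 0, 0, 316037205, 0, 0, 0, ⟨0, 0⟩, 0⟩, 0, 0⟩ 0 0) (.cut .s 14800896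 (.pos 39 .mp ⟨⟨226050862, 0, 0, 0, 0, 288938838, 0, 0, 0, ⟨0, 0⟩, 0⟩, 0, 0⟩ 0 0) (.pos 39 .mp ⟨⟨228561098, 0, 0, 0, 0, 292033544, 0, 0, 0, ⟨0, 0⟩, 0⟩, 0, 0⟩ 0 0))) (.pos 39 .mp ⟨⟨228343165, 0, 0, 0, 0, 281945009, 0, 0, 0, ⟨0, 0⟩, 0⟩, 0, 0⟩ 0 0))) (.pos 39 .mp ⟨⟨229611473, 0, 0, 0, 0, 280323758, 0, 0, 0, ⟨0, 0⟩, 0⟩, 0, 0⟩ 0 0)) (.pos 39 .mp ⟨⟨0, 0, 0, 0, 0, 0, 0, 0, 0, ⟨0, 0⟩, 0⟩, 0, 0⟩ 0 0)) (.pos 40 .mp ⟨⟨352187737, 0, 0, 0, 0, 0, 0, 0, 0, ⟨0, 0⟩, 0⟩, 0, 0⟩ 0 0))))) (.pos 38 .mp ⟨⟨354750827, 0, 0, 0, 0, 0, 0, 0, 0, ⟨0, 0⟩, 0⟩, 0, 0⟩ 0 0)))))) (.pos 34 .mp ⟨⟨407926318, 0, 0, 0, 0, 0, 0, 0, 0, ⟨0, 0⟩, 0⟩, 0, 0⟩ 0 0)))) (.pos 32 .mp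 ⟨⟨471880265, 0, 0, 0, 0, 0, 0, 0, 0, ⟨0, 0⟩, 0⟩, 0, 0⟩ 0 0))) (.void 30 ⟨⟨100000, 0, 0, 0, 0, 0, 0, 0, 0, ⟨0, 0⟩, 0⟩, 0, 0⟩ 0 0))) (.void 28 ⟨⟨100000, 0, 0, 0, 0, 0, 0, 0, 0, ⟨0, 0⟩, 0⟩, 0, 0⟩ 0 0))) (.void 26 ⟨⟨100000, 0, 0, 0, 0, 0, 0, 0, 0, ⟨0, 0⟩, 0⟩, 0, 0⟩ 0 0))) (.void 24 ⟨⟨100000, 0, 0, 0, 0, 0, 0, 0, 0, ⟨0, 0⟩, 0⟩, 0, 0⟩ 0 0))) (.void 57 ⟨⟨100000, 0, 0, 0, 0, 0, 0, 0, 0, ⟨0, 0⟩, 0⟩, 0, 0⟩ 0 0)) (.void 68 ⟨⟨100000, 0, 0, 0, 0, 0, 0, 0, 0, ⟨0, 0⟩, 0⟩, 0, 0⟩ 0 0)) (.void 87 ⟨⟨90062, 0, 0, 9938, 0, 0, 0, 0, 0, ⟨0, 0⟩, 0⟩, 0, 0⟩ 0 0))) (.cut .v 16777216 (.cut .v 8388608 (.cut .v 4194304 (.cut .v 2097152 (.cut .v 1048576 (.pos 81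 .pm ⟨⟨0, 0, 23606062, 0, 0, 0, 0, 0, 0, ⟨0, 0⟩, 0⟩, 0, 24275⟩ 0 0) (.pos 82 .pm ⟨⟨0, 0, 26589450, 0, 0, 0, 0, 0, 0, ⟨0, 0⟩, 0⟩, 0, 46682⟩ 0 0)) (.pos 78 .pm ⟨⟨0, 0, 29366642, 0, 0, 0, 0, 0, 0, ⟨0, 0⟩, 0⟩, 0, 86695⟩ 0 0)) (.pos 5 .pm ⟨⟨0, 0, 46271101, 0, 0, 0, 0, 0, 0, ⟨0, 0⟩, 0⟩, 0, 138998⟩ 0 0)) (.pos 3 .pm ⟨⟨0, 0, 0, 0, 0, 0, 0, 0, 0, ⟨0, 0⟩, 0⟩, 0, 0⟩ 0 0)) (.cut .v 268435456 (.cut .v 67108864 (.cut .d 1219821 (.cut .v 33554432 (.cut .d 609910 (.cut .v 25165824 (.cut .d 304955 (.cut .v 20971520 (.cut .v 18874368 (.pos 27 .pp ⟨⟨254059623, 0, 0, 0, 0, 0, 0, 0, 0, ⟨0, 0⟩, 0⟩, 12504403, 0⟩ 0 0) (.pos 28 .pp ⟨⟨402448920, 0, 0, 0, 0,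 0, 0, 0, 0, ⟨0, 0⟩, 0⟩, 0, 0⟩ 0 0)) (.pos 26 .pp ⟨⟨565391807, 0, 0, 0, 0, 0, 0, 0, 0, ⟨0, 0⟩, 0⟩, 0, 0⟩ 0 0)) (.pos 23 .pp ⟨⟨0, 0, 0, 0, 0, 0, 0, 0, 0, ⟨0, 0⟩, 0⟩, 48374451, 180855⟩ 0 0)) (.cut .d 304955 (.pos 24 .pp ⟨⟨0, 0, 0, 0, 0, 0, 0, 0, 0, ⟨0, 0⟩, 0⟩, 166791743, 0⟩ 0 0) (.pos 24 .pp ⟨⟨0, 0, 0, 0, 0, 0, 0, 0, 0, ⟨0, 0⟩, 0⟩, 116107737, 0⟩ 0 0))) (.pos 22 .pp ⟨⟨0, 0, 0, 0, 0, 0, 0, 0, 0, ⟨0, 0⟩, 0⟩, 44316416, 194834⟩ 0 0)) (.cut .d 609910 (.void 57 ⟨⟨0, 0, 0, 0, 0, 0, 0, 0, 0, ⟨0, 0⟩, 0⟩, 100000, 0⟩ 0 0) (.pos 57 .pp ⟨⟨0, 32380106, 0, 0, 0, 0, 0, 0, 0, ⟨0, 0⟩, 0⟩, 170632427, 0⟩ 0 0))) (.pos 56 .pp ⟨⟨0, 0, 0, 0, 0, 0, 0, 0, 0, ⟨0,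 0⟩, 0⟩, 0, 347495⟩ 0 0)) (.void 68 ⟨⟨0, 0, 0, 50603, 0, 0, 0, 0, 0, ⟨0, 0⟩, 0⟩, 49397, 0⟩ 0 0)) (.void 87 ⟨⟨0, 0, 0, 0, 0, 0, 0, 0, 0, ⟨0, 0⟩, 0⟩, 100000, 0⟩ 0 0)))),
    by decide +kernel⟩

def covers31 : cell.Covers Vale.Agent.P237.Petty.Cor.Grid.N7.table row31.1 :=
  ⟨(.cut .d 0 (.cut .v 16777216 (.cut .v 8388608 (.void 2 ⟨⟨0, 0, 100000, 0, 0, 0, 0, 0, 0, ⟨0, 0⟩, 0⟩, 0, 0⟩ 0 0) (.cut .d (-8388608) (.void 3 ⟨⟨100000, 0, 0, 0, 0, 0, 0, 0, 0, ⟨0, 0⟩, 0⟩, 0, 0⟩ 0 0) (.cut .d (-4194304) (.void 3 ⟨⟨100000, 0, 0, 0, 0, 0, 0, 0, 0, ⟨0, 0⟩, 0⟩, 0, 0⟩ 0 0) (.cut .d (-2097152) (.void 3 ⟨⟨100000, 0, 0, 0, 0, 0, 0, 0, 0, ⟨0, 0⟩, 0⟩, 0, 0⟩ 0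 0) (.cut .d (-1048576) (.void 3 ⟨⟨0, 0, 0, 0, 0, 100000, 0, 0, 0, ⟨0, 0⟩, 0⟩, 0, 0⟩ 0 0) (.cut .d (-524288) (.void 3 ⟨⟨0, 0, 0, 0, 0, 100000, 0, 0, 0, ⟨0, 0⟩, 0⟩, 0, 0⟩ 0 0) (.cut .s 14876672 (.pos 3 .mm ⟨⟨0, 0, 0, 0, 0, 827836731, 0, 0, 0, ⟨0, 0⟩, 0⟩, 0, 0⟩ 0 0) (.pos 3 .mm ⟨⟨0, 0, 0, 0, 0, 892064287, 0, 0, 0, ⟨0, 0⟩, 0⟩, 0, 0⟩ 0 0)))))))) (.cut .v 268435456 (.cut .v 67108864 (.cut .v 33554432 (.cut .d (-8388608) (.void 22 ⟨⟨100000, 0, 0, 0, 0, 0, 0, 0, 0, ⟨0, 0⟩, 0⟩, 0, 0⟩ 0 0) (.cut .v 25165824 (.cut .d (-4194304) (.void 23 ⟨⟨100000, 0, 0, 0, 0, 0, 0, 0, 0, ⟨0, 0⟩, 0⟩, 0, 0⟩ 0 0) (.cut .v 20971520 (.cut .d (-2097152) (.void 25 ⟨⟨100000,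 0, 0, 0, 0, 0, 0, 0, 0, ⟨0, 0⟩, 0⟩, 0, 0⟩ 0 0) (.cut .v 18874368 (.cut .d (-1048576) (.void 27 ⟨⟨100000, 0, 0, 0, 0, 0, 0, 0, 0, ⟨0, 0⟩, 0⟩, 0, 0⟩ 0 0) (.cut .v 17825792 (.cut .d (-524288) (.void 29 ⟨⟨100000, 0, 0, 0, 0, 0, 0, 0, 0, ⟨0, 0⟩, 0⟩, 0, 0⟩ 0 0) (.cut .v 17301504 (.cut .d (-262144) (.void 31 ⟨⟨100000, 0, 0, 0, 0, 0, 0, 0, 0, ⟨0, 0⟩, 0⟩, 0, 0⟩ 0 0) (.cut .d (-131072) (.void 31 ⟨⟨100000, 0, 0, 0, 0, 0, 0, 0, 0, ⟨0, 0⟩, 0⟩, 0, 0⟩ 0 0) (.cut .v 17039360 (.cut .d (-65536) (.void 33 ⟨⟨100000, 0, 0, 0, 0, 0, 0, 0, 0, ⟨0, 0⟩, 0⟩, 0, 0⟩ 0 0) (.cut .d (-32768) (.void 33 ⟨⟨0, 0, 0, 0, 0, 100000, 0, 0, 0, ⟨0, 0⟩, 0⟩, 0, 0⟩ 0 0) (.cut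 .d (-16384) (.cut .d (-24576) (.void 33 ⟨⟨0, 0, 0, 0, 0, 100000, 0, 0, 0, ⟨0, 0⟩, 0⟩, 0, 0⟩ 0 0) (.cut .d (-20480) (.void 33 ⟨⟨0, 0, 0, 0, 0, 100000, 0, 0, 0, ⟨0, 0⟩, 0⟩, 0, 0⟩ 0 0) (.cut .d (-18432) (.pos 33 .mp ⟨⟨232870301, 0, 0, 0, 0, 659659691, 0, 0, 0, ⟨0, 0⟩, 0⟩, 0, 0⟩ 0 0) (.cut .l 263642 (.void 33 ⟨⟨0, 0, 0, 0, 0, 100000, 0, 0, 0, ⟨0, 0⟩, 0⟩, 0, 0⟩ 0 0) (.cut .l 395463 (.void 33 ⟨⟨0, 0, 0, 0, 0, 100000, 0, 0, 0, ⟨0, 0⟩, 0⟩, 0, 0⟩ 0 0) (.cut .l 461373 (.void 33 ⟨⟨0, 0, 0, 0, 0, 100000, 0, 0, 0, ⟨0, 0⟩, 0⟩, 0, 0⟩ 0 0) (.cut .v 16908288 (.cut .s 14876672 (.pos 37 .mp ⟨⟨227365858, 0, 0, 0, 0, 347722784, 0, 0, 0, ⟨0, 0⟩, 0⟩, 0,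 0⟩ 0 0) (.pos 37 .mp ⟨⟨190689795, 0, 0, 0, 0, 478702253, 0, 0, 0, ⟨0, 0⟩, 0⟩, 0, 0⟩ 0 0)) (.cut .s 14876672 (.pos 38 .mp ⟨⟨256655417, 0, 0, 0, 0, 287491496, 0, 0, 0, ⟨0, 0⟩, 0⟩, 0, 0⟩ 0 0) (.pos 38 .mp ⟨⟨276467553, 0, 0, 0, 0, 302082340, 0, 0, 0, ⟨0, 0⟩, 0⟩, 0, 0⟩ 0 0))))))))) (.cut .s 14876672 (.cut .v 16908288 (.cut .s 14843904 (.cut .s 14827520 (.cut .v 16842752 (.cut .d (-8192) (.pos 39 .mp ⟨⟨219476755, 0, 0, 0, 0, 333960107, 0, 0, 0, ⟨0, 0⟩, 0⟩, 0, 0⟩ 0 0) (.cut .l 263642 (.cut .l 131821 (.cut .d (-4096) (.pos 39 .mp ⟨⟨227898242, 0, 0, 0, 0, 321250260, 0, 0, 0, ⟨0, 0⟩, 0⟩, 0, 0⟩ 0 0) (.cut .s 14819328 (.pos 39 .mp ⟨⟨232010585,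 0, 0, 0, 0, 292809187, 0, 0, 0, ⟨0, 0⟩, 0⟩, 0, 0⟩ 0 0) (.pos 39 .mp ⟨⟨234175151, 0, 0, 0, 0, 294670528, 0, 0, 0, ⟨0, 0⟩, 0⟩, 0, 0⟩ 0 0))) (.pos 39 .mp ⟨⟨233754325, 0, 0, 0, 0, 287794137, 0, 0, 0, ⟨0, 0⟩, 0⟩, 0, 0⟩ 0 0)) (.pos 39 .mp ⟨⟨0, 0, 0, 0, 0, 0, 0, 0, 0, ⟨0, 0⟩, 0⟩, 0, 0⟩ 0 0))) (.cut .s 14819328 (.pos 40 .mp ⟨⟨250551416, 0, 0, 0, 0, 259128169, 0, 0, 0, ⟨0, 0⟩, 0⟩, 0, 0⟩ 0 0) (.pos 40 .mp ⟨⟨252172124, 0, 0, 0, 0, 262227707, 0, 0, 0, ⟨0, 0⟩, 0⟩, 0, 0⟩ 0 0))) (.cut .v 16842752 (.cut .d (-8192) (.pos 39 .mp ⟨⟨223454995, 0, 0, 0, 0, 338606957, 0, 0, 0, ⟨0, 0⟩, 0⟩, 0, 0⟩ 0 0) (.cut .l 263642 (.cut .l 131821 (.cut .d (-4096) (.pos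 39 .mp ⟨⟨231944520, 0, 0, 0, 0, 326029343, 0, 0, 0, ⟨0, 0⟩, 0⟩, 0, 0⟩ 0 0) (.cut .s 14835712 (.pos 39 .mp ⟨⟨236275602, 0, 0, 0, 0, 296827654, 0, 0, 0, ⟨0, 0⟩, 0⟩, 0, 0⟩ 0 0) (.pos 39 .mp ⟨⟨238400671, 0, 0, 0, 0, 299040012, 0, 0, 0, ⟨0, 0⟩, 0⟩, 0, 0⟩ 0 0))) (.pos 39 .mp ⟨⟨237996141, 0, 0, 0, 0, 292345591, 0, 0, 0, ⟨0, 0⟩, 0⟩, 0, 0⟩ 0 0)) (.pos 39 .mp ⟨⟨0, 0, 0, 0, 0, 0, 0, 0, 0, ⟨0, 0⟩, 0⟩, 0, 0⟩ 0 0))) (.cut .s 14835712 (.pos 40 .mp ⟨⟨249722392, 0, 0, 0, 0, 273964832, 0, 0, 0, ⟨0, 0⟩, 0⟩, 0, 0⟩ 0 0) (.pos 40 .mp ⟨⟨251995244, 0, 0, 0, 0, 275913406, 0, 0, 0, ⟨0, 0⟩, 0⟩, 0, 0⟩ 0 0)))) (.cut .d (-8192) (.cut .l 263642 (.pos 37 .mp ⟨⟨238811779,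 0, 0, 0, 0, 344460334, 0, 0, 0, ⟨0, 0⟩, 0⟩, 0, 0⟩ 0 0) (.cut .l 395463 (.cut .s 14860288 (.pos 37 .mp ⟨⟨233041792, 0, 0, 0, 0, 331899055, 0, 0, 0, ⟨0, 0⟩, 0⟩, 0, 0⟩ 0 0) (.pos 37 .mp ⟨⟨237299674, 0, 0, 0, 0, 337206170, 0, 0, 0, ⟨0, 0⟩, 0⟩, 0, 0⟩ 0 0)) (.pos 37 .mp ⟨⟨229556868, 0, 0, 0, 0, 337657761, 0, 0, 0, ⟨0, 0⟩, 0⟩, 0, 0⟩ 0 0))) (.cut .l 263642 (.cut .v 16842752 (.cut .s 14860288 (.cut .s 14852096 (.cut .s 14848000 (.pos 39 .mp ⟨⟨242614061, 0, 0, 0, 0, 295800573, 0, 0, 0, ⟨0, 0⟩, 0⟩, 0, 0⟩ 0 0) (.pos 39 .mp ⟨⟨243711258, 0, 0, 0, 0, 296918885, 0, 0, 0, ⟨0, 0⟩, 0⟩, 0, 0⟩ 0 0)) (.cut .s 14856192 (.pos 39 .mp ⟨⟨244814916, 0, 0, 0,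 0, 298050768, 0, 0, 0, ⟨0, 0⟩, 0⟩, 0, 0⟩ 0 0) (.pos 39 .mp ⟨⟨245925076, 0, 0, 0, 0, 299196219, 0, 0, 0, ⟨0, 0⟩, 0⟩, 0, 0⟩ 0 0))) (.cut .s 14868480 (.cut .s 14864384 (.pos 39 .mp ⟨⟨247041778, 0, 0, 0, 0, 300355235, 0, 0, 0, ⟨0, 0⟩, 0⟩, 0, 0⟩ 0 0) (.pos 39 .mp ⟨⟨248165065, 0, 0, 0, 0, 301527813, 0, 0, 0, ⟨0, 0⟩, 0⟩, 0, 0⟩ 0 0)) (.cut .s 14872576 (.pos 39 .mp ⟨⟨249294977, 0, 0, 0, 0, 302713947, 0, 0, 0, ⟨0, 0⟩, 0⟩, 0, 0⟩ 0 0) (.pos 39 .mp ⟨⟨250431558, 0, 0, 0, 0, 303913634, 0, 0, 0, ⟨0, 0⟩, 0⟩, 0, 0⟩ 0 0)))) (.pos 40 .mp ⟨⟨380398468, 0, 0, 0, 0, 0, 0, 0, 0, ⟨0, 0⟩, 0⟩, 0, 0⟩ 0 0)) (.pos 37 .mp ⟨⟨244383277, 0, 0, 0, 0, 0, 0, 0, 0, ⟨0,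 0⟩, 0⟩, 0, 0⟩ 0 0)))) (.pos 38 .mp ⟨⟨382062035, 0, 0, 0, 0, 0, 0, 0, 0, ⟨0, 0⟩, 0⟩, 0, 0⟩ 0 0)) (.cut .v 16908288 (.cut .s 14909440 (.cut .d (-8192) (.cut .l 263642 (.pos 37 .mp ⟨⟨247378068, 0, 0, 0, 0, 356982759, 0, 0, 0, ⟨0, 0⟩, 0⟩, 0, 0⟩ 0 0) (.cut .v 16842752 (.pos 39 .mp ⟨⟨0, 0, 0, 0, 0, 780031958, 0, 0, 0, ⟨0, 0⟩, 0⟩, 0, 0⟩ 0 0) (.cut .s 14893056 (.cut .s 14884864 (.pos 40 .mp ⟨⟨256341793, 0, 0, 0, 0, 302046616, 0, 0, 0, ⟨0, 0⟩, 0⟩, 0, 0⟩ 0 0) (.pos 40 .mp ⟨⟨258717263, 0, 0, 0, 0, 304433693, 0, 0, 0, ⟨0, 0⟩, 0⟩, 0, 0⟩ 0 0)) (.cut .s 14901248 (.pos 40 .mp ⟨⟨261120898, 0, 0, 0, 0, 306873708, 0, 0, 0, ⟨0, 0⟩, 0⟩, 0, 0⟩ 0 0) (.pos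 40 .mp ⟨⟨263553061, 0, 0, 0, 0, 309366584, 0, 0, 0, ⟨0, 0⟩, 0⟩, 0, 0⟩ 0 0))))) (.cut .l 263642 (.cut .v 16842752 (.cut .s 14893056 (.cut .s 14884864 (.cut .s 14880768 (.pos 39 .mp ⟨⟨251574849, 0, 0, 0, 0, 305126868, 0, 0, 0, ⟨0, 0⟩, 0⟩, 0, 0⟩ 0 0) (.pos 39 .mp ⟨⟨252724894, 0, 0, 0, 0, 306353645, 0, 0, 0, ⟨0, 0⟩, 0⟩, 0, 0⟩ 0 0)) (.cut .s 14888960 (.pos 39 .mp ⟨⟨253881736, 0, 0, 0, 0, 307593959, 0, 0, 0, ⟨0, 0⟩, 0⟩, 0, 0⟩ 0 0) (.pos 39 .mp ⟨⟨255045418, 0, 0, 0, 0, 308847803, 0, 0, 0, ⟨0, 0⟩, 0⟩, 0, 0⟩ 0 0))) (.cut .s 14901248 (.cut .s 14897152 (.pos 39 .mp ⟨⟨256215984, 0, 0, 0, 0, 310115170, 0, 0, 0, ⟨0, 0⟩, 0⟩, 0, 0⟩ 0 0) (.pos 39 .mp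 ⟨⟨257393479, 0, 0, 0, 0, 311396053, 0, 0, 0, ⟨0, 0⟩, 0⟩, 0, 0⟩ 0 0)) (.cut .s 14905344 (.pos 39 .mp ⟨⟨258577948, 0, 0, 0, 0, 312690446, 0, 0, 0, ⟨0, 0⟩, 0⟩, 0, 0⟩ 0 0) (.pos 39 .mp ⟨⟨259769435, 0, 0, 0, 0, 313998338, 0, 0, 0, ⟨0, 0⟩, 0⟩, 0, 0⟩ 0 0)))) (.pos 40 .mp ⟨⟨393721126, 0, 0, 0, 0, 0, 0, 0, 0, ⟨0, 0⟩, 0⟩, 0, 0⟩ 0 0)) (.pos 37 .mp ⟨⟨253235913, 0, 0, 0, 0, 0, 0, 0, 0, ⟨0, 0⟩, 0⟩, 0, 0⟩ 0 0))) (.cut .d (-8192) (.cut .l 263642 (.pos 37 .mp ⟨⟨256319784, 0, 0, 0, 0, 371031002, 0, 0, 0, ⟨0, 0⟩, 0⟩, 0, 0⟩ 0 0) (.cut .s 14925824 (.cut .s 14917632 (.pos 37 .mp ⟨⟨248844104, 0, 0, 0, 0, 351884062, 0, 0, 0, ⟨0, 0⟩, 0⟩, 0, 0⟩ 0 0) (.pos 37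 .mp ⟨⟨251205213, 0, 0, 0, 0, 354759659, 0, 0, 0, ⟨0, 0⟩, 0⟩, 0, 0⟩ 0 0)) (.pos 37 .mp ⟨⟨251548279, 0, 0, 0, 0, 367076138, 0, 0, 0, ⟨0, 0⟩, 0⟩, 0, 0⟩ 0 0))) (.cut .l 263642 (.cut .v 16842752 (.cut .s 14925824 (.cut .s 14917632 (.cut .s 14913536 (.pos 39 .mp ⟨⟨260967987, 0, 0, 0, 0, 315319723, 0, 0, 0, ⟨0, 0⟩, 0⟩, 0, 0⟩ 0 0) (.pos 39 .mp ⟨⟨255389812, 0, 0, 0, 0, 332966519, 0, 0, 0, ⟨0, 0⟩, 0⟩, 0, 0⟩ 0 0)) (.cut .s 14921728 (.pos 39 .mp ⟨⟨256622900, 0, 0, 0, 0, 334264653, 0, 0, 0, ⟨0, 0⟩, 0⟩, 0, 0⟩ 0 0) (.pos 39 .mp ⟨⟨257874924, 0, 0, 0, 0, 335548039, 0, 0, 0, ⟨0, 0⟩, 0⟩, 0, 0⟩ 0 0))) (.cut .s 14934016 (.cut .s 14929920 (.pos 39 .mp ⟨⟨259146134,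 0, 0, 0, 0, 336816191, 0, 0, 0, ⟨0, 0⟩, 0⟩, 0, 0⟩ 0 0) (.pos 39 .mp ⟨⟨260436779, 0, 0, 0, 0, 338068619, 0, 0, 0, ⟨0, 0⟩, 0⟩, 0, 0⟩ 0 0)) (.cut .s 14938112 (.pos 39 .mp ⟨⟨261747111, 0, 0, 0, 0, 339304831, 0, 0, 0, ⟨0, 0⟩, 0⟩, 0, 0⟩ 0 0) (.pos 39 .mp ⟨⟨263077385, 0, 0, 0, 0, 340524326, 0, 0, 0, ⟨0, 0⟩, 0⟩, 0, 0⟩ 0 0)))) (.pos 40 .mp ⟨⟨408011165, 0, 0, 0, 0, 0, 0, 0, 0, ⟨0, 0⟩, 0⟩, 0, 0⟩ 0 0)) (.pos 37 .mp ⟨⟨262498263, 0, 0, 0, 0, 0, 0, 0, 0, ⟨0, 0⟩, 0⟩, 0, 0⟩ 0 0)))) (.pos 38 .mp ⟨⟨409507257, 0, 0, 0, 0, 0, 0, 0, 0, ⟨0, 0⟩, 0⟩, 0, 0⟩ 0 0)))))) (.pos 34 .mp ⟨⟨469344857, 0, 0, 0, 0, 0, 0, 0, 0, ⟨0, 0⟩, 0⟩, 0, 0⟩ 0 0)))) (.pos 32 .mp ⟨⟨542507780,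 0, 0, 0, 0, 0, 0, 0, 0, ⟨0, 0⟩, 0⟩, 0, 0⟩ 0 0))) (.void 30 ⟨⟨100000, 0, 0, 0, 0, 0, 0, 0, 0, ⟨0, 0⟩, 0⟩, 0, 0⟩ 0 0))) (.void 28 ⟨⟨100000, 0, 0, 0, 0, 0, 0, 0, 0, ⟨0, 0⟩, 0⟩, 0, 0⟩ 0 0))) (.void 26 ⟨⟨100000, 0, 0, 0, 0, 0, 0, 0, 0, ⟨0, 0⟩, 0⟩, 0, 0⟩ 0 0))) (.void 24 ⟨⟨100000, 0, 0, 0, 0, 0, 0, 0, 0, ⟨0, 0⟩, 0⟩, 0, 0⟩ 0 0))) (.void 57 ⟨⟨100000, 0, 0, 0, 0, 0, 0, 0, 0, ⟨0, 0⟩, 0⟩, 0, 0⟩ 0 0)) (.void 68 ⟨⟨100000, 0, 0, 0, 0, 0, 0, 0, 0, ⟨0, 0⟩, 0⟩, 0, 0⟩ 0 0)) (.void 87 ⟨⟨89982, 0, 0, 10018, 0, 0, 0, 0, 0, ⟨0, 0⟩, 0⟩, 0, 0⟩ 0 0))) (.cut .v 16777216 (.cut .v 8388608 (.cut .v 4194304 (.cut .v 2097152 (.cut .v 1048576 (.pos 81 .pm ⟨⟨0, 0,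 25703031, 0, 0, 0, 0, 0, 0, ⟨0, 0⟩, 0⟩, 0, 21464⟩ 0 0) (.pos 82 .pm ⟨⟨0, 0, 30816879, 0, 0, 0, 0, 0, 0, ⟨0, 0⟩, 0⟩, 0, 44059⟩ 0 0)) (.pos 78 .pm ⟨⟨0, 0, 35648249, 0, 0, 0, 0, 0, 0, ⟨0, 0⟩, 0⟩, 0, 67433⟩ 0 0)) (.pos 5 .pm ⟨⟨0, 0, 64871134, 0, 0, 0, 0, 0, 0, ⟨0, 0⟩, 0⟩, 0, 121380⟩ 0 0)) (.pos 3 .pm ⟨⟨0, 0, 0, 0, 0, 0, 0, 0, 0, ⟨0, 0⟩, 0⟩, 0, 0⟩ 0 0)) (.cut .v 268435456 (.cut .v 67108864 (.cut .d 1113533 (.cut .v 33554432 (.cut .d 556766 (.cut .v 25165824 (.cut .d 278383 (.cut .v 20971520 (.cut .v 18874368 (.pos 27 .pp ⟨⟨279207645, 0, 0, 0, 0, 0, 0, 0, 0, ⟨0, 0⟩, 0⟩, 19010274, 0⟩ 0 0) (.pos 28 .pp ⟨⟨467491389, 0, 0, 0, 0, 0, 0, 0, 0,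 ⟨0, 0⟩, 0⟩, 0, 0⟩ 0 0)) (.pos 26 .pp ⟨⟨650331171, 0, 0, 0, 0, 0, 0, 0, 0, ⟨0, 0⟩, 0⟩, 0, 0⟩ 0 0)) (.pos 23 .pp ⟨⟨0, 0, 0, 0, 0, 0, 0, 0, 0, ⟨0, 0⟩, 0⟩, 58736344, 153488⟩ 0 0)) (.cut .d 278383 (.pos 24 .pp ⟨⟨0, 0, 0, 0, 0, 0, 0, 0, 0, ⟨0, 0⟩, 0⟩, 190154354, 0⟩ 0 0) (.pos 24 .pp ⟨⟨0, 0, 0, 0, 0, 0, 0, 0, 0, ⟨0, 0⟩, 0⟩, 127741469, 0⟩ 0 0))) (.pos 22 .pp ⟨⟨0, 0, 0, 0, 0, 0, 0, 0, 0, ⟨0, 0⟩, 0⟩, 55142194, 162664⟩ 0 0)) (.cut .d 556766 (.void 57 ⟨⟨0, 0, 0, 0, 0, 0, 0, 0, 0, ⟨0, 0⟩, 0⟩, 100000, 0⟩ 0 0) (.pos 57 .pp ⟨⟨0, 80685962, 0, 0, 0, 0, 0, 0, 0, ⟨0, 0⟩, 0⟩, 201370358, 0⟩ 0 0))) (.pos 56 .pp ⟨⟨0, 135634562, 0, 0, 0, 0, 0, 0, 0, ⟨0, 0⟩,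 0⟩, 0, 303450⟩ 0 0)) (.void 68 ⟨⟨0, 0, 0, 50763, 0, 0, 0, 0, 0, ⟨0, 0⟩, 0⟩, 49237, 0⟩ 0 0)) (.void 87 ⟨⟨0, 0, 0, 0, 0, 0, 0, 0, 0, ⟨0, 0⟩, 0⟩, 100000, 0⟩ 0 0)))),
    by decide +kernel⟩

def covers32 : cell.Covers Vale.Agent.P237.Petty.Cor.Grid.N7.table row32.1 :=
  ⟨(.cut .d 0 (.cut .v 16777216 (.cut .v 8388608 (.void 2 ⟨⟨0, 0, 100000, 0, 0, 0, 0, 0, 0, ⟨0, 0⟩, 0⟩, 0, 0⟩ 0 0) (.cut .d (-8388608) (.void 3 ⟨⟨100000, 0, 0, 0, 0, 0, 0, 0, 0, ⟨0, 0⟩, 0⟩, 0, 0⟩ 0 0) (.cut .d (-4194304) (.void 3 ⟨⟨100000, 0, 0, 0, 0, 0, 0, 0, 0, ⟨0, 0⟩, 0⟩, 0, 0⟩ 0 0) (.cut .d (-2097152) (.void 3 ⟨⟨100000, 0, 0, 0, 0, 0, 0, 0, 0, ⟨0, 0⟩, 0⟩, 0, 0⟩ 0 0) (.cut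 .d (-1048576) (.void 3 ⟨⟨0, 0, 0, 0, 0, 100000, 0, 0, 0, ⟨0, 0⟩, 0⟩, 0, 0⟩ 0 0) (.cut .d (-524288) (.void 3 ⟨⟨0, 0, 0, 0, 0, 100000, 0, 0, 0, ⟨0, 0⟩, 0⟩, 0, 0⟩ 0 0) (.cut .s 15007744 (.pos 3 .mm ⟨⟨0, 0, 0, 0, 0, 963114507, 0, 0, 0, ⟨0, 0⟩, 0⟩, 0, 0⟩ 0 0) (.pos 3 .mm ⟨⟨0, 0, 0, 0, 0, 1041681101, 0, 0, 0, ⟨0, 0⟩, 0⟩, 0, 0⟩ 0 0)))))))) (.cut .v 268435456 (.cut .v 67108864 (.cut .v 33554432 (.cut .d (-8388608) (.void 22 ⟨⟨99572, 0, 0, 0, 0, 0, 0, 0, 0, ⟨0, 0⟩, 0⟩, 0, 0⟩ 0 0) (.cut .v 25165824 (.cut .d (-4194304) (.void 23 ⟨⟨100000, 0, 0, 0, 0, 0, 0, 0, 0, ⟨0, 0⟩, 0⟩, 0, 0⟩ 0 0) (.cut .v 20971520 (.cut .d (-2097152) (.void 25 ⟨⟨100000,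 0, 0, 0, 0, 0, 0, 0, 0, ⟨0, 0⟩, 0⟩, 0, 0⟩ 0 0) (.cut .v 18874368 (.cut .d (-1048576) (.void 27 ⟨⟨100000, 0, 0, 0, 0, 0, 0, 0, 0, ⟨0, 0⟩, 0⟩, 0, 0⟩ 0 0) (.cut .v 17825792 (.cut .d (-524288) (.void 29 ⟨⟨100000, 0, 0, 0, 0, 0, 0, 0, 0, ⟨0, 0⟩, 0⟩, 0, 0⟩ 0 0) (.cut .v 17301504 (.cut .d (-262144) (.void 31 ⟨⟨100000, 0, 0, 0, 0, 0, 0, 0, 0, ⟨0, 0⟩, 0⟩, 0, 0⟩ 0 0) (.cut .d (-131072) (.void 31 ⟨⟨100000, 0, 0, 0, 0, 0, 0, 0, 0, ⟨0, 0⟩, 0⟩, 0, 0⟩ 0 0) (.cut .v 17039360 (.cut .d (-65536) (.void 33 ⟨⟨100000, 0, 0, 0, 0, 0, 0, 0, 0, ⟨0, 0⟩, 0⟩, 0, 0⟩ 0 0) (.cut .d (-32768) (.void 33 ⟨⟨100000, 0, 0, 0, 0, 0, 0, 0, 0, ⟨0, 0⟩, 0⟩, 0, 0⟩ 0 0) (.cut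 .d (-16384) (.cut .v 16908288 (.pos 37 .mp ⟨⟨0, 0, 0, 0, 0, 1126828376, 0, 0, 0, ⟨0, 0⟩, 0⟩, 0, 0⟩ 0 0) (.pos 38 .mp ⟨⟨306952657, 0, 0, 0, 0, 414649540, 0, 0, 0, ⟨0, 0⟩, 0⟩, 0, 0⟩ 0 0)) (.cut .s 15007744 (.cut .v 16908288 (.cut .s 14974976 (.cut .d (-8192) (.cut .l 263642 (.pos 37 .mp ⟨⟨268548877, 0, 0, 0, 0, 376525713, 0, 0, 0, ⟨0, 0⟩, 0⟩, 0, 0⟩ 0 0) (.cut .s 14958592 (.pos 37 .mp ⟨⟨256259864, 0, 0, 0, 0, 374444152, 0, 0, 0, ⟨0, 0⟩, 0⟩, 0, 0⟩ 0 0) (.cut .s 14966784 (.pos 37 .mp ⟨⟨263456302, 0, 0, 0, 0, 369600915, 0, 0, 0, ⟨0, 0⟩, 0⟩, 0, 0⟩ 0 0) (.pos 37 .mp ⟨⟨265729990, 0, 0, 0, 0, 373173203, 0, 0, 0, ⟨0, 0⟩, 0⟩, 0, 0⟩ 0 0)))) (.cut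 .l 263642 (.cut .v 16842752 (.cut .s 14958592 (.cut .s 14950400 (.cut .s 14946304 (.pos 39 .mp ⟨⟨264462381, 0, 0, 0, 0, 341647811, 0, 0, 0, ⟨0, 0⟩, 0⟩, 0, 0⟩ 0 0) (.pos 39 .mp ⟨⟨265442375, 0, 0, 0, 0, 343568989, 0, 0, 0, ⟨0, 0⟩, 0⟩, 0, 0⟩ 0 0)) (.cut .s 14954496 (.pos 39 .mp ⟨⟨266495087, 0, 0, 0, 0, 345351675, 0, 0, 0, ⟨0, 0⟩, 0⟩, 0, 0⟩ 0 0) (.pos 39 .mp ⟨⟨267565312, 0, 0, 0, 0, 347128648, 0, 0, 0, ⟨0, 0⟩, 0⟩, 0, 0⟩ 0 0))) (.cut .s 14966784 (.cut .s 14962688 (.pos 39 .mp ⟨⟨268653336, 0, 0, 0, 0, 348899355, 0, 0, 0, ⟨0, 0⟩, 0⟩, 0, 0⟩ 0 0) (.pos 39 .mp ⟨⟨269759442, 0, 0, 0, 0, 350663238, 0, 0, 0, ⟨0, 0⟩, 0⟩, 0, 0⟩ 0 0)) (.cut .d (-4096)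 (.pos 39 .mp ⟨⟨265457195, 0, 0, 0, 0, 375385721, 0, 0, 0, ⟨0, 0⟩, 0⟩, 0, 0⟩ 0 0) (.cut .s 14970880 (.pos 39 .mp ⟨⟨274010509, 0, 0, 0, 0, 344021109, 0, 0, 0, ⟨0, 0⟩, 0⟩, 0, 0⟩ 0 0) (.pos 39 .mp ⟨⟨275359171, 0, 0, 0, 0, 345232907, 0, 0, 0, ⟨0, 0⟩, 0⟩, 0, 0⟩ 0 0))))) (.pos 40 .mp ⟨⟨333202528, 0, 0, 0, 0, 215954946, 0, 0, 0, ⟨0, 0⟩, 0⟩, 0, 0⟩ 0 0)) (.pos 37 .mp ⟨⟨274105284, 0, 0, 0, 0, 0, 0, 0, 0, ⟨0, 0⟩, 0⟩, 0, 0⟩ 0 0))) (.cut .d (-8192) (.cut .l 263642 (.pos 37 .mp ⟨⟨278585103, 0, 0, 0, 0, 390136898, 0, 0, 0, ⟨0, 0⟩, 0⟩, 0, 0⟩ 0 0) (.cut .v 16842752 (.pos 39 .mp ⟨⟨0, 0, 0, 0, 0, 874747678, 0, 0, 0, ⟨0, 0⟩, 0⟩, 0, 0⟩ 0 0) (.cut .s 14991360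 (.cut .s 14983168 (.pos 40 .mp ⟨⟨270195737, 0, 0, 0, 0, 372935243, 0, 0, 0, ⟨0, 0⟩, 0⟩, 0, 0⟩ 0 0) (.pos 40 .mp ⟨⟨272536403, 0, 0, 0, 0, 376589991, 0, 0, 0, ⟨0, 0⟩, 0⟩, 0, 0⟩ 0 0)) (.cut .s 14999552 (.pos 40 .mp ⟨⟨274956541, 0, 0, 0, 0, 380204453, 0, 0, 0, ⟨0, 0⟩, 0⟩, 0, 0⟩ 0 0) (.pos 40 .mp ⟨⟨277458599, 0, 0, 0, 0, 383773843, 0, 0, 0, ⟨0, 0⟩, 0⟩, 0, 0⟩ 0 0))))) (.cut .l 263642 (.cut .v 16842752 (.cut .s 14991360 (.cut .s 14983168 (.cut .d (-4096) (.pos 39 .mp ⟨⟨267955433, 0, 0, 0, 0, 378410031, 0, 0, 0, ⟨0, 0⟩, 0⟩, 0, 0⟩ 0 0) (.cut .s 14979072 (.pos 39 .mp ⟨⟨276710425, 0, 0, 0, 0, 346478830, 0, 0, 0, ⟨0, 0⟩, 0⟩, 0, 0⟩ 0 0) (.pos 39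 .mp ⟨⟨278064159, 0, 0, 0, 0, 347759358, 0, 0, 0, ⟨0, 0⟩, 0⟩, 0, 0⟩ 0 0))) (.cut .d (-4096) (.pos 39 .mp ⟨⟨270484316, 0, 0, 0, 0, 381538098, 0, 0, 0, ⟨0, 0⟩, 0⟩, 0, 0⟩ 0 0) (.cut .s 14987264 (.pos 39 .mp ⟨⟨279420260, 0, 0, 0, 0, 349074973, 0, 0, 0, ⟨0, 0⟩, 0⟩, 0, 0⟩ 0 0) (.pos 39 .mp ⟨⟨280778611, 0, 0, 0, 0, 350426168, 0, 0, 0, ⟨0, 0⟩, 0⟩, 0, 0⟩ 0 0)))) (.cut .s 14999552 (.cut .d (-4096) (.pos 39 .mp ⟨⟨273044261, 0, 0, 0, 0, 384771388, 0, 0, 0, ⟨0, 0⟩, 0⟩, 0, 0⟩ 0 0) (.cut .s 14995456 (.pos 39 .mp ⟨⟨282139094, 0, 0, 0, 0, 351813440, 0, 0, 0, ⟨0, 0⟩, 0⟩, 0, 0⟩ 0 0) (.pos 39 .mp ⟨⟨283501589, 0, 0, 0, 0, 353237295, 0, 0, 0, ⟨0, 0⟩, 0⟩,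 0, 0⟩ 0 0))) (.cut .d (-4096) (.pos 39 .mp ⟨⟨275635691, 0, 0, 0, 0, 388111392, 0, 0, 0, ⟨0, 0⟩, 0⟩, 0, 0⟩ 0 0) (.cut .s 15003648 (.pos 39 .mp ⟨⟨284865973, 0, 0, 0, 0, 354698244, 0, 0, 0, ⟨0, 0⟩, 0⟩, 0, 0⟩ 0 0) (.pos 39 .mp ⟨⟨286232121, 0, 0, 0, 0, 356196806, 0, 0, 0, ⟨0, 0⟩, 0⟩, 0, 0⟩ 0 0))))) (.pos 40 .mp ⟨⟨346465230, 0, 0, 0, 0, 221316958, 0, 0, 0, ⟨0, 0⟩, 0⟩, 0, 0⟩ 0 0)) (.pos 37 .mp ⟨⟨284694350, 0, 0, 0, 0, 34237269, 0, 0, 0, ⟨0, 0⟩, 0⟩, 0, 0⟩ 0 0)))) (.pos 38 .mp ⟨⟨390325673, 0, 0, 0, 0, 120815822, 0, 0, 0, ⟨0, 0⟩, 0⟩, 0, 0⟩ 0 0)) (.cut .v 16908288 (.cut .s 15040512 (.cut .d (-8192) (.cut .l 263642 (.void 37 ⟨⟨0, 0, 0, 0, 0, 100000,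 0, 0, 0, ⟨0, 0⟩, 0⟩, 0, 0⟩ 0 0) (.cut .v 16842752 (.pos 39 .mp ⟨⟨0, 0, 0, 0, 0, 1057476266, 0, 0, 0, ⟨0, 0⟩, 0⟩, 0, 0⟩ 0 0) (.cut .s 15024128 (.cut .s 15015936 (.pos 40 .mp ⟨⟨280045068, 0, 0, 0, 0, 387293296, 0, 0, 0, ⟨0, 0⟩, 0⟩, 0, 0⟩ 0 0) (.pos 40 .mp ⟨⟨282718478, 0, 0, 0, 0, 390757860, 0, 0, 0, ⟨0, 0⟩, 0⟩, 0, 0⟩ 0 0)) (.cut .s 15032320 (.pos 40 .mp ⟨⟨285481404, 0, 0, 0, 0, 394162496, 0, 0, 0, ⟨0, 0⟩, 0⟩, 0, 0⟩ 0 0) (.pos 40 .mp ⟨⟨288336466, 0, 0, 0, 0, 397502079, 0, 0, 0, ⟨0, 0⟩, 0⟩, 0, 0⟩ 0 0))))) (.cut .l 263642 (.cut .v 16842752 (.cut .s 15024128 (.cut .s 15015936 (.cut .d (-4096) (.pos 39 .mp ⟨⟨278259037, 0, 0, 0, 0, 391559629,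 0, 0, 0, ⟨0, 0⟩, 0⟩, 0, 0⟩ 0 0) (.cut .s 15011840 (.pos 39 .mp ⟨⟨287599906, 0, 0, 0, 0, 357733507, 0, 0, 0, ⟨0, 0⟩, 0⟩, 0, 0⟩ 0 0) (.pos 39 .mp ⟨⟨288969197, 0, 0, 0, 0, 359308882, 0, 0, 0, ⟨0, 0⟩, 0⟩, 0, 0⟩ 0 0))) (.cut .d (-4096) (.pos 39 .mp ⟨⟨280914737, 0, 0, 0, 0, 395117648, 0, 0, 0, ⟨0, 0⟩, 0⟩, 0, 0⟩ 0 0) (.cut .s 15020032 (.pos 39 .mp ⟨⟨290339863, 0, 0, 0, 0, 360923471, 0, 0, 0, ⟨0, 0⟩, 0⟩, 0, 0⟩ 0 0) (.pos 39 .mp ⟨⟨291711769, 0, 0, 0, 0, 362577824, 0, 0, 0, ⟨0, 0⟩, 0⟩, 0, 0⟩ 0 0)))) (.cut .s 15032320 (.cut .d (-4096) (.pos 39 .mp ⟨⟨283603240, 0, 0, 0, 0, 398787024, 0, 0, 0, ⟨0, 0⟩, 0⟩, 0, 0⟩ 0 0) (.cut .s 15028224 (.pos 39 .mp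 ⟨⟨293084777, 0, 0, 0, 0, 364272496, 0, 0, 0, ⟨0, 0⟩, 0⟩, 0, 0⟩ 0 0) (.pos 39 .mp ⟨⟨294458747, 0, 0, 0, 0, 366008053, 0, 0, 0, ⟨0, 0⟩, 0⟩, 0, 0⟩ 0 0))) (.cut .d (-4096) (.pos 39 .mp ⟨⟨286325001, 0, 0, 0, 0, 402569363, 0, 0, 0, ⟨0, 0⟩, 0⟩, 0, 0⟩ 0 0) (.cut .s 15036416 (.pos 39 .mp ⟨⟨295833537, 0, 0, 0, 0, 367785065, 0, 0, 0, ⟨0, 0⟩, 0⟩, 0, 0⟩ 0 0) (.pos 39 .mp ⟨⟨297209001, 0, 0, 0, 0, 369604114, 0, 0, 0, ⟨0, 0⟩, 0⟩, 0, 0⟩ 0 0))))) (.pos 40 .mp ⟨⟨360915607, 0, 0, 0, 0, 226434967, 0, 0, 0, ⟨0, 0⟩, 0⟩, 0, 0⟩ 0 0)) (.pos 37 .mp ⟨⟨290080480, 0, 0, 0, 0, 348372431, 0, 0, 0, ⟨0, 0⟩, 0⟩, 0, 0⟩ 0 0))) (.cut .d (-8192) (.cut .l 263642 (.void 37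 ⟨⟨0, 0, 0, 0, 0, 100000, 0, 0, 0, ⟨0, 0⟩, 0⟩, 0, 0⟩ 0 0) (.cut .s 15056896 (.cut .s 15048704 (.pos 37 .mp ⟨⟨289098668, 0, 0, 0, 0, 404693058, 0, 0, 0, ⟨0, 0⟩, 0⟩, 0, 0⟩ 0 0) (.pos 37 .mp ⟨⟨292051610, 0, 0, 0, 0, 408058289, 0, 0, 0, ⟨0, 0⟩, 0⟩, 0, 0⟩ 0 0)) (.pos 37 .mp ⟨⟨292775121, 0, 0, 0, 0, 422763249, 0, 0, 0, ⟨0, 0⟩, 0⟩, 0, 0⟩ 0 0))) (.cut .l 263642 (.cut .v 16842752 (.cut .s 15056896 (.cut .s 15048704 (.cut .d (-4096) (.pos 39 .mp ⟨⟨289080484, 0, 0, 0, 0, 406466302, 0, 0, 0, ⟨0, 0⟩, 0⟩, 0, 0⟩ 0 0) (.cut .s 15044608 (.pos 39 .mp ⟨⟨298584992, 0, 0, 0, 0, 371465789, 0, 0, 0, ⟨0, 0⟩, 0⟩, 0, 0⟩ 0 0) (.pos 39 .mp ⟨⟨299961357, 0, 0, 0,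 0, 373370685, 0, 0, 0, ⟨0, 0⟩, 0⟩, 0, 0⟩ 0 0))) (.cut .s 15052800 (.cut .s 15050752 (.pos 39 .mp ⟨⟨301018448, 0, 0, 0, 0, 375832942, 0, 0, 0, ⟨0, 0⟩, 0⟩, 0, 0⟩ 0 0) (.pos 39 .mp ⟨⟨301943777, 0, 0, 0, 0, 376232445, 0, 0, 0, ⟨0, 0⟩, 0⟩, 0, 0⟩ 0 0)) (.pos 39 .mp ⟨⟨299278362, 0, 0, 0, 0, 386551257, 0, 0, 0, ⟨0, 0⟩, 0⟩, 0, 0⟩ 0 0))) (.cut .s 15065088 (.cut .s 15060992 (.pos 39 .mp ⟨⟨300884990, 0, 0, 0, 0, 387992778, 0, 0, 0, ⟨0, 0⟩, 0⟩, 0, 0⟩ 0 0) (.pos 39 .mp ⟨⟨302517325, 0, 0, 0, 0, 389412551, 0, 0, 0, ⟨0, 0⟩, 0⟩, 0, 0⟩ 0 0)) (.cut .s 15069184 (.pos 39 .mp ⟨⟨304175722, 0, 0, 0, 0, 390809886, 0, 0, 0, ⟨0, 0⟩, 0⟩, 0, 0⟩ 0 0) (.pos 39 .mp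 ⟨⟨305860536, 0, 0, 0, 0, 392184081, 0, 0, 0, ⟨0, 0⟩, 0⟩, 0, 0⟩ 0 0)))) (.pos 40 .mp ⟨⟨377780208, 0, 0, 0, 0, 228792993, 0, 0, 0, ⟨0, 0⟩, 0⟩, 0, 0⟩ 0 0)) (.pos 37 .mp ⟨⟨301159778, 0, 0, 0, 0, 361221029, 0, 0, 0, ⟨0, 0⟩, 0⟩, 0, 0⟩ 0 0)))) (.pos 38 .mp ⟨⟨428513549, 0, 0, 0, 0, 112011967, 0, 0, 0, ⟨0, 0⟩, 0⟩, 0, 0⟩ 0 0)))))) (.pos 34 .mp ⟨⟨541913332, 0, 0, 0, 0, 0, 0, 0, 0, ⟨0, 0⟩, 0⟩, 0, 0⟩ 0 0)))) (.pos 32 .mp ⟨⟨627970429, 0, 0, 0, 0, 0, 0, 0, 0, ⟨0, 0⟩, 0⟩, 0, 0⟩ 0 0))) (.void 30 ⟨⟨100000, 0, 0, 0, 0, 0, 0, 0, 0, ⟨0, 0⟩, 0⟩, 0, 0⟩ 0 0))) (.void 28 ⟨⟨100000, 0, 0, 0, 0, 0, 0, 0, 0, ⟨0, 0⟩, 0⟩, 0, 0⟩ 0 0))) (.void 26 ⟨⟨100000, 0, 0, 0,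 0, 0, 0, 0, 0, ⟨0, 0⟩, 0⟩, 0, 0⟩ 0 0))) (.void 24 ⟨⟨100000, 0, 0, 0, 0, 0, 0, 0, 0, ⟨0, 0⟩, 0⟩, 0, 0⟩ 0 0))) (.void 57 ⟨⟨100000, 0, 0, 0, 0, 0, 0, 0, 0, ⟨0, 0⟩, 0⟩, 0, 0⟩ 0 0)) (.void 68 ⟨⟨100000, 0, 0, 0, 0, 0, 0, 0, 0, ⟨0, 0⟩, 0⟩, 0, 0⟩ 0 0)) (.void 87 ⟨⟨114278, 0, 0, 12792, 0, 0, 0, 0, 0, ⟨0, 0⟩, 0⟩, 0, 0⟩ 0 0))) (.cut .v 16777216 (.cut .v 8388608 (.cut .v 4194304 (.cut .v 2097152 (.cut .v 1048576 (.pos 81 .pm ⟨⟨0, 0, 28343213, 0, 0, 0, 0, 0, 0, ⟨0, 0⟩, 0⟩, 0, 18758⟩ 0 0) (.pos 82 .pm ⟨⟨0, 0, 35579262, 0, 0, 0, 0, 0, 0, ⟨0, 0⟩, 0⟩, 0, 27585⟩ 0 0)) (.pos 78 .pm ⟨⟨0, 0, 42901385, 0, 0, 0, 0, 0, 0, ⟨0, 0⟩, 0⟩, 0, 59617⟩ 0 0)) (.pos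 5 .pm ⟨⟨0, 0, 85885639, 0, 0, 0, 0, 0, 0, ⟨0, 0⟩, 0⟩, 0, 107310⟩ 0 0)) (.pos 3 .pm ⟨⟨0, 0, 0, 0, 0, 0, 0, 0, 0, ⟨0, 0⟩, 0⟩, 0, 0⟩ 0 0)) (.cut .v 268435456 (.cut .v 67108864 (.cut .d 1030181 (.cut .v 33554432 (.cut .d 515090 (.cut .v 25165824 (.cut .d 257545 (.cut .v 20971520 (.cut .v 18874368 (.pos 27 .pp ⟨⟨329524228, 0, 0, 0, 0, 0, 0, 0, 0, ⟨0, 0⟩, 0⟩, 20060637, 0⟩ 0 0) (.pos 28 .pp ⟨⟨536893789, 0, 0, 0, 0, 0, 0, 0, 0, ⟨0, 0⟩, 0⟩, 0, 0⟩ 0 0)) (.pos 26 .pp ⟨⟨746115219, 0, 0, 0, 0, 0, 0, 0, 0, ⟨0, 0⟩, 0⟩, 0, 0⟩ 0 0)) (.pos 23 .pp ⟨⟨0, 0, 0, 0, 0, 0, 0, 0, 0, ⟨0, 0⟩, 0⟩, 69040254, 132310⟩ 0 0)) (.cut .d 257545 (.pos 24 .pp ⟨⟨0, 0, 0,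 0, 0, 0, 0, 0, 0, ⟨0, 0⟩, 0⟩, 218013275, 0⟩ 0 0) (.pos 24 .pp ⟨⟨0, 0, 0, 0, 0, 0, 0, 0, 0, ⟨0, 0⟩, 0⟩, 149412243, 0⟩ 0 0))) (.pos 22 .pp ⟨⟨0, 0, 0, 0, 0, 0, 0, 0, 0, ⟨0, 0⟩, 0⟩, 65977054, 138342⟩ 0 0)) (.cut .d 515090 (.void 57 ⟨⟨0, 0, 0, 0, 0, 0, 0, 0, 0, ⟨0, 0⟩, 0⟩, 100000, 0⟩ 0 0) (.pos 57 .pp ⟨⟨0, 153867025, 0, 0, 0, 0, 0, 0, 0, ⟨0, 0⟩, 0⟩, 234407655, 0⟩ 0 0))) (.pos 56 .pp ⟨⟨0, 311637261, 0, 0, 0, 0, 0, 0, 0, ⟨0, 0⟩, 0⟩, 0, 268275⟩ 0 0)) (.void 68 ⟨⟨0, 0, 0, 50922, 0, 0, 0, 0, 0, ⟨0, 0⟩, 0⟩, 49078, 0⟩ 0 0)) (.void 87 ⟨⟨0, 0, 0, 0, 0, 0, 0, 0, 0, ⟨0, 0⟩, 0⟩, 100000, 0⟩ 0 0)))),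
    by decide +kernel⟩

def covers33 : cell.Covers Vale.Agent.P237.Petty.Cor.Grid.N7.table row33.1 :=
  ⟨(.cut .d 0 (.cut .v 16777216 (.cut .v 8388608 (.void 2 ⟨⟨0, 0, 100000, 0, 0, 0, 0, 0, 0, ⟨0, 0⟩, 0⟩, 0, 0⟩ 0 0) (.cut .d (-8388608) (.void 3 ⟨⟨100000, 0, 0, 0, 0, 0, 0, 0, 0, ⟨0, 0⟩, 0⟩, 0, 0⟩ 0 0) (.cut .d (-4194304) (.void 3 ⟨⟨100000, 0, 0, 0, 0, 0, 0, 0, 0, ⟨0, 0⟩, 0⟩, 0, 0⟩ 0 0) (.cut .d (-2097152) (.void 3 ⟨⟨100000, 0, 0, 0, 0, 0, 0, 0, 0, ⟨0, 0⟩, 0⟩, 0, 0⟩ 0 0) (.cut .d (-1048576) (.void 3 ⟨⟨0, 0, 0, 0, 0, 100000, 0, 0, 0, ⟨0, 0⟩, 0⟩, 0, 0⟩ 0 0) (.cut .d (-524288) (.void 3 ⟨⟨0, 0, 0, 0, 0, 100000, 0, 0, 0, ⟨0, 0⟩, 0⟩, 0, 0⟩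 0 0) (.cut .s 15122432 (.pos 3 .mm ⟨⟨0, 0, 0, 0, 0, 1106966102, 0, 0, 0, ⟨0, 0⟩, 0⟩, 0, 0⟩ 0 0) (.pos 3 .mm ⟨⟨0, 0, 0, 0, 0, 1195273843, 0, 0, 0, ⟨0, 0⟩, 0⟩, 0, 0⟩ 0 0)))))))) (.cut .v 268435456 (.cut .v 67108864 (.cut .v 33554432 (.cut .d (-8388608) (.void 22 ⟨⟨100000, 0, 0, 0, 0, 0, 0, 0, 0, ⟨0, 0⟩, 0⟩, 0, 0⟩ 0 0) (.cut .v 25165824 (.cut .d (-4194304) (.void 23 ⟨⟨100000, 0, 0, 0, 0, 0, 0, 0, 0, ⟨0, 0⟩, 0⟩, 0, 0⟩ 0 0) (.cut .v 20971520 (.cut .d (-2097152) (.void 25 ⟨⟨100000, 0, 0, 0, 0, 0, 0, 0, 0, ⟨0, 0⟩, 0⟩, 0, 0⟩ 0 0) (.cut .v 18874368 (.cut .d (-1048576) (.void 27 ⟨⟨100000, 0, 0, 0, 0, 0, 0, 0, 0, ⟨0, 0⟩, 0⟩, 0, 0⟩ 0 0) (.cut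 .v 17825792 (.cut .d (-524288) (.void 29 ⟨⟨100000, 0, 0, 0, 0, 0, 0, 0, 0, ⟨0, 0⟩, 0⟩, 0, 0⟩ 0 0) (.cut .s 15122432 (.cut .d (-262144) (.void 29 ⟨⟨100000, 0, 0, 0, 0, 0, 0, 0, 0, ⟨0, 0⟩, 0⟩, 0, 0⟩ 0 0) (.cut .v 17301504 (.cut .d (-131072) (.void 31 ⟨⟨100000, 0, 0, 0, 0, 0, 0, 0, 0, ⟨0, 0⟩, 0⟩, 0, 0⟩ 0 0) (.cut .s 15097856 (.cut .v 17039360 (.cut .s 15085568 (.cut .d (-65536) (.void 33 ⟨⟨100000, 0, 0, 0, 0, 0, 0, 0, 0, ⟨0, 0⟩, 0⟩, 0, 0⟩ 0 0) (.cut .s 15079424 (.cut .d (-32768) (.void 33 ⟨⟨100000, 0, 0, 0, 0, 0, 0, 0, 0, ⟨0, 0⟩, 0⟩, 0, 0⟩ 0 0) (.cut .d (-16384) (.void 33 ⟨⟨0, 0, 0, 0, 0, 100000, 0, 0, 0, ⟨0, 0⟩, 0⟩, 0, 0⟩ 0 0) (.cut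 .s 15076352 (.cut .v 16908288 (.cut .d (-8192) (.pos 37 .mp ⟨⟨298518707, 0, 0, 0, 0, 429326676, 0, 0, 0, ⟨0, 0⟩, 0⟩, 0, 0⟩ 0 0) (.pos 37 .mp ⟨⟨317753694, 0, 0, 0, 0, 369335504, 0, 0, 0, ⟨0, 0⟩, 0⟩, 0, 0⟩ 0 0)) (.pos 38 .mp ⟨⟨333137149, 0, 0, 0, 0, 350067381, 0, 0, 0, ⟨0, 0⟩, 0⟩, 0, 0⟩ 0 0)) (.pos 33 .mp ⟨⟨335009607, 0, 0, 0, 0, 360311264, 0, 0, 0, ⟨0, 0⟩, 0⟩, 0, 0⟩ 0 0)))) (.pos 33 .mp ⟨⟨365762760, 0, 0, 0, 0, 318234319, 0, 0, 0, ⟨0, 0⟩, 0⟩, 0, 0⟩ 0 0))) (.pos 33 .mp ⟨⟨425665655, 0, 0, 0, 0, 239208229, 0, 0, 0, ⟨0, 0⟩, 0⟩, 0, 0⟩ 0 0)) (.pos 34 .mp ⟨⟨553448229, 0, 0, 0, 0, 0, 0, 0, 0, ⟨0, 0⟩, 0⟩, 0, 0⟩ 0 0)) (.pos 31 .mp ⟨⟨505371777,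 0, 0, 0, 0, 129048346, 0, 0, 0, ⟨0, 0⟩, 0⟩, 0, 0⟩ 0 0))) (.pos 32 .mp ⟨⟨612946709, 0, 0, 0, 0, 0, 0, 0, 0, ⟨0, 0⟩, 0⟩, 0, 0⟩ 0 0))) (.pos 29 .mp ⟨⟨522918592, 0, 0, 0, 0, 334245277, 0, 0, 0, ⟨0, 0⟩, 0⟩, 0, 0⟩ 0 0))) (.void 30 ⟨⟨100000, 0, 0, 0, 0, 0, 0, 0, 0, ⟨0, 0⟩, 0⟩, 0, 0⟩ 0 0))) (.void 28 ⟨⟨100000, 0, 0, 0, 0, 0, 0, 0, 0, ⟨0, 0⟩, 0⟩, 0, 0⟩ 0 0))) (.void 26 ⟨⟨100000, 0, 0, 0, 0, 0, 0, 0, 0, ⟨0, 0⟩, 0⟩, 0, 0⟩ 0 0))) (.void 24 ⟨⟨100000, 0, 0, 0, 0, 0, 0, 0, 0, ⟨0, 0⟩, 0⟩, 0, 0⟩ 0 0))) (.void 57 ⟨⟨100000, 0, 0, 0, 0, 0, 0, 0, 0, ⟨0, 0⟩, 0⟩, 0, 0⟩ 0 0)) (.void 68 ⟨⟨100000, 0, 0, 0, 0, 0, 0, 0, 0, ⟨0, 0⟩, 0⟩, 0, 0⟩ 0 0)) (.void 87 ⟨⟨89844,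 0, 0, 10156, 0, 0, 0, 0, 0, ⟨0, 0⟩, 0⟩, 0, 0⟩ 0 0))) (.cut .v 16777216 (.cut .v 8388608 (.cut .v 4194304 (.cut .v 2097152 (.cut .v 1048576 (.pos 81 .pm ⟨⟨0, 0, 31338801, 0, 0, 0, 0, 0, 0, ⟨0, 0⟩, 0⟩, 0, 34409⟩ 0 0) (.pos 82 .pm ⟨⟨0, 0, 40041141, 0, 0, 0, 0, 0, 0, ⟨0, 0⟩, 0⟩, 0, 32455⟩ 0 0)) (.pos 78 .pm ⟨⟨0, 0, 52113773, 0, 0, 0, 0, 0, 0, ⟨0, 0⟩, 0⟩, 0, 52109⟩ 0 0)) (.pos 5 .pm ⟨⟨0, 0, 114512960, 0, 0, 0, 0, 0, 0, ⟨0, 0⟩, 0⟩, 0, 93797⟩ 0 0)) (.pos 3 .pm ⟨⟨0, 0, 0, 0, 0, 0, 0, 0, 0, ⟨0, 0⟩, 0⟩, 0, 0⟩ 0 0)) (.cut .v 268435456 (.cut .v 67108864 (.cut .d 948278 (.cut .v 33554432 (.cut .d 474139 (.cut .v 25165824 (.cut .d 237069 (.cut .v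 20971520 (.cut .v 18874368 (.pos 27 .pp ⟨⟨345050549, 0, 0, 0, 0, 0, 0, 0, 0, ⟨0, 0⟩, 0⟩, 30968039, 0⟩ 0 0) (.pos 28 .pp ⟨⟨611596631, 0, 0, 0, 0, 0, 0, 0, 0, ⟨0, 0⟩, 0⟩, 0, 0⟩ 0 0)) (.pos 26 .pp ⟨⟨840822181, 0, 0, 0, 0, 0, 0, 0, 0, ⟨0, 0⟩, 0⟩, 0, 0⟩ 0 0)) (.pos 23 .pp ⟨⟨0, 0, 0, 0, 0, 0, 0, 0, 0, ⟨0, 0⟩, 0⟩, 81676132, 112920⟩ 0 0)) (.cut .d 237069 (.pos 24 .pp ⟨⟨0, 0, 0, 0, 0, 0, 0, 0, 0, ⟨0, 0⟩, 0⟩, 240931565, 0⟩ 0 0) (.pos 24 .pp ⟨⟨0, 0, 0, 0, 0, 0, 0, 0, 0, ⟨0, 0⟩, 0⟩, 171493280, 0⟩ 0 0))) (.pos 22 .pp ⟨⟨0, 0, 0, 0, 0, 0, 0, 0, 0, ⟨0, 0⟩, 0⟩, 78884833, 117075⟩ 0 0)) (.cut .d 474139 (.void 57 ⟨⟨0, 0, 0, 0, 0, 0, 0, 0, 0, ⟨0, 0⟩, 0⟩,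 100000, 0⟩ 0 0) (.pos 57 .pp ⟨⟨0, 192234660, 0, 0, 0, 0, 0, 0, 0, ⟨0, 0⟩, 0⟩, 268276297, 0⟩ 0 0))) (.pos 56 .pp ⟨⟨0, 544290721, 0, 0, 0, 0, 0, 0, 0, ⟨0, 0⟩, 0⟩, 0, 234492⟩ 0 0)) (.void 68 ⟨⟨0, 0, 0, 51041, 0, 0, 0, 0, 0, ⟨0, 0⟩, 0⟩, 48959, 0⟩ 0 0)) (.void 87 ⟨⟨0, 0, 0, 0, 0, 0, 0, 0, 0, ⟨0, 0⟩, 0⟩, 100000, 0⟩ 0 0)))),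
    by decide +kernel⟩

def covers34 : cell.Covers Vale.Agent.P237.Petty.Cor.Grid.N7.table row34.1 :=
  ⟨(.cut .d 0 (.cut .v 16777216 (.cut .v 8388608 (.void 2 ⟨⟨0, 0, 100000, 0, 0, 0, 0, 0, 0, ⟨0, 0⟩, 0⟩, 0, 0⟩ 0 0) (.cut .d (-8388608) (.void 3 ⟨⟨100000, 0, 0, 0, 0, 0, 0, 0, 0, ⟨0, 0⟩, 0⟩, 0, 0⟩ 0 0) (.cut .d (-4194304) (.void 3 ⟨⟨100000, 0, 0, 0, 0, 0, 0, 0, 0, ⟨0, 0⟩, 0⟩, 0, 0⟩ 0 0) (.pos 3 .mm ⟨⟨0, 0, 0, 0, 0, 2331125270, 0, 0, 0, ⟨0, 0⟩, 0⟩, 0, 0⟩ 0 0)))) (.cut .v 268435456 (.cut .v 67108864 (.cut .v 33554432 (.cut .d (-8388608) (.void 22 ⟨⟨100000, 0, 0, 0, 0, 0, 0, 0, 0, ⟨0, 0⟩, 0⟩, 0, 0⟩ 0 0) (.cut .v 25165824 (.cut .d (-4194304)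 (.void 23 ⟨⟨100000, 0, 0, 0, 0, 0, 0, 0, 0, ⟨0, 0⟩, 0⟩, 0, 0⟩ 0 0) (.cut .v 20971520 (.cut .d (-2097152) (.void 25 ⟨⟨100000, 0, 0, 0, 0, 0, 0, 0, 0, ⟨0, 0⟩, 0⟩, 0, 0⟩ 0 0) (.cut .d (-1048576) (.void 25 ⟨⟨100000, 0, 0, 0, 0, 0, 0, 0, 0, ⟨0, 0⟩, 0⟩, 0, 0⟩ 0 0) (.pos 25 .mp ⟨⟨647481811, 0, 0, 0, 0, 832320642, 0, 0, 0, ⟨0, 0⟩, 0⟩, 0, 0⟩ 0 0))) (.void 26 ⟨⟨100000, 0, 0, 0, 0, 0, 0, 0, 0, ⟨0, 0⟩, 0⟩, 0, 0⟩ 0 0))) (.void 24 ⟨⟨100000, 0, 0, 0, 0, 0, 0, 0, 0, ⟨0, 0⟩, 0⟩, 0, 0⟩ 0 0))) (.void 57 ⟨⟨100000, 0, 0, 0, 0, 0, 0, 0, 0, ⟨0, 0⟩, 0⟩, 0, 0⟩ 0 0)) (.void 68 ⟨⟨100758, 0, 0, 0, 0, 0, 0, 0, 0, ⟨0, 0⟩, 0⟩, 0, 0⟩ 0 0)) (.void 87 ⟨⟨99953, 0, 0,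 25, 0, 0, 0, 0, 0, ⟨0, 0⟩, 0⟩, 0, 0⟩ 0 0))) (.cut .v 16777216 (.cut .v 8388608 (.cut .v 4194304 (.cut .v 2097152 (.cut .v 1048576 (.pos 81 .pm ⟨⟨0, 0, 34227075, 0, 0, 0, 0, 0, 0, ⟨0, 0⟩, 0⟩, 0, 15784⟩ 0 0) (.pos 82 .pm ⟨⟨0, 0, 44851853, 0, 0, 0, 0, 0, 0, ⟨0, 0⟩, 0⟩, 0, 50599⟩ 0 0)) (.pos 78 .pm ⟨⟨0, 0, 61799723, 0, 0, 0, 0, 0, 0, ⟨0, 0⟩, 0⟩, 0, 95576⟩ 0 0)) (.pos 5 .pm ⟨⟨0, 0, 142883561, 0, 0, 0, 0, 0, 0, ⟨0, 0⟩, 0⟩, 0, 172037⟩ 0 0)) (.pos 3 .pm ⟨⟨0, 0, 0, 0, 0, 0, 0, 0, 0, ⟨0, 0⟩, 0⟩, 0, 0⟩ 0 0)) (.cut .v 268435456 (.cut .v 67108864 (.cut .d 887780 (.cut .v 33554432 (.cut .d 443890 (.cut .v 25165824 (.cut .d 221945 (.cut .v 20971520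 (.cut .v 18874368 (.pos 27 .pp ⟨⟨538315503, 0, 0, 0, 0, 0, 0, 0, 0, ⟨0, 0⟩, 0⟩, 0, 162292⟩ 0 0) (.pos 28 .pp ⟨⟨690956544, 0, 0, 0, 0, 0, 0, 0, 0, ⟨0, 0⟩, 0⟩, 0, 206484⟩ 0 0)) (.pos 26 .pp ⟨⟨955771385, 0, 0, 0, 0, 0, 368698, 0, 0, ⟨0, 0⟩, 0⟩, 0, 0⟩ 0 0)) (.pos 23 .pp ⟨⟨0, 0, 0, 0, 0, 0, 0, 0, 0, ⟨0, 0⟩, 0⟩, 93104786, 319485⟩ 0 0)) (.cut .d 221945 (.pos 24 .pp ⟨⟨0, 0, 0, 0, 0, 0, 0, 0, 0, ⟨0, 0⟩, 0⟩, 413998803, 0⟩ 0 0) (.pos 24 .pp ⟨⟨0, 0, 0, 0, 0, 0, 589543, 0, 0, ⟨0, 0⟩, 0⟩, 196555894, 0⟩ 0 0))) (.pos 22 .pp ⟨⟨0, 0, 0, 0, 0, 0, 0, 0, 0, ⟨0, 0⟩, 0⟩, 90735646, 322300⟩ 0 0)) (.cut .d 443890 (.void 57 ⟨⟨0, 0, 0, 0, 0, 0, 0, 0, 0, ⟨0, 0⟩,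 0⟩, 100000, 0⟩ 0 0) (.pos 57 .pp ⟨⟨0, 278725769, 0, 0, 0, 0, 267885, 0, 0, ⟨0, 0⟩, 0⟩, 305639745, 0⟩ 0 0))) (.pos 56 .pp ⟨⟨0, 767363166, 0, 0, 0, 0, 0, 0, 0, ⟨0, 0⟩, 0⟩, 0, 430093⟩ 0 0)) (.void 68 ⟨⟨0, 0, 0, 51160, 0, 0, 0, 0, 0, ⟨0, 0⟩, 0⟩, 48840, 0⟩ 0 0)) (.void 87 ⟨⟨0, 0, 0, 0, 0, 0, 0, 0, 0, ⟨0, 0⟩, 0⟩, 100000, 0⟩ 0 0)))),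
    by decide +kernel⟩

def covers35 : cell.Covers Vale.Agent.P237.Petty.Cor.Grid.N7.table row35.1 :=
  ⟨(.cut .d 0 (.cut .v 16777216 (.cut .v 8388608 (.void 2 ⟨⟨0, 0, 100000, 0, 0, 0, 0, 0, 0, ⟨0, 0⟩, 0⟩, 0, 0⟩ 0 0) (.cut .d (-8388608) (.void 3 ⟨⟨100000, 0, 0, 0, 0, 0, 0, 0, 0, ⟨0, 0⟩, 0⟩, 0, 0⟩ 0 0) (.cut .d (-4194304) (.void 3 ⟨⟨100000, 0, 0, 0, 0, 0, 0, 0, 0, ⟨0, 0⟩, 0⟩, 0, 0⟩ 0 0) (.pos 3 .mm ⟨⟨0, 0, 0, 0, 0, 2812963501, 0, 0, 0, ⟨0, 0⟩, 0⟩, 0, 0⟩ 0 0)))) (.cut .v 268435456 (.cut .v 67108864 (.cut .v 33554432 (.cut .d (-8388608) (.void 22 ⟨⟨100000, 0, 0, 0, 0, 0, 0, 0, 0, ⟨0, 0⟩, 0⟩, 0, 0⟩ 0 0) (.cut .v 25165824 (.cut .d (-4194304)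 (.void 23 ⟨⟨100000, 0, 0, 0, 0, 0, 0, 0, 0, ⟨0, 0⟩, 0⟩, 0, 0⟩ 0 0) (.cut .v 20971520 (.cut .d (-2097152) (.void 25 ⟨⟨100000, 0, 0, 0, 0, 0, 0, 0, 0, ⟨0, 0⟩, 0⟩, 0, 0⟩ 0 0) (.cut .d (-1048576) (.void 25 ⟨⟨100000, 0, 0, 0, 0, 0, 0, 0, 0, ⟨0, 0⟩, 0⟩, 0, 0⟩ 0 0) (.pos 25 .mp ⟨⟨760710405, 0, 0, 0, 0, 995684352, 0, 0, 0, ⟨0, 0⟩, 0⟩, 0, 0⟩ 0 0))) (.void 26 ⟨⟨100000, 0, 0, 0, 0, 0, 0, 0, 0, ⟨0, 0⟩, 0⟩, 0, 0⟩ 0 0))) (.void 24 ⟨⟨100000, 0, 0, 0, 0, 0, 0, 0, 0, ⟨0, 0⟩, 0⟩, 0, 0⟩ 0 0))) (.void 57 ⟨⟨100000, 0, 0, 0, 0, 0, 0, 0, 0, ⟨0, 0⟩, 0⟩, 0, 0⟩ 0 0)) (.void 68 ⟨⟨100000, 0, 0, 0, 0, 0, 0, 0, 0, ⟨0, 0⟩, 0⟩, 0, 0⟩ 0 0)) (.void 87 ⟨⟨89707, 0, 0,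 10293, 0, 0, 0, 0, 0, ⟨0, 0⟩, 0⟩, 0, 0⟩ 0 0))) (.cut .v 16777216 (.cut .v 8388608 (.cut .v 4194304 (.cut .v 2097152 (.cut .v 1048576 (.pos 81 .pm ⟨⟨0, 0, 37253729, 0, 0, 0, 0, 0, 0, ⟨0, 0⟩, 0⟩, 0, 13473⟩ 0 0) (.pos 82 .pm ⟨⟨0, 0, 51816912, 0, 0, 0, 0, 0, 0, ⟨0, 0⟩, 0⟩, 0, 45480⟩ 0 0)) (.pos 78 .pm ⟨⟨0, 0, 75057218, 0, 0, 0, 0, 0, 0, ⟨0, 0⟩, 0⟩, 0, 85906⟩ 0 0)) (.pos 5 .pm ⟨⟨0, 0, 178226616, 0, 0, 0, 0, 0, 0, ⟨0, 0⟩, 0⟩, 0, 154631⟩ 0 0)) (.pos 3 .pm ⟨⟨0, 0, 0, 0, 0, 0, 0, 0, 0, ⟨0, 0⟩, 0⟩, 0, 0⟩ 0 0)) (.cut .v 268435456 (.cut .v 67108864 (.cut .d 828061 (.cut .v 33554432 (.cut .d 414030 (.cut .v 25165824 (.cut .d 207015 (.cut .v 20971520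 (.cut .v 18874368 (.pos 27 .pp ⟨⟨614350757, 0, 0, 0, 0, 0, 0, 0, 0, ⟨0, 0⟩, 0⟩, 0, 171180⟩ 0 0) (.pos 28 .pp ⟨⟨794144348, 0, 0, 0, 0, 0, 0, 0, 0, ⟨0, 0⟩, 0⟩, 0, 184451⟩ 0 0)) (.pos 26 .pp ⟨⟨1109929143, 0, 0, 0, 0, 0, 321547, 0, 0, ⟨0, 0⟩, 0⟩, 0, 0⟩ 0 0)) (.pos 23 .pp ⟨⟨0, 0, 0, 0, 0, 0, 0, 0, 0, ⟨0, 0⟩, 0⟩, 106648723, 286990⟩ 0 0)) (.cut .d 207015 (.pos 24 .pp ⟨⟨0, 0, 0, 0, 0, 0, 360694, 0, 0, ⟨0, 0⟩, 0⟩, 318093934, 0⟩ 0 0) (.pos 24 .pp ⟨⟨0, 0, 0, 0, 0, 0, 525674, 0, 0, ⟨0, 0⟩, 0⟩, 226283723, 0⟩ 0 0))) (.pos 22 .pp ⟨⟨0, 0, 0, 0, 0, 0, 0, 0, 0, ⟨0, 0⟩, 0⟩, 104900650, 288622⟩ 0 0)) (.cut .d 414030 (.pos 57 .pp ⟨⟨0, 0, 0, 0, 0, 0, 0,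 0, 0, ⟨0, 0⟩, 0⟩, 593821801, 0⟩ 0 0) (.pos 57 .pp ⟨⟨0, 445117149, 0, 0, 0, 0, 215255, 0, 0, ⟨0, 0⟩, 0⟩, 356342669, 0⟩ 0 0))) (.pos 56 .pp ⟨⟨0, 1044110167, 0, 0, 0, 0, 0, 0, 0, ⟨0, 0⟩, 0⟩, 0, 386577⟩ 0 0)) (.void 68 ⟨⟨0, 0, 0, 51318, 0, 0, 0, 0, 0, ⟨0, 0⟩, 0⟩, 48682, 0⟩ 0 0)) (.void 87 ⟨⟨0, 0, 0, 0, 0, 0, 0, 0, 0, ⟨0, 0⟩, 0⟩, 100000, 0⟩ 0 0)))),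
    by decide +kernel⟩

def covers36 : cell.Covers Vale.Agent.P237.Petty.Cor.Grid.N7.table row36.1 :=
  ⟨(.cut .d 0 (.cut .v 16777216 (.cut .v 8388608 (.void 2 ⟨⟨0, 0, 100000, 0, 0, 0, 0, 0, 0, ⟨0, 0⟩, 0⟩, 0, 0⟩ 0 0) (.cut .d (-8388608) (.void 3 ⟨⟨100000, 0, 0, 0, 0, 0, 0, 0, 0, ⟨0, 0⟩, 0⟩, 0, 0⟩ 0 0) (.cut .d (-4194304) (.void 3 ⟨⟨100000, 0, 0, 0, 0, 0, 0, 0, 0, ⟨0, 0⟩, 0⟩, 0, 0⟩ 0 0) (.pos 3 .mm ⟨⟨0, 0, 0, 0, 0, 3430917699, 0, 0, 0, ⟨0, 0⟩, 0⟩, 0, 0⟩ 0 0)))) (.cut .v 268435456 (.cut .v 67108864 (.cut .v 33554432 (.cut .d (-8388608) (.void 22 ⟨⟨100000, 0, 0, 0, 0, 0, 0, 0, 0, ⟨0, 0⟩, 0⟩, 0, 0⟩ 0 0) (.cut .v 25165824 (.cut .d (-4194304)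 (.void 23 ⟨⟨100000, 0, 0, 0, 0, 0, 0, 0, 0, ⟨0, 0⟩, 0⟩, 0, 0⟩ 0 0) (.cut .v 20971520 (.cut .d (-2097152) (.void 25 ⟨⟨100000, 0, 0, 0, 0, 0, 0, 0, 0, ⟨0, 0⟩, 0⟩, 0, 0⟩ 0 0) (.cut .d (-1048576) (.void 25 ⟨⟨100000, 0, 0, 0, 0, 0, 0, 0, 0, ⟨0, 0⟩, 0⟩, 0, 0⟩ 0 0) (.pos 25 .mp ⟨⟨914379635, 0, 0, 0, 0, 1187692375, 0, 0, 0, ⟨0, 0⟩, 0⟩, 0, 0⟩ 0 0))) (.void 26 ⟨⟨100000, 0, 0, 0, 0, 0, 0, 0, 0, ⟨0, 0⟩, 0⟩, 0, 0⟩ 0 0))) (.void 24 ⟨⟨100000, 0, 0, 0, 0, 0, 0, 0, 0, ⟨0, 0⟩, 0⟩, 0, 0⟩ 0 0))) (.void 57 ⟨⟨100000, 0, 0, 0, 0, 0, 0, 0, 0, ⟨0, 0⟩, 0⟩, 0, 0⟩ 0 0)) (.void 68 ⟨⟨100179, 0, 0, 0, 0, 0, 0, 0, 0, ⟨0, 0⟩, 0⟩, 0, 0⟩ 0 0)) (.void 87 ⟨⟨92599, 0,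 0, 10546, 0, 0, 0, 0, 0, ⟨0, 0⟩, 0⟩, 0, 0⟩ 0 0))) (.cut .v 16777216 (.cut .v 8388608 (.cut .v 4194304 (.cut .v 2097152 (.cut .v 1048576 (.pos 81 .pm ⟨⟨0, 0, 41871106, 0, 0, 0, 0, 0, 0, ⟨0, 0⟩, 0⟩, 0, 11252⟩ 0 0) (.pos 82 .pm ⟨⟨0, 0, 62730228, 0, 0, 0, 0, 0, 0, ⟨0, 0⟩, 0⟩, 0, 38824⟩ 0 0)) (.pos 78 .pm ⟨⟨0, 0, 97070378, 0, 0, 0, 0, 0, 0, ⟨0, 0⟩, 0⟩, 0, 73334⟩ 0 0)) (.pos 5 .pm ⟨⟨0, 0, 240653051, 0, 0, 0, 0, 0, 0, ⟨0, 0⟩, 0⟩, 0, 132002⟩ 0 0)) (.pos 3 .pm ⟨⟨0, 0, 0, 0, 0, 0, 0, 0, 0, ⟨0, 0⟩, 0⟩, 0, 0⟩ 0 0)) (.cut .v 268435456 (.cut .v 67108864 (.cut .d 749621 (.cut .v 33554432 (.cut .d 374810 (.cut .v 25165824 (.cut .d 187405 (.cut .v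 20971520 (.cut .v 18874368 (.pos 27 .pp ⟨⟨730899480, 0, 0, 0, 0, 0, 0, 0, 0, ⟨0, 0⟩, 0⟩, 0, 153942⟩ 0 0) (.pos 28 .pp ⟨⟨943335759, 0, 0, 0, 0, 0, 0, 0, 0, ⟨0, 0⟩, 0⟩, 0, 160770⟩ 0 0)) (.pos 26 .pp ⟨⟨1318345631, 0, 0, 0, 0, 0, 284046, 0, 0, ⟨0, 0⟩, 0⟩, 0, 0⟩ 0 0)) (.pos 23 .pp ⟨⟨0, 0, 0, 0, 0, 0, 0, 0, 0, ⟨0, 0⟩, 0⟩, 128912875, 244988⟩ 0 0)) (.cut .d 187405 (.pos 24 .pp ⟨⟨0, 0, 0, 0, 0, 0, 317555, 0, 0, ⟨0, 0⟩, 0⟩, 378036885, 0⟩ 0 0) (.pos 24 .pp ⟨⟨0, 0, 0, 0, 0, 0, 454722, 0, 0, ⟨0, 0⟩, 0⟩, 270508478, 0⟩ 0 0))) (.pos 22 .pp ⟨⟨0, 0, 0, 0, 0, 0, 0, 0, 0, ⟨0, 0⟩, 0⟩, 128498952, 245261⟩ 0 0)) (.cut .d 374810 (.pos 57 .pp ⟨⟨0, 0, 0, 0,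 0, 0, 0, 0, 0, ⟨0, 0⟩, 0⟩, 702667810, 0⟩ 0 0) (.pos 57 .pp ⟨⟨0, 644883662, 0, 0, 0, 0, 185369, 0, 0, ⟨0, 0⟩, 0⟩, 430109320, 0⟩ 0 0))) (.pos 56 .pp ⟨⟨0, 1521311504, 0, 0, 0, 0, 0, 0, 0, ⟨0, 0⟩, 0⟩, 0, 330005⟩ 0 0)) (.void 68 ⟨⟨0, 0, 0, 51475, 0, 0, 0, 0, 0, ⟨0, 0⟩, 0⟩, 48525, 0⟩ 0 0)) (.void 87 ⟨⟨0, 0, 0, 0, 0, 0, 0, 0, 0, ⟨0, 0⟩, 0⟩, 100000, 0⟩ 0 0)))),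
    by decide +kernel⟩

def covers37 : cell.Covers Vale.Agent.P237.Petty.Cor.Grid.N7.table row37.1 :=
  ⟨(.cut .d 0 (.cut .v 16777216 (.cut .v 8388608 (.void 2 ⟨⟨0, 0, 100000, 0, 0, 0, 0, 0, 0, ⟨0, 0⟩, 0⟩, 0, 0⟩ 0 0) (.cut .d (-8388608) (.void 3 ⟨⟨100000, 0, 0, 0, 0, 0, 0, 0, 0, ⟨0, 0⟩, 0⟩, 0, 0⟩ 0 0) (.cut .d (-4194304) (.void 3 ⟨⟨100000, 0, 0, 0, 0, 0, 0, 0, 0, ⟨0, 0⟩, 0⟩, 0, 0⟩ 0 0) (.cut .d (-2097152) (.void 3 ⟨⟨100000, 0, 0, 0, 0, 0, 0, 0, 0, ⟨0, 0⟩, 0⟩, 0, 0⟩ 0 0) (.pos 3 .mm ⟨⟨0, 0, 0, 0, 0, 3869566769, 0, 0, 0, ⟨0, 0⟩, 0⟩, 0, 0⟩ 0 0))))) (.cut .v 268435456 (.cut .v 67108864 (.cut .v 33554432 (.cut .d (-8388608) (.void 22 ⟨⟨100000,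 0, 0, 0, 0, 0, 0, 0, 0, ⟨0, 0⟩, 0⟩, 0, 0⟩ 0 0) (.cut .v 25165824 (.cut .d (-4194304) (.void 23 ⟨⟨100000, 0, 0, 0, 0, 0, 0, 0, 0, ⟨0, 0⟩, 0⟩, 0, 0⟩ 0 0) (.cut .d (-2097152) (.void 23 ⟨⟨100000, 0, 0, 0, 0, 0, 0, 0, 0, ⟨0, 0⟩, 0⟩, 0, 0⟩ 0 0) (.cut .v 20971520 (.cut .d (-1048576) (.void 25 ⟨⟨100000, 0, 0, 0, 0, 0, 0, 0, 0, ⟨0, 0⟩, 0⟩, 0, 0⟩ 0 0) (.cut .s 15654912 (.pos 25 .mp ⟨⟨1104805941, 0, 0, 0, 0, 1417188183, 0, 0, 0, ⟨0, 0⟩, 0⟩, 0, 0⟩ 0 0) (.pos 25 .mp ⟨⟨1353073212, 0, 0, 0, 0, 1716820710, 0, 0, 0, ⟨0, 0⟩, 0⟩, 0, 0⟩ 0 0))) (.void 26 ⟨⟨100000, 0, 0, 0, 0, 0, 0, 0, 0, ⟨0, 0⟩, 0⟩, 0, 0⟩ 0 0)))) (.void 24 ⟨⟨100000, 0, 0, 0, 0, 0, 0, 0,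 0, ⟨0, 0⟩, 0⟩, 0, 0⟩ 0 0))) (.void 57 ⟨⟨100000, 0, 0, 0, 0, 0, 0, 0, 0, ⟨0, 0⟩, 0⟩, 0, 0⟩ 0 0)) (.void 68 ⟨⟨100000, 0, 0, 0, 0, 0, 0, 0, 0, ⟨0, 0⟩, 0⟩, 0, 0⟩ 0 0)) (.void 87 ⟨⟨89481, 0, 0, 10519, 0, 0, 0, 0, 0, ⟨0, 0⟩, 0⟩, 0, 0⟩ 0 0))) (.cut .v 16777216 (.cut .v 8388608 (.cut .v 4194304 (.cut .v 2097152 (.cut .v 1048576 (.pos 81 .pm ⟨⟨0, 0, 53937226, 0, 0, 0, 0, 0, 0, ⟨0, 0⟩, 0⟩, 0, 7406⟩ 0 0) (.pos 82 .pm ⟨⟨0, 0, 86450637, 0, 0, 0, 0, 0, 0, ⟨0, 0⟩, 0⟩, 0, 27916⟩ 0 0)) (.pos 78 .pm ⟨⟨0, 0, 136732275, 0, 0, 0, 0, 0, 0, ⟨0, 0⟩, 0⟩, 0, 51844⟩ 0 0)) (.pos 5 .pm ⟨⟨0, 0, 325444468, 0, 0, 0, 0, 0, 0, ⟨0, 0⟩, 0⟩, 0, 109542⟩ 0 0)) (.pos 3 .pm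 ⟨⟨0, 0, 0, 0, 0, 0, 0, 0, 0, ⟨0, 0⟩, 0⟩, 0, 0⟩ 0 0)) (.cut .v 268435456 (.cut .v 67108864 (.cut .d 672505 (.cut .v 33554432 (.cut .d 336252 (.cut .v 25165824 (.cut .d 168126 (.cut .v 20971520 (.cut .d 84063 (.cut .v 18874368 (.cut .s 15654912 (.pos 27 .pp ⟨⟨886625268, 0, 0, 0, 0, 0, 0, 0, 0, ⟨0, 0⟩, 0⟩, 0, 125791⟩ 0 0) (.pos 27 .pp ⟨⟨1072524730, 0, 0, 0, 0, 0, 0, 0, 0, ⟨0, 0⟩, 0⟩, 0, 106392⟩ 0 0)) (.pos 28 .pp ⟨⟨1398557097, 0, 0, 0, 0, 0, 0, 0, 0, ⟨0, 0⟩, 0⟩, 0, 100648⟩ 0 0)) (.pos 25 .pp ⟨⟨642841634, 0, 0, 0, 0, 0, 0, 0, 0, ⟨0, 0⟩, 0⟩, 0, 177695⟩ 0 0)) (.cut .d 84063 (.pos 26 .pp ⟨⟨2133026619, 0, 0, 0, 0, 0, 0, 0, 0, ⟨0, 0⟩, 0⟩, 0,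 84206⟩ 0 0) (.pos 26 .pp ⟨⟨1529852716, 0, 0, 0, 0, 0, 259719, 0, 0, ⟨0, 0⟩, 0⟩, 0, 0⟩ 0 0))) (.pos 23 .pp ⟨⟨0, 0, 0, 0, 0, 0, 0, 0, 0, ⟨0, 0⟩, 0⟩, 157881989, 203375⟩ 0 0)) (.cut .d 168126 (.pos 24 .pp ⟨⟨0, 0, 0, 0, 0, 0, 200705, 0, 0, ⟨0, 0⟩, 0⟩, 539634679, 0⟩ 0 0) (.pos 24 .pp ⟨⟨0, 0, 0, 0, 0, 0, 354587, 0, 0, ⟨0, 0⟩, 0⟩, 348650958, 0⟩ 0 0))) (.pos 22 .pp ⟨⟨0, 0, 0, 0, 0, 0, 0, 0, 0, ⟨0, 0⟩, 0⟩, 159418535, 202689⟩ 0 0)) (.cut .d 336252 (.pos 57 .pp ⟨⟨0, 0, 0, 0, 0, 0, 0, 0, 0, ⟨0, 0⟩, 0⟩, 997079158, 0⟩ 0 0) (.cut .v 50331648 (.pos 79 .pp ⟨⟨0, 256150548, 0, 0, 0, 0, 275065, 0, 0, ⟨0, 0⟩, 0⟩, 459397311, 0⟩ 0 0) (.void 80 ⟨⟨0, 0, 0,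 51769, 0, 0, 0, 0, 0, ⟨0, 0⟩, 0⟩, 48231, 0⟩ 0 0)))) (.pos 56 .pp ⟨⟨0, 2176636486, 0, 0, 0, 0, 0, 0, 0, ⟨0, 0⟩, 0⟩, 0, 273854⟩ 0 0)) (.void 68 ⟨⟨0, 0, 0, 51769, 0, 0, 0, 0, 0, ⟨0, 0⟩, 0⟩, 48231, 0⟩ 0 0)) (.void 87 ⟨⟨0, 0, 0, 0, 0, 0, 0, 0, 0, ⟨0, 0⟩, 0⟩, 100000, 0⟩ 0 0)))),
    by decide +kernel⟩

def covers38 : cell.Covers Vale.Agent.P237.Petty.Cor.Grid.N7.table row38.1 :=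
  ⟨(.cut .d 0 (.cut .v 16777216 (.cut .v 8388608 (.void 2 ⟨⟨0, 0, 100000, 0, 0, 0, 0, 0, 0, ⟨0, 0⟩, 0⟩, 0, 0⟩ 0 0) (.cut .d (-8388608) (.void 3 ⟨⟨100000, 0, 0, 0, 0, 0, 0, 0, 0, ⟨0, 0⟩, 0⟩, 0, 0⟩ 0 0) (.cut .d (-4194304) (.void 3 ⟨⟨100000, 0, 0, 0, 0, 0, 0, 0, 0, ⟨0, 0⟩, 0⟩, 0, 0⟩ 0 0) (.cut .d (-2097152) (.void 3 ⟨⟨100000, 0, 0, 0, 0, 0, 0, 0, 0, ⟨0, 0⟩, 0⟩, 0, 0⟩ 0 0) (.pos 3 .mm ⟨⟨0, 0, 0, 0, 0, 5649508220, 0, 0, 0, ⟨0, 0⟩, 0⟩, 0, 0⟩ 0 0))))) (.cut .v 268435456 (.cut .v 67108864 (.cut .v 33554432 (.cut .d (-8388608) (.void 22 ⟨⟨100000, 0, 0, 0, 0, 0, 0, 0, 0, ⟨0, 0⟩, 0⟩, 0, 0⟩ 0 0) (.cut .v 25165824 (.cut .d (-4194304) (.void 23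 ⟨⟨100000, 0, 0, 0, 0, 0, 0, 0, 0, ⟨0, 0⟩, 0⟩, 0, 0⟩ 0 0) (.cut .d (-2097152) (.void 23 ⟨⟨100000, 0, 0, 0, 0, 0, 0, 0, 0, ⟨0, 0⟩, 0⟩, 0, 0⟩ 0 0) (.cut .v 20971520 (.cut .s 15876096 (.cut .d (-1048576) (.void 25 ⟨⟨100000, 0, 0, 0, 0, 0, 0, 0, 0, ⟨0, 0⟩, 0⟩, 0, 0⟩ 0 0) (.pos 25 .mp ⟨⟨1633979879, 0, 0, 0, 0, 1994851370, 0, 0, 0, ⟨0, 0⟩, 0⟩, 0, 0⟩ 0 0)) (.pos 25 .mp ⟨⟨1902772942, 0, 0, 0, 0, 3841840224, 0, 0, 0, ⟨0, 0⟩, 0⟩, 0, 0⟩ 0 0)) (.void 26 ⟨⟨100000, 0, 0, 0, 0, 0, 0, 0, 0, ⟨0, 0⟩, 0⟩, 0, 0⟩ 0 0)))) (.void 24 ⟨⟨100000, 0, 0, 0, 0, 0, 0, 0, 0, ⟨0, 0⟩, 0⟩, 0, 0⟩ 0 0))) (.void 57 ⟨⟨100000, 0, 0, 0, 0, 0, 0, 0, 0, ⟨0, 0⟩, 0⟩, 0, 0⟩ 0 0))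 (.void 68 ⟨⟨99692, 0, 0, 0, 0, 0, 0, 0, 0, ⟨0, 0⟩, 0⟩, 0, 0⟩ 0 0)) (.void 87 ⟨⟨97128, 0, 0, 8838, 0, 0, 0, 0, 0, ⟨0, 0⟩, 0⟩, 0, 0⟩ 0 0))) (.cut .v 16777216 (.cut .v 8388608 (.cut .v 4194304 (.cut .v 2097152 (.cut .v 1048576 (.pos 81 .pm ⟨⟨0, 0, 76462973, 0, 0, 0, 0, 0, 0, ⟨0, 0⟩, 0⟩, 0, 4792⟩ 0 0) (.pos 82 .pm ⟨⟨0, 0, 138570289, 0, 0, 0, 0, 0, 0, ⟨0, 0⟩, 0⟩, 0, 18063⟩ 0 0)) (.pos 78 .pm ⟨⟨0, 0, 238845419, 0, 0, 0, 0, 0, 0, ⟨0, 0⟩, 0⟩, 0, 33545⟩ 0 0)) (.pos 5 .pm ⟨⟨0, 0, 596834539, 0, 0, 0, 0, 0, 0, ⟨0, 0⟩, 0⟩, 0, 72351⟩ 0 0)) (.pos 3 .pm ⟨⟨0, 0, 0, 0, 0, 0, 0, 0, 0, ⟨0, 0⟩, 0⟩, 0, 0⟩ 0 0)) (.cut .v 268435456 (.cut .v 67108864 (.cut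 .d 531367 (.cut .v 33554432 (.cut .d 265683 (.cut .v 25165824 (.cut .d 132841 (.cut .v 20971520 (.cut .d 66420 (.cut .v 18874368 (.cut .s 15876096 (.pos 27 .pp ⟨⟨1297763101, 0, 0, 0, 0, 0, 0, 0, 0, ⟨0, 0⟩, 0⟩, 0, 84178⟩ 0 0) (.pos 27 .pp ⟨⟨1561063300, 0, 0, 0, 0, 0, 0, 0, 0, ⟨0, 0⟩, 0⟩, 0, 69531⟩ 0 0)) (.pos 28 .pp ⟨⟨2018532639, 0, 0, 0, 0, 0, 0, 0, 0, ⟨0, 0⟩, 0⟩, 0, 74640⟩ 0 0)) (.pos 25 .pp ⟨⟨961762684, 0, 0, 0, 0, 0, 0, 0, 0, ⟨0, 0⟩, 0⟩, 0, 119340⟩ 0 0)) (.cut .d 66420 (.pos 26 .pp ⟨⟨3058646203, 0, 0, 0, 0, 0, 0, 0, 0, ⟨0, 0⟩, 0⟩, 0, 61362⟩ 0 0) (.pos 26 .pp ⟨⟨2235458588, 0, 0, 0, 0, 0, 186614, 0, 0, ⟨0, 0⟩, 0⟩, 0, 0⟩ 0 0))) (.pos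 23 .pp ⟨⟨0, 0, 0, 0, 0, 0, 0, 0, 0, ⟨0, 0⟩, 0⟩, 240016205, 135047⟩ 0 0)) (.cut .d 132841 (.pos 24 .pp ⟨⟨0, 0, 0, 0, 0, 0, 154566, 0, 0, ⟨0, 0⟩, 0⟩, 770725404, 0⟩ 0 0) (.pos 24 .pp ⟨⟨0, 0, 0, 0, 0, 0, 247706, 0, 0, ⟨0, 0⟩, 0⟩, 514804084, 0⟩ 0 0))) (.pos 22 .pp ⟨⟨0, 0, 0, 0, 0, 0, 0, 0, 0, ⟨0, 0⟩, 0⟩, 249471810, 133241⟩ 0 0)) (.cut .d 265683 (.pos 57 .pp ⟨⟨0, 0, 0, 0, 0, 0, 6798, 0, 0, ⟨0, 0⟩, 0⟩, 1416343019, 0⟩ 0 0) (.cut .v 50331648 (.pos 79 .pp ⟨⟨0, 631286877, 0, 0, 0, 0, 196230, 0, 0, ⟨0, 0⟩, 0⟩, 690318734, 0⟩ 0 0) (.void 80 ⟨⟨0, 0, 0, 52002, 0, 0, 0, 0, 0, ⟨0, 0⟩, 0⟩, 47998, 0⟩ 0 0)))) (.pos 56 .pp ⟨⟨0, 4143454749, 0, 0, 0, 0, 0,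 0, 0, ⟨0, 0⟩, 0⟩, 0, 180878⟩ 0 0)) (.void 68 ⟨⟨0, 0, 0, 52002, 0, 0, 0, 0, 0, ⟨0, 0⟩, 0⟩, 47998, 0⟩ 0 0)) (.void 87 ⟨⟨0, 0, 0, 0, 0, 0, 0, 0, 0, ⟨0, 0⟩, 0⟩, 100000, 0⟩ 0 0)))),
    by decide +kernel⟩

def covers39 : cell.Covers Vale.Agent.P237.Petty.Cor.Grid.N7.table row39.1 :=
  ⟨(.cut .d 0 (.cut .v 16777216 (.cut .v 8388608 (.void 2 ⟨⟨0, 0, 100000, 0, 0, 0, 0, 0, 0, ⟨0, 0⟩, 0⟩, 0, 0⟩ 0 0) (.cut .d (-8388608) (.void 3 ⟨⟨100000, 0, 0, 0, 0, 0, 0, 0, 0, ⟨0, 0⟩, 0⟩, 0, 0⟩ 0 0) (.cut .d (-4194304) (.void 3 ⟨⟨100000, 0, 0, 0, 0, 0, 0, 0, 0, ⟨0, 0⟩, 0⟩, 0, 0⟩ 0 0) (.cut .d (-2097152) (.void 3 ⟨⟨100000, 0, 0, 0, 0, 0, 0, 0, 0, ⟨0, 0⟩, 0⟩,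 0, 0⟩ 0 0) (.pos 3 .mm ⟨⟨0, 0, 0, 0, 0, 8202262360, 0, 0, 0, ⟨0, 0⟩, 0⟩, 0, 0⟩ 0 0))))) (.cut .v 268435456 (.cut .v 67108864 (.cut .v 33554432 (.cut .d (-8388608) (.void 22 ⟨⟨100000, 0, 0, 0, 0, 0, 0, 0, 0, ⟨0, 0⟩, 0⟩, 0, 0⟩ 0 0) (.cut .v 25165824 (.cut .d (-4194304) (.void 23 ⟨⟨100000, 0, 0, 0, 0, 0, 0, 0, 0, ⟨0, 0⟩, 0⟩, 0, 0⟩ 0 0) (.cut .d (-2097152) (.void 23 ⟨⟨100000, 0, 0, 0, 0, 0, 0, 0, 0, ⟨0, 0⟩, 0⟩, 0, 0⟩ 0 0) (.cut .v 20971520 (.cut .s 16056320 (.pos 25 .mp ⟨⟨2296289974, 0, 0, 0, 0, 4504447064, 0, 0, 0, ⟨0, 0⟩, 0⟩, 0, 0⟩ 0 0) (.pos 25 .mp ⟨⟨2794134195, 0, 0, 0, 0, 5403092327, 0, 0, 0, ⟨0, 0⟩, 0⟩, 0, 0⟩ 0 0)) (.void 26 ⟨⟨100000,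 0, 0, 0, 0, 0, 0, 0, 0, ⟨0, 0⟩, 0⟩, 0, 0⟩ 0 0)))) (.void 24 ⟨⟨100000, 0, 0, 0, 0, 0, 0, 0, 0, ⟨0, 0⟩, 0⟩, 0, 0⟩ 0 0))) (.void 57 ⟨⟨100000, 0, 0, 0, 0, 0, 0, 0, 0, ⟨0, 0⟩, 0⟩, 0, 0⟩ 0 0)) (.void 68 ⟨⟨100000, 0, 0, 0, 0, 0, 0, 0, 0, ⟨0, 0⟩, 0⟩, 0, 0⟩ 0 0)) (.void 87 ⟨⟨85627, 0, 0, 10189, 0, 0, 0, 0, 0, ⟨0, 0⟩, 0⟩, 0, 0⟩ 0 0))) (.cut .v 16777216 (.cut .v 8388608 (.cut .v 4194304 (.cut .v 2097152 (.cut .v 1048576 (.pos 81 .pm ⟨⟨0, 0, 109652738, 0, 0, 0, 0, 0, 0, ⟨0, 0⟩, 0⟩, 0, 4118⟩ 0 0) (.pos 82 .pm ⟨⟨0, 0, 220389358, 0, 0, 0, 0, 0, 0, ⟨0, 0⟩, 0⟩, 0, 11255⟩ 0 0)) (.pos 78 .pm ⟨⟨0, 0, 402970367, 0, 0, 0, 0, 0, 0, ⟨0, 0⟩, 0⟩, 0, 25472⟩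 0 0)) (.pos 5 .pm ⟨⟨0, 0, 1012993853, 0, 0, 0, 0, 0, 0, ⟨0, 0⟩, 0⟩, 0, 46763⟩ 0 0)) (.pos 3 .pm ⟨⟨0, 0, 0, 0, 0, 0, 0, 0, 0, ⟨0, 0⟩, 0⟩, 0, 0⟩ 0 0)) (.cut .v 268435456 (.cut .v 67108864 (.cut .v 33554432 (.cut .d 421582 (.cut .d 210791 (.cut .v 25165824 (.cut .d 105395 (.cut .v 20971520 (.cut .d 52697 (.cut .v 18874368 (.cut .s 16056320 (.pos 27 .pp ⟨⟨1872947768, 0, 0, 0, 0, 0, 0, 0, 0, ⟨0, 0⟩, 0⟩, 0, 55496⟩ 0 0) (.pos 27 .pp ⟨⟨2258052811, 0, 0, 0, 0, 0, 0, 0, 0, ⟨0, 0⟩, 0⟩, 0, 44750⟩ 0 0)) (.pos 28 .pp ⟨⟨2907754375, 0, 0, 0, 0, 0, 0, 0, 0, ⟨0, 0⟩, 0⟩, 0, 52052⟩ 0 0)) (.pos 25 .pp ⟨⟨1406142008, 0, 0, 0, 0, 0, 0, 0, 0, ⟨0, 0⟩, 0⟩, 0,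 78575⟩ 0 0)) (.cut .d 52697 (.pos 26 .pp ⟨⟨4398191791, 0, 0, 0, 0, 0, 0, 0, 0, ⟨0, 0⟩, 0⟩, 0, 40634⟩ 0 0) (.pos 26 .pp ⟨⟨3229299696, 0, 0, 0, 0, 0, 128816, 0, 0, ⟨0, 0⟩, 0⟩, 0, 0⟩ 0 0))) (.pos 23 .pp ⟨⟨0, 0, 0, 0, 0, 0, 0, 0, 0, ⟨0, 0⟩, 0⟩, 355241405, 88007⟩ 0 0)) (.cut .d 105395 (.pos 24 .pp ⟨⟨0, 0, 0, 0, 0, 0, 110480, 0, 0, ⟨0, 0⟩, 0⟩, 1104315274, 0⟩ 0 0) (.pos 24 .pp ⟨⟨0, 0, 0, 0, 0, 0, 167775, 0, 0, ⟨0, 0⟩, 0⟩, 749546330, 0⟩ 0 0))) (.pos 22 .pp ⟨⟨0, 0, 0, 0, 0, 0, 0, 0, 0, ⟨0, 0⟩, 0⟩, 378364705, 86126⟩ 0 0)) (.pos 22 .pp ⟨⟨0, 0, 0, 0, 0, 0, 0, 0, 0, ⟨0, 0⟩, 0⟩, 0, 116907⟩ 0 0)) (.cut .v 50331648 (.cut .d 421582 (.cut .d 210791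 (.pos 79 .pp ⟨⟨0, 0, 0, 0, 0, 0, 75201, 0, 0, ⟨0, 0⟩, 0⟩, 1626020193, 0⟩ 0 0) (.pos 79 .pp ⟨⟨0, 1202197703, 0, 0, 0, 0, 135951, 0, 0, ⟨0, 0⟩, 0⟩, 1019217026, 0⟩ 0 0)) (.void 79 ⟨⟨0, 100000, 0, 0, 0, 0, 0, 0, 0, ⟨0, 0⟩, 0⟩, 0, 0⟩ 0 0)) (.void 80 ⟨⟨0, 0, 0, 52196, 0, 0, 0, 0, 0, ⟨0, 0⟩, 0⟩, 47804, 0⟩ 0 0))) (.void 68 ⟨⟨0, 0, 0, 52196, 0, 0, 0, 0, 0, ⟨0, 0⟩, 0⟩, 47804, 0⟩ 0 0)) (.void 87 ⟨⟨0, 0, 0, 0, 0, 0, 0, 0, 0, ⟨0, 0⟩, 0⟩, 100000, 0⟩ 0 0)))),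
    by decide +kernel⟩

def covers40 : cell.Covers Vale.Agent.P237.Petty.Cor.Grid.N7.table row40.1 :=
  ⟨(.cut .d 0 (.cut .v 16777216 (.cut .v 8388608 (.void 2 ⟨⟨0, 0, 100000, 0, 0, 0, 0, 0, 0, ⟨0, 0⟩, 0⟩, 0, 0⟩ 0 0) (.cut .d (-8388608) (.void 3 ⟨⟨100000, 0, 0, 0, 0, 0, 0, 0, 0, ⟨0, 0⟩, 0⟩, 0, 0⟩ 0 0) (.cut .d (-4194304) (.void 3 ⟨⟨100000, 0, 0, 0, 0, 0, 0, 0, 0, ⟨0, 0⟩, 0⟩, 0, 0⟩ 0 0) (.pos 3 .mm ⟨⟨0, 0, 0, 0, 0, 15520905690, 0, 0, 0, ⟨0, 0⟩, 0⟩, 0, 0⟩ 0 0)))) (.cut .v 268435456 (.cut .v 67108864 (.cut .v 33554432 (.cut .d (-8388608) (.void 22 ⟨⟨100000, 0, 0, 0, 0, 0, 0, 0, 0, ⟨0, 0⟩, 0⟩, 0, 0⟩ 0 0) (.cut .v 25165824 (.cut .d (-4194304)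 (.void 23 ⟨⟨100000, 0, 0, 0, 0, 0, 0, 0, 0, ⟨0, 0⟩, 0⟩, 0, 0⟩ 0 0) (.cut .d (-2097152) (.void 23 ⟨⟨100000, 0, 0, 0, 0, 0, 0, 0, 0, ⟨0, 0⟩, 0⟩, 0, 0⟩ 0 0) (.cut .v 20971520 (.cut .s 16203776 (.pos 25 .mp ⟨⟨3366777566, 0, 0, 0, 0, 6259753265, 0, 0, 0, ⟨0, 0⟩, 0⟩, 0, 0⟩ 0 0) (.pos 25 .mp ⟨⟨4082752583, 0, 0, 0, 0, 7442368720, 0, 0, 0, ⟨0, 0⟩, 0⟩, 0, 0⟩ 0 0)) (.void 26 ⟨⟨100000, 0, 0, 0, 0, 0, 0, 0, 0, ⟨0, 0⟩, 0⟩, 0, 0⟩ 0 0)))) (.void 24 ⟨⟨100000, 0, 0, 0, 0, 0, 0, 0, 0, ⟨0, 0⟩, 0⟩, 0, 0⟩ 0 0))) (.void 57 ⟨⟨100000, 0, 0, 0, 0, 0, 0, 0, 0, ⟨0, 0⟩, 0⟩, 0, 0⟩ 0 0)) (.void 68 ⟨⟨100000, 0, 0, 0, 0, 0, 0, 0, 0, ⟨0, 0⟩, 0⟩, 0, 0⟩ 0 0)) (.void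 87 ⟨⟨89189, 0, 0, 10811, 0, 0, 0, 0, 0, ⟨0, 0⟩, 0⟩, 0, 0⟩ 0 0))) (.cut .v 16777216 (.cut .v 8388608 (.cut .v 4194304 (.cut .v 2097152 (.cut .v 1048576 (.pos 81 .pm ⟨⟨0, 0, 156619800, 0, 0, 0, 0, 0, 0, ⟨0, 0⟩, 0⟩, 0, 0⟩ 0 0) (.pos 82 .pm ⟨⟨0, 0, 346045051, 0, 0, 0, 0, 0, 0, ⟨0, 0⟩, 0⟩, 0, 6888⟩ 0 0)) (.pos 78 .pm ⟨⟨0, 0, 662180944, 0, 0, 0, 0, 0, 0, ⟨0, 0⟩, 0⟩, 0, 16192⟩ 0 0)) (.pos 5 .pm ⟨⟨0, 0, 1669222273, 0, 0, 0, 0, 0, 0, ⟨0, 0⟩, 0⟩, 0, 29146⟩ 0 0)) (.pos 3 .pm ⟨⟨0, 0, 0, 0, 0, 0, 0, 0, 0, ⟨0, 0⟩, 0⟩, 0, 0⟩ 0 0)) (.cut .v 268435456 (.cut .v 67108864 (.cut .v 33554432 (.cut .d 332139 (.cut .d 166069 (.cut .v 25165824 (.cut .d 83034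 (.cut .v 20971520 (.cut .d 41517 (.cut .v 18874368 (.cut .s 16203776 (.pos 27 .pp ⟨⟨2703437976, 0, 0, 0, 0, 0, 0, 0, 0, ⟨0, 0⟩, 0⟩, 0, 35196⟩ 0 0) (.pos 27 .pp ⟨⟨3246860472, 0, 0, 0, 0, 0, 0, 0, 0, ⟨0, 0⟩, 0⟩, 0, 28027⟩ 0 0)) (.pos 28 .pp ⟨⟨4173977137, 0, 0, 0, 0, 0, 0, 0, 0, ⟨0, 0⟩, 0⟩, 0, 34098⟩ 0 0)) (.pos 25 .pp ⟨⟨2052566809, 0, 0, 0, 0, 0, 0, 0, 0, ⟨0, 0⟩, 0⟩, 0, 49964⟩ 0 0)) (.cut .d 41517 (.pos 26 .pp ⟨⟨6289952596, 0, 0, 0, 0, 0, 0, 0, 0, ⟨0, 0⟩, 0⟩, 0, 26165⟩ 0 0) (.pos 26 .pp ⟨⟨4663101310, 0, 0, 0, 0, 0, 85561, 0, 0, ⟨0, 0⟩, 0⟩, 0, 0⟩ 0 0))) (.pos 23 .pp ⟨⟨0, 0, 0, 0, 0, 0, 0, 0, 0, ⟨0, 0⟩, 0⟩, 523574962, 55432⟩ 0 0)) (.cut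 .d 83034 (.pos 24 .pp ⟨⟨0, 0, 0, 0, 0, 0, 75445, 0, 0, ⟨0, 0⟩, 0⟩, 1575600244, 0⟩ 0 0) (.cut .v 29360128 (.pos 88 .pp ⟨⟨0, 0, 0, 0, 0, 0, 119832, 0, 0, ⟨0, 0⟩, 0⟩, 953987873, 0⟩ 0 0) (.pos 89 .pp ⟨⟨0, 0, 0, 0, 0, 0, 102831, 0, 0, ⟨0, 0⟩, 0⟩, 1379792020, 0⟩ 0 0)))) (.pos 22 .pp ⟨⟨0, 0, 0, 0, 0, 0, 0, 0, 0, ⟨0, 0⟩, 0⟩, 569597644, 53900⟩ 0 0)) (.pos 22 .pp ⟨⟨0, 221754304, 0, 0, 0, 0, 0, 0, 0, ⟨0, 0⟩, 0⟩, 0, 72866⟩ 0 0)) (.cut .v 50331648 (.cut .d 332139 (.cut .d 166069 (.pos 79 .pp ⟨⟨0, 0, 0, 0, 0, 0, 53697, 0, 0, ⟨0, 0⟩, 0⟩, 2311996285, 0⟩ 0 0) (.pos 79 .pp ⟨⟨0, 2020051862, 0, 0, 0, 0, 91954, 0, 0, ⟨0, 0⟩, 0⟩, 1497880743, 0⟩ 0 0)) (.void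 79 ⟨⟨0, 100000, 0, 0, 0, 0, 0, 0, 0, ⟨0, 0⟩, 0⟩, 0, 0⟩ 0 0)) (.void 80 ⟨⟨0, 0, 0, 52350, 0, 0, 0, 0, 0, ⟨0, 0⟩, 0⟩, 47650, 0⟩ 0 0))) (.void 68 ⟨⟨0, 0, 0, 52350, 0, 0, 0, 0, 0, ⟨0, 0⟩, 0⟩, 47650, 0⟩ 0 0)) (.void 87 ⟨⟨0, 0, 0, 0, 0, 0, 0, 0, 0, ⟨0, 0⟩, 0⟩, 100000, 0⟩ 0 0)))),
    by decide +kernel⟩

def covers41 : cell.Covers Vale.Agent.P237.Petty.Cor.Grid.N7.table row41.1 :=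
  ⟨(.cut .d 0 (.cut .v 16777216 (.cut .v 8388608 (.void 2 ⟨⟨0, 0, 100000, 0, 0, 0, 0, 0, 0, ⟨0, 0⟩, 0⟩, 0, 0⟩ 0 0) (.cut .d (-8388608) (.void 3 ⟨⟨100000, 0, 0, 0, 0, 0, 0, 0, 0, ⟨0, 0⟩, 0⟩, 0, 0⟩ 0 0) (.cut .d (-4194304) (.void 3 ⟨⟨100000, 0, 0, 0, 0, 0, 0, 0, 0, ⟨0, 0⟩, 0⟩, 0, 0⟩ 0 0) (.pos 3 .mm ⟨⟨0, 0, 0, 0, 0, 21289560954, 0, 0, 0, ⟨0, 0⟩, 0⟩, 0, 0⟩ 0 0)))) (.cut .v 268435456 (.cut .v 67108864 (.cut .v 33554432 (.cut .d (-8388608) (.void 22 ⟨⟨100000, 0, 0, 0, 0, 0, 0, 0, 0, ⟨0, 0⟩, 0⟩, 0, 0⟩ 0 0) (.cut .v 25165824 (.cut .d (-4194304) (.void 23 ⟨⟨100000, 0, 0, 0, 0, 0, 0, 0, 0, ⟨0, 0⟩, 0⟩, 0, 0⟩ 0 0) (.cut .d (-2097152) (.void 23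 ⟨⟨100000, 0, 0, 0, 0, 0, 0, 0, 0, ⟨0, 0⟩, 0⟩, 0, 0⟩ 0 0) (.cut .v 20971520 (.pos 25 .mp ⟨⟨5512012334, 0, 0, 0, 0, 10397032491, 0, 0, 0, ⟨0, 0⟩, 0⟩, 0, 0⟩ 0 0) (.void 26 ⟨⟨100000, 0, 0, 0, 0, 0, 0, 0, 0, ⟨0, 0⟩, 0⟩, 0, 0⟩ 0 0)))) (.void 24 ⟨⟨100000, 0, 0, 0, 0, 0, 0, 0, 0, ⟨0, 0⟩, 0⟩, 0, 0⟩ 0 0))) (.void 57 ⟨⟨100000, 0, 0, 0, 0, 0, 0, 0, 0, ⟨0, 0⟩, 0⟩, 0, 0⟩ 0 0)) (.void 68 ⟨⟨100026, 0, 0, 0, 0, 0, 0, 0, 0, ⟨0, 0⟩, 0⟩, 0, 0⟩ 0 0)) (.void 87 ⟨⟨86309, 0, 0, 10684, 0, 0, 0, 0, 0, ⟨0, 0⟩, 0⟩, 0, 0⟩ 0 0))) (.cut .v 16777216 (.cut .v 8388608 (.cut .v 4194304 (.cut .v 2097152 (.cut .v 1048576 (.cut .v 524288 (.pos 96 .pm ⟨⟨0, 0, 119852225,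 0, 0, 0, 0, 0, 0, ⟨0, 0⟩, 0⟩, 0, 0⟩ 0 0) (.pos 97 .pm ⟨⟨0, 0, 293459242, 0, 0, 0, 0, 0, 0, ⟨0, 0⟩, 0⟩, 0, 2707⟩ 0 0)) (.pos 82 .pm ⟨⟨0, 0, 523955898, 0, 0, 0, 0, 0, 0, ⟨0, 0⟩, 0⟩, 0, 4323⟩ 0 0)) (.pos 78 .pm ⟨⟨0, 0, 1037064103, 0, 0, 0, 0, 0, 0, ⟨0, 0⟩, 0⟩, 0, 9925⟩ 0 0)) (.pos 5 .pm ⟨⟨0, 0, 2639698796, 0, 0, 0, 0, 0, 0, ⟨0, 0⟩, 0⟩, 0, 17865⟩ 0 0)) (.pos 3 .pm ⟨⟨0, 0, 0, 0, 0, 0, 0, 0, 0, ⟨0, 0⟩, 0⟩, 0, 0⟩ 0 0)) (.cut .v 268435456 (.cut .v 67108864 (.cut .v 33554432 (.cut .d 261881 (.cut .d 130940 (.cut .v 25165824 (.cut .d 65470 (.cut .v 20971520 (.cut .d 32735 (.cut .v 18874368 (.cut .s 16318464 (.pos 27 .pp ⟨⟨3853015738, 0, 0, 0,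 0, 0, 0, 0, 0, ⟨0, 0⟩, 0⟩, 0, 21954⟩ 0 0) (.pos 27 .pp ⟨⟨4561072989, 0, 0, 0, 0, 0, 0, 0, 0, ⟨0, 0⟩, 0⟩, 0, 17570⟩ 0 0)) (.pos 28 .pp ⟨⟨5863064124, 0, 0, 0, 0, 0, 0, 0, 0, ⟨0, 0⟩, 0⟩, 0, 21642⟩ 0 0)) (.pos 25 .pp ⟨⟨2962287766, 0, 0, 0, 0, 0, 0, 0, 0, ⟨0, 0⟩, 0⟩, 0, 31238⟩ 0 0)) (.cut .d 32735 (.pos 26 .pp ⟨⟨8790694725, 0, 0, 0, 0, 0, 0, 0, 0, ⟨0, 0⟩, 0⟩, 0, 16942⟩ 0 0) (.pos 26 .pp ⟨⟨6640692863, 0, 0, 0, 0, 0, 55778, 0, 0, ⟨0, 0⟩, 0⟩, 0, 0⟩ 0 0))) (.pos 23 .pp ⟨⟨0, 0, 0, 0, 0, 0, 0, 0, 0, ⟨0, 0⟩, 0⟩, 761092289, 34369⟩ 0 0)) (.cut .d 65470 (.pos 24 .pp ⟨⟨0, 0, 0, 0, 0, 0, 50585, 0, 0, ⟨0, 0⟩, 0⟩, 2192796102, 0⟩ 0 0) (.cut .v 29360128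 (.pos 88 .pp ⟨⟨0, 0, 0, 0, 0, 0, 72113, 0, 0, ⟨0, 0⟩, 0⟩, 1368942325, 0⟩ 0 0) (.pos 89 .pp ⟨⟨0, 0, 0, 0, 0, 0, 64117, 0, 0, ⟨0, 0⟩, 0⟩, 1955704401, 0⟩ 0 0)))) (.pos 22 .pp ⟨⟨0, 0, 0, 0, 0, 0, 0, 0, 0, ⟨0, 0⟩, 0⟩, 842671106, 33266⟩ 0 0)) (.pos 22 .pp ⟨⟨0, 770502287, 0, 0, 0, 0, 0, 0, 0, ⟨0, 0⟩, 0⟩, 0, 44663⟩ 0 0)) (.cut .v 50331648 (.cut .d 261881 (.cut .d 130940 (.pos 79 .pp ⟨⟨0, 0, 0, 0, 0, 0, 37315, 0, 0, ⟨0, 0⟩, 0⟩, 3206847714, 0⟩ 0 0) (.pos 79 .pp ⟨⟨0, 3056298808, 0, 0, 0, 0, 61727, 0, 0, ⟨0, 0⟩, 0⟩, 2161224311, 0⟩ 0 0)) (.void 79 ⟨⟨0, 100000, 0, 0, 0, 0, 0, 0, 0, ⟨0, 0⟩, 0⟩, 0, 0⟩ 0 0)) (.void 80 ⟨⟨0, 0, 0, 52465, 0, 0, 0, 0,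 0, ⟨0, 0⟩, 0⟩, 47535, 0⟩ 0 0))) (.void 68 ⟨⟨0, 0, 0, 52465, 0, 0, 0, 0, 0, ⟨0, 0⟩, 0⟩, 47535, 0⟩ 0 0)) (.void 87 ⟨⟨0, 0, 0, 0, 0, 0, 0, 0, 0, ⟨0, 0⟩, 0⟩, 100000, 0⟩ 0 0)))),
    by decide +kernel⟩

def covers42 : cell.Covers Vale.Agent.P237.Petty.Cor.Grid.N7.table row42.1 :=
  ⟨(.cut .d 0 (.cut .v 16777216 (.cut .v 8388608 (.void 2 ⟨⟨0, 0, 100000, 0, 0, 0, 0, 0, 0, ⟨0, 0⟩, 0⟩, 0, 0⟩ 0 0) (.cut .d (-8388608) (.void 3 ⟨⟨100000, 0, 0, 0, 0, 0, 0, 0, 0, ⟨0, 0⟩, 0⟩, 0, 0⟩ 0 0) (.cut .d (-4194304) (.void 3 ⟨⟨100000, 0, 0, 0, 0, 0, 0, 0, 0, ⟨0, 0⟩, 0⟩, 0, 0⟩ 0 0) (.pos 3 .mm ⟨⟨0, 0, 0, 0, 0, 29257771944, 0, 0, 0, ⟨0, 0⟩, 0⟩, 0, 0⟩ 0 0))))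 (.cut .v 268435456 (.cut .v 67108864 (.cut .v 33554432 (.cut .d (-8388608) (.void 22 ⟨⟨99999, 0, 0, 0, 0, 0, 0, 0, 0, ⟨0, 0⟩, 0⟩, 0, 0⟩ 0 0) (.cut .v 25165824 (.cut .d (-4194304) (.void 23 ⟨⟨100000, 0, 0, 0, 0, 0, 0, 0, 0, ⟨0, 0⟩, 0⟩, 0, 0⟩ 0 0) (.cut .d (-2097152) (.void 23 ⟨⟨100000, 0, 0, 0, 0, 0, 0, 0, 0, ⟨0, 0⟩, 0⟩, 0, 0⟩ 0 0) (.cut .v 20971520 (.pos 25 .mp ⟨⟨7851799594, 0, 0, 0, 0, 13907115636, 0, 0, 0, ⟨0, 0⟩, 0⟩, 0, 0⟩ 0 0) (.void 26 ⟨⟨100000, 0, 0, 0, 0, 0, 0, 0, 0, ⟨0, 0⟩, 0⟩, 0, 0⟩ 0 0)))) (.void 24 ⟨⟨100000, 0, 0, 0, 0, 0, 0, 0, 0, ⟨0, 0⟩, 0⟩, 0, 0⟩ 0 0))) (.void 57 ⟨⟨100000, 0, 0, 0, 0, 0, 0, 0, 0, ⟨0, 0⟩, 0⟩, 0, 0⟩ 0 0))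 (.void 68 ⟨⟨99981, 0, 0, 0, 0, 0, 0, 0, 0, ⟨0, 0⟩, 0⟩, 0, 0⟩ 0 0)) (.void 87 ⟨⟨89082, 0, 0, 10918, 0, 0, 0, 0, 0, ⟨0, 0⟩, 0⟩, 0, 0⟩ 0 0))) (.cut .v 16777216 (.cut .v 8388608 (.cut .v 4194304 (.cut .v 2097152 (.cut .v 1048576 (.cut .v 524288 (.pos 96 .pm ⟨⟨0, 0, 156531406, 0, 0, 0, 0, 0, 0, ⟨0, 0⟩, 0⟩, 0, 0⟩ 0 0) (.pos 97 .pm ⟨⟨0, 0, 424620043, 0, 0, 0, 0, 0, 0, ⟨0, 0⟩, 0⟩, 0, 1687⟩ 0 0)) (.pos 82 .pm ⟨⟨0, 0, 773759605, 0, 0, 0, 0, 0, 0, ⟨0, 0⟩, 0⟩, 0, 2714⟩ 0 0)) (.pos 78 .pm ⟨⟨0, 0, 1551891542, 0, 0, 0, 0, 0, 0, ⟨0, 0⟩, 0⟩, 0, 6187⟩ 0 0)) (.pos 5 .pm ⟨⟨0, 0, 3934366446, 0, 0, 0, 0, 0, 0, ⟨0, 0⟩, 0⟩, 0, 11136⟩ 0 0)) (.pos 3 .pm ⟨⟨0,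 0, 0, 0, 0, 0, 0, 0, 0, ⟨0, 0⟩, 0⟩, 0, 0⟩ 0 0)) (.cut .v 268435456 (.cut .v 67108864 (.cut .v 33554432 (.cut .d 209926 (.cut .d 104963 (.cut .v 25165824 (.cut .d 52481 (.cut .v 20971520 (.cut .d 26240 (.cut .v 18874368 (.cut .s 16408576 (.pos 27 .pp ⟨⟨5376820764, 0, 0, 0, 0, 0, 0, 0, 0, ⟨0, 0⟩, 0⟩, 0, 13895⟩ 0 0) (.pos 27 .pp ⟨⟨6388781543, 0, 0, 0, 0, 0, 0, 0, 0, ⟨0, 0⟩, 0⟩, 0, 10949⟩ 0 0)) (.pos 28 .pp ⟨⟨8205422113, 0, 0, 0, 0, 0, 0, 0, 0, ⟨0, 0⟩, 0⟩, 0, 13395⟩ 0 0)) (.pos 25 .pp ⟨⟨4141255038, 0, 0, 0, 0, 0, 0, 0, 0, ⟨0, 0⟩, 0⟩, 0, 19813⟩ 0 0)) (.cut .d 26240 (.pos 26 .pp ⟨⟨12348930448, 0, 0, 0, 0, 0, 23947, 0, 0, ⟨0, 0⟩, 0⟩, 0, 0⟩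 0 0) (.pos 26 .pp ⟨⟨9276947983, 0, 0, 0, 0, 0, 36215, 0, 0, ⟨0, 0⟩, 0⟩, 0, 0⟩ 0 0))) (.pos 23 .pp ⟨⟨0, 0, 0, 0, 0, 0, 0, 0, 0, ⟨0, 0⟩, 0⟩, 1069613399, 21653⟩ 0 0)) (.cut .d 52481 (.pos 24 .pp ⟨⟨0, 0, 0, 0, 0, 0, 33044, 0, 0, ⟨0, 0⟩, 0⟩, 3065896353, 0⟩ 0 0) (.cut .v 29360128 (.pos 88 .pp ⟨⟨0, 0, 0, 0, 0, 0, 45189, 0, 0, ⟨0, 0⟩, 0⟩, 1918177325, 0⟩ 0 0) (.pos 89 .pp ⟨⟨0, 0, 0, 0, 0, 0, 41549, 0, 0, ⟨0, 0⟩, 0⟩, 2736339232, 0⟩ 0 0)))) (.cut .v 25165824 (.pos 23 .pp ⟨⟨0, 0, 0, 0, 0, 0, 0, 0, 0, ⟨0, 0⟩, 0⟩, 0, 33408⟩ 0 0) (.pos 24 .pp ⟨⟨0, 0, 0, 0, 0, 0, 58863, 0, 0, ⟨0, 0⟩, 0⟩, 1420811358, 0⟩ 0 0))) (.pos 22 .pp ⟨⟨0, 1515635387, 0, 0, 0,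 0, 0, 0, 0, ⟨0, 0⟩, 0⟩, 0, 27840⟩ 0 0)) (.cut .v 50331648 (.cut .d 209926 (.cut .d 104963 (.pos 79 .pp ⟨⟨0, 0, 0, 0, 0, 0, 24814, 0, 0, ⟨0, 0⟩, 0⟩, 4478817181, 0⟩ 0 0) (.pos 79 .pp ⟨⟨0, 4599167939, 0, 0, 0, 0, 40789, 0, 0, ⟨0, 0⟩, 0⟩, 3050103635, 0⟩ 0 0)) (.void 79 ⟨⟨0, 100000, 0, 0, 0, 0, 0, 0, 0, ⟨0, 0⟩, 0⟩, 0, 0⟩ 0 0)) (.void 80 ⟨⟨0, 0, 0, 52264, 0, 0, 0, 0, 0, ⟨0, 0⟩, 0⟩, 46896, 0⟩ 0 0))) (.void 68 ⟨⟨0, 0, 0, 52561, 0, 0, 0, 0, 0, ⟨0, 0⟩, 0⟩, 47439, 0⟩ 0 0)) (.void 87 ⟨⟨0, 0, 0, 0, 0, 0, 0, 0, 0, ⟨0, 0⟩, 0⟩, 100000, 0⟩ 0 0)))),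
    by decide +kernel⟩

def covers43 : cell.Covers Vale.Agent.P237.Petty.Cor.Grid.N7.table row43.1 :=
  ⟨(.cut .d 0 (.cut .v 16777216 (.cut .v 8388608 (.void 2 ⟨⟨0, 0, 100000, 0, 0, 0, 0, 0, 0, ⟨0, 0⟩, 0⟩, 0, 0⟩ 0 0) (.cut .d (-8388608) (.void 3 ⟨⟨100000, 0, 0, 0, 0, 0, 0, 0, 0, ⟨0, 0⟩, 0⟩, 0, 0⟩ 0 0) (.cut .d (-4194304) (.void 3 ⟨⟨100000, 0, 0, 0, 0, 0, 0, 0, 0, ⟨0, 0⟩, 0⟩, 0, 0⟩ 0 0) (.pos 3 .mm ⟨⟨0, 0, 0, 0, 0, 39908020577, 0, 0, 0, ⟨0, 0⟩, 0⟩, 0, 0⟩ 0 0)))) (.cut .v 4294967296 (.cut .v 268435456 (.cut .v 67108864 (.cut .v 33554432 (.cut .d (-8388608) (.void 22 ⟨⟨99993, 0, 0, 0, 0, 0, 0, 0, 0, ⟨0, 0⟩, 0⟩, 0, 0⟩ 0 0) (.cut .v 25165824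 (.cut .d (-4194304) (.void 23 ⟨⟨100000, 0, 0, 0, 0, 0, 0, 0, 0, ⟨0, 0⟩, 0⟩, 0, 0⟩ 0 0) (.cut .d (-2097152) (.void 23 ⟨⟨100000, 0, 0, 0, 0, 0, 0, 0, 0, ⟨0, 0⟩, 0⟩, 0, 0⟩ 0 0) (.cut .v 20971520 (.pos 25 .mp ⟨⟨11186780476, 0, 0, 0, 0, 18353633268, 0, 0, 0, ⟨0, 0⟩, 0⟩, 0, 0⟩ 0 0) (.void 26 ⟨⟨100000, 0, 0, 0, 0, 0, 0, 0, 0, ⟨0, 0⟩, 0⟩, 0, 0⟩ 0 0)))) (.void 24 ⟨⟨100000, 0, 0, 0, 0, 0, 0, 0, 0, ⟨0, 0⟩, 0⟩, 0, 0⟩ 0 0))) (.void 57 ⟨⟨100000, 0, 0, 0, 0, 0, 0, 0, 0, ⟨0, 0⟩, 0⟩, 0, 0⟩ 0 0)) (.void 68 ⟨⟨100001, 0, 0, 0, 0, 0, 0, 0, 0, ⟨0, 0⟩, 0⟩, 0, 0⟩ 0 0)) (.void 87 ⟨⟨84155, 0, 0, 10565, 0, 0, 0, 0, 0, ⟨0, 0⟩, 0⟩, 0, 0⟩ 0 0)) (.void 100 ⟨⟨89043,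 0, 0, 10957, 0, 0, 0, 0, 0, ⟨0, 0⟩, 0⟩, 0, 0⟩ 0 0))) (.cut .v 16777216 (.cut .v 8388608 (.cut .v 4194304 (.cut .v 2097152 (.cut .v 1048576 (.cut .v 524288 (.cut .d 167105 (.void 96 ⟨⟨0, 0, 100000, 0, 0, 0, 0, 0, 0, ⟨0, 0⟩, 0⟩, 0, 0⟩ 0 0) (.pos 96 .pm ⟨⟨0, 0, 117751038, 0, 0, 0, 0, 0, 0, ⟨0, 0⟩, 0⟩, 0, 0⟩ 0 0)) (.pos 97 .pm ⟨⟨0, 0, 612304216, 0, 0, 0, 0, 0, 0, ⟨0, 0⟩, 0⟩, 0, 1024⟩ 0 0)) (.pos 82 .pm ⟨⟨0, 0, 1133842496, 0, 0, 0, 0, 0, 0, ⟨0, 0⟩, 0⟩, 0, 1724⟩ 0 0)) (.pos 78 .pm ⟨⟨0, 0, 2296210891, 0, 0, 0, 0, 0, 0, ⟨0, 0⟩, 0⟩, 0, 3755⟩ 0 0)) (.pos 5 .pm ⟨⟨0, 0, 5818904100, 0, 0, 0, 0, 0, 0, ⟨0, 0⟩, 0⟩, 0, 6759⟩ 0 0)) (.pos 3 .pm ⟨⟨0,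 0, 0, 0, 0, 0, 0, 0, 0, ⟨0, 0⟩, 0⟩, 0, 0⟩ 0 0)) (.cut .v 4294967296 (.cut .v 268435456 (.cut .v 67108864 (.cut .v 33554432 (.cut .d 167105 (.cut .v 25165824 (.cut .d 83552 (.cut .d 41776 (.cut .v 20971520 (.cut .d 20888 (.cut .v 18874368 (.cut .s 16482304 (.pos 27 .pp ⟨⟨7540494404, 0, 0, 0, 0, 0, 0, 0, 0, ⟨0, 0⟩, 0⟩, 0, 8561⟩ 0 0) (.pos 27 .pp ⟨⟨8944590541, 0, 0, 0, 0, 0, 0, 0, 0, ⟨0, 0⟩, 0⟩, 0, 6703⟩ 0 0)) (.pos 28 .pp ⟨⟨11486537586, 0, 0, 0, 0, 0, 0, 0, 0, ⟨0, 0⟩, 0⟩, 0, 8193⟩ 0 0)) (.pos 25 .pp ⟨⟨5823078726, 0, 0, 0, 0, 0, 0, 0, 0, ⟨0, 0⟩, 0⟩, 0, 12229⟩ 0 0)) (.cut .d 20888 (.pos 26 .pp ⟨⟨17301345254, 0, 0, 0, 0, 0, 14846, 0, 0,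 ⟨0, 0⟩, 0⟩, 0, 0⟩ 0 0) (.pos 26 .pp ⟨⟨13014485390, 0, 0, 0, 0, 0, 22869, 0, 0, ⟨0, 0⟩, 0⟩, 0, 0⟩ 0 0))) (.pos 23 .pp ⟨⟨0, 0, 0, 0, 0, 0, 0, 0, 0, ⟨0, 0⟩, 0⟩, 1510258943, 13284⟩ 0 0)) (.pos 23 .pp ⟨⟨0, 0, 0, 0, 0, 0, 0, 0, 0, ⟨0, 0⟩, 0⟩, 0, 20277⟩ 0 0)) (.cut .d 83552 (.cut .d 41776 (.pos 24 .pp ⟨⟨0, 0, 0, 0, 0, 0, 20589, 0, 0, ⟨0, 0⟩, 0⟩, 4280823443, 0⟩ 0 0) (.cut .v 29360128 (.pos 88 .pp ⟨⟨0, 0, 0, 0, 0, 0, 27450, 0, 0, ⟨0, 0⟩, 0⟩, 2700926616, 0⟩ 0 0) (.pos 89 .pp ⟨⟨0, 0, 0, 0, 0, 0, 25606, 0, 0, ⟨0, 0⟩, 0⟩, 3838537025, 0⟩ 0 0))) (.pos 24 .pp ⟨⟨0, 0, 0, 0, 0, 0, 36140, 0, 0, ⟨0, 0⟩, 0⟩, 2026995628, 0⟩ 0 0))) (.pos 22 .pp ⟨⟨0, 2589786683,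 0, 0, 0, 0, 0, 0, 0, ⟨0, 0⟩, 0⟩, 0, 16897⟩ 0 0)) (.cut .v 50331648 (.cut .d 167105 (.cut .d 83552 (.pos 79 .pp ⟨⟨0, 0, 0, 0, 0, 0, 16057, 0, 0, ⟨0, 0⟩, 0⟩, 6246824671, 0⟩ 0 0) (.pos 79 .pp ⟨⟨0, 6712612748, 0, 0, 0, 0, 26304, 0, 0, ⟨0, 0⟩, 0⟩, 4313578019, 0⟩ 0 0)) (.void 79 ⟨⟨0, 100000, 0, 0, 0, 0, 0, 0, 0, ⟨0, 0⟩, 0⟩, 0, 0⟩ 0 0)) (.void 80 ⟨⟨0, 0, 0, 52637, 0, 0, 0, 0, 0, ⟨0, 0⟩, 0⟩, 47363, 0⟩ 0 0))) (.void 68 ⟨⟨0, 0, 0, 52637, 0, 0, 0, 0, 0, ⟨0, 0⟩, 0⟩, 47363, 0⟩ 0 0)) (.void 87 ⟨⟨0, 0, 0, 0, 0, 0, 0, 0, 0, ⟨0, 0⟩, 0⟩, 100000, 0⟩ 0 0)) (.void 100 ⟨⟨0, 0, 0, 0, 0, 0, 0, 0, 0, ⟨0, 0⟩, 0⟩, 100000, 0⟩ 0 0)))),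
    by decide +kernel⟩

def covers44 : cell.Covers Vale.Agent.P237.Petty.Cor.Grid.N7.table row44.1 :=
  ⟨(.cut .d 0 (.cut .v 16777216 (.cut .v 8388608 (.void 2 ⟨⟨0, 0, 100000, 0, 0, 0, 0, 0, 0, ⟨0, 0⟩, 0⟩, 0, 0⟩ 0 0) (.cut .d (-8388608) (.void 3 ⟨⟨100000, 0, 0, 0, 0, 0, 0, 0, 0, ⟨0, 0⟩, 0⟩, 0, 0⟩ 0 0) (.pos 3 .mm ⟨⟨0, 0, 0, 0, 0, 75726657210, 0, 0, 0, ⟨0, 0⟩, 0⟩, 0, 0⟩ 0 0))) (.cut .d (-8388608) (.void 99 ⟨⟨100050, 0, 0, 0, 0, 0, 0, 0, 0, ⟨0, 0⟩, 0⟩, 0, 0⟩ 0 0) (.cut .v 4294967296 (.cut .v 268435456 (.cut .v 67108864 (.cut .v 33554432 (.cut .v 25165824 (.cut .d (-4194304) (.void 23 ⟨⟨100000, 0, 0, 0, 0, 0, 0, 0, 0, ⟨0, 0⟩, 0⟩, 0, 0⟩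 0 0) (.cut .v 20971520 (.pos 25 .mp ⟨⟨14572891382, 0, 0, 0, 0, 41328733195, 0, 0, 0, ⟨0, 0⟩, 0⟩, 0, 0⟩ 0 0) (.void 26 ⟨⟨100000, 0, 0, 0, 0, 0, 0, 0, 0, ⟨0, 0⟩, 0⟩, 0, 0⟩ 0 0))) (.void 24 ⟨⟨100000, 0, 0, 0, 0, 0, 0, 0, 0, ⟨0, 0⟩, 0⟩, 0, 0⟩ 0 0)) (.void 57 ⟨⟨100000, 0, 0, 0, 0, 0, 0, 0, 0, ⟨0, 0⟩, 0⟩, 0, 0⟩ 0 0)) (.void 68 ⟨⟨99944, 0, 0, 0, 0, 0, 0, 0, 0, ⟨0, 0⟩, 0⟩, 0, 0⟩ 0 0)) (.void 87 ⟨⟨84104, 0, 0, 15549, 0, 0, 0, 0, 0, ⟨0, 0⟩, 0⟩, 0, 0⟩ 0 0)) (.void 100 ⟨⟨0, 0, 0, 100000, 0, 0, 0, 0, 0, ⟨0, 0⟩, 0⟩, 0, 0⟩ 0 0)))) (.cut .v 16777216 (.cut .v 8388608 (.cut .v 4194304 (.cut .v 2097152 (.cut .v 1048576 (.cut .v 524288 (.cut .d 133154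 (.void 96 ⟨⟨0, 0, 100000, 0, 0, 0, 0, 0, 0, ⟨0, 0⟩, 0⟩, 0, 0⟩ 0 0) (.pos 96 .pm ⟨⟨0, 0, 152217739, 0, 0, 0, 0, 0, 0, ⟨0, 0⟩, 0⟩, 0, 0⟩ 0 0)) (.pos 97 .pm ⟨⟨0, 0, 862364236, 0, 0, 0, 0, 0, 0, ⟨0, 0⟩, 0⟩, 0, 617⟩ 0 0)) (.pos 82 .pm ⟨⟨0, 0, 1618486642, 0, 0, 0, 0, 0, 0, ⟨0, 0⟩, 0⟩, 0, 1130⟩ 0 0)) (.pos 78 .pm ⟨⟨0, 0, 3311741040, 0, 0, 0, 0, 0, 0, ⟨0, 0⟩, 0⟩, 0, 2264⟩ 0 0)) (.pos 5 .pm ⟨⟨0, 0, 8454280107, 0, 0, 0, 0, 0, 0, ⟨0, 0⟩, 0⟩, 0, 4074⟩ 0 0)) (.pos 3 .pm ⟨⟨0, 0, 0, 0, 0, 0, 0, 0, 0, ⟨0, 0⟩, 0⟩, 0, 0⟩ 0 0)) (.cut .v 4294967296 (.cut .v 268435456 (.cut .v 67108864 (.cut .v 33554432 (.cut .d 133154 (.cut .v 25165824 (.cut .d 66577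 (.cut .d 33288 (.cut .v 20971520 (.cut .v 18874368 (.cut .s 16539648 (.pos 27 .pp ⟨⟨10731285136, 0, 0, 0, 0, 0, 0, 0, 0, ⟨0, 0⟩, 0⟩, 0, 5033⟩ 0 0) (.pos 27 .pp ⟨⟨12519883787, 0, 0, 0, 0, 0, 0, 0, 0, ⟨0, 0⟩, 0⟩, 0, 4000⟩ 0 0)) (.pos 28 .pp ⟨⟨14380491099, 0, 0, 0, 0, 0, 0, 0, 0, ⟨0, 0⟩, 0⟩, 0, 5302⟩ 0 0)) (.cut .v 23068672 (.pos 92 .pp ⟨⟨17965339064, 0, 0, 0, 0, 0, 12694, 0, 0, ⟨0, 0⟩, 0⟩, 0, 0⟩ 0 0) (.pos 93 .pp ⟨⟨21910737371, 0, 0, 0, 0, 0, 13406, 0, 0, ⟨0, 0⟩, 0⟩, 0, 0⟩ 0 0))) (.pos 23 .pp ⟨⟨0, 0, 0, 0, 0, 0, 0, 0, 0, ⟨0, 0⟩, 0⟩, 2119725498, 8089⟩ 0 0)) (.pos 23 .pp ⟨⟨0, 0, 0, 0, 0, 0, 0, 0, 0, ⟨0, 0⟩, 0⟩, 0, 12223⟩ 0 0)) (.cut .d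 66577 (.cut .d 33288 (.pos 24 .pp ⟨⟨0, 0, 0, 0, 0, 0, 12668, 0, 0, ⟨0, 0⟩, 0⟩, 5845317266, 0⟩ 0 0) (.cut .v 29360128 (.pos 88 .pp ⟨⟨0, 0, 0, 0, 0, 0, 16539, 0, 0, ⟨0, 0⟩, 0⟩, 3772421846, 0⟩ 0 0) (.pos 89 .pp ⟨⟨0, 0, 0, 0, 0, 0, 16099, 0, 0, ⟨0, 0⟩, 0⟩, 5296780620, 0⟩ 0 0))) (.pos 24 .pp ⟨⟨0, 0, 0, 0, 0, 0, 22048, 0, 0, ⟨0, 0⟩, 0⟩, 2867269403, 0⟩ 0 0))) (.pos 22 .pp ⟨⟨0, 4066488337, 0, 0, 0, 0, 0, 0, 0, ⟨0, 0⟩, 0⟩, 0, 10186⟩ 0 0)) (.cut .v 50331648 (.cut .d 133154 (.cut .d 66577 (.pos 79 .pp ⟨⟨0, 0, 0, 0, 0, 0, 10501, 0, 0, ⟨0, 0⟩, 0⟩, 8514938925, 0⟩ 0 0) (.pos 79 .pp ⟨⟨0, 9268387081, 0, 0, 0, 0, 16899, 0, 0, ⟨0, 0⟩, 0⟩, 6025927121,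 0⟩ 0 0)) (.void 79 ⟨⟨0, 100000, 0, 0, 0, 0, 0, 0, 0, ⟨0, 0⟩, 0⟩, 0, 0⟩ 0 0)) (.void 80 ⟨⟨0, 0, 0, 52694, 0, 0, 0, 0, 0, ⟨0, 0⟩, 0⟩, 47306, 0⟩ 0 0))) (.void 68 ⟨⟨0, 0, 0, 53104, 0, 0, 0, 0, 0, ⟨0, 0⟩, 0⟩, 44191, 0⟩ 0 0)) (.void 87 ⟨⟨0, 0, 0, 0, 0, 0, 0, 0, 0, ⟨0, 0⟩, 0⟩, 100000, 0⟩ 0 0)) (.void 100 ⟨⟨0, 0, 0, 0, 0, 0, 0, 0, 0, ⟨0, 0⟩, 0⟩, 100000, 0⟩ 0 0)))),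
    by decide +kernel⟩

def covers45 : cell.Covers Vale.Agent.P237.Petty.Cor.Grid.N7.table row45.1 :=
  ⟨(.cut .d 0 (.cut .v 16777216 (.cut .v 8388608 (.pos 2 .mm ⟨⟨0, 0, 1677721600000000, 0, 0, 0, 0, 0, 0, ⟨0, 0⟩, 0⟩, 0, 0⟩ 0 0) (.cut .d (-8388608) (.void 3 ⟨⟨100003, 0, 0, 0, 0, 0, 0, 0, 0, ⟨0, 0⟩, 0⟩, 0, 0⟩ 0 0) (.pos 3 .mm ⟨⟨0, 0, 0, 0, 0, 106319869607, 0, 0, 0, ⟨0, 0⟩, 0⟩, 0, 0⟩ 0 0))) (.cut .d (-8388608) (.void 99 ⟨⟨99997, 0, 1, 0, 0, 0, 0, 0, 0, ⟨0, 0⟩, 0⟩, 0, 0⟩ 0 0) (.cut .v 4294967296 (.cut .v 268435456 (.cut .d (-4194304) (.void 67 ⟨⟨100000, 0, 0, 0, 0, 0, 0, 0, 0, ⟨0, 0⟩, 0⟩, 0, 0⟩ 0 0) (.cut .d (-2097152) (.void 67 ⟨⟨100000,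 0, 0, 0, 0, 0, 0, 0, 0, ⟨0, 0⟩, 0⟩, 0, 0⟩ 0 0) (.cut .d (-1048576) (.void 67 ⟨⟨100000, 0, 0, 0, 0, 0, 0, 0, 0, ⟨0, 0⟩, 0⟩, 0, 0⟩ 0 0) (.cut .d (-524288) (.void 67 ⟨⟨100000, 0, 0, 0, 0, 0, 0, 0, 0, ⟨0, 0⟩, 0⟩, 0, 0⟩ 0 0) (.cut .d (-262144) (.void 67 ⟨⟨100000, 0, 0, 0, 0, 0, 0, 0, 0, ⟨0, 0⟩, 0⟩, 0, 0⟩ 0 0) (.cut .d (-131072) (.void 67 ⟨⟨100000, 0, 0, 0, 0, 0, 0, 0, 0, ⟨0, 0⟩, 0⟩, 0, 0⟩ 0 0) (.cut .d (-65536) (.void 67 ⟨⟨100000, 0, 0, 0, 0, 0, 0, 0, 0, ⟨0, 0⟩, 0⟩, 0, 0⟩ 0 0) (.cut .d (-32768) (.void 67 ⟨⟨100000, 0, 0, 0, 0, 0, 0, 0, 0, ⟨0, 0⟩, 0⟩, 0, 0⟩ 0 0) (.cut .d (-16384) (.void 67 ⟨⟨100000, 0, 0, 0, 0, 0, 0, 0, 0, ⟨0, 0⟩, 0⟩, 0,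 0⟩ 0 0) (.cut .d (-8192) (.void 67 ⟨⟨100000, 0, 0, 0, 0, 0, 0, 0, 0, ⟨0, 0⟩, 0⟩, 0, 0⟩ 0 0) (.cut .d (-4096) (.void 67 ⟨⟨100000, 0, 0, 0, 0, 0, 0, 0, 0, ⟨0, 0⟩, 0⟩, 0, 0⟩ 0 0) (.cut .d (-2048) (.void 67 ⟨⟨0, 0, 0, 0, 0, 100000, 0, 0, 0, ⟨0, 0⟩, 0⟩, 0, 0⟩ 0 0) (.cut .v 67108864 (.cut .v 33554432 (.cut .v 25165824 (.pos 23 .mp ⟨⟨32709081788, 0, 0, 0, 0, 10163120752, 0, 0, 0, ⟨0, 0⟩, 0⟩, 0, 0⟩ 0 0) (.void 24 ⟨⟨100000, 0, 0, 0, 0, 0, 0, 0, 0, ⟨0, 0⟩, 0⟩, 0, 0⟩ 0 0)) (.void 57 ⟨⟨100000, 0, 0, 0, 0, 0, 0, 0, 0, ⟨0, 0⟩, 0⟩, 0, 0⟩ 0 0)) (.void 68 ⟨⟨100000, 0, 0, 0, 0, 0, 0, 0, 0, ⟨0, 0⟩, 0⟩, 0, 0⟩ 0 0)))))))))))))) (.void 87 ⟨⟨84341, 0, 0,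 15659, 0, 0, 0, 0, 0, ⟨0, 0⟩, 0⟩, 0, 0⟩ 0 0)) (.void 100 ⟨⟨0, 0, 0, 100000, 0, 0, 0, 0, 0, ⟨0, 0⟩, 0⟩, 0, 0⟩ 0 0)))) (.cut .v 16777216 (.cut .v 8388608 (.cut .v 4194304 (.cut .v 2097152 (.cut .v 1048576 (.cut .d 107866 (.void 81 ⟨⟨0, 0, 100000, 0, 0, 0, 0, 0, 0, ⟨0, 0⟩, 0⟩, 0, 0⟩ 0 0) (.cut .d 161799 (.pos 81 .pm ⟨⟨0, 0, 2628128744, 0, 0, 0, 0, 0, 0, ⟨0, 0⟩, 0⟩, 0, 0⟩ 0 0) (.cut .v 524288 (.pos 96 .pm ⟨⟨0, 0, 89923637, 0, 0, 0, 0, 0, 0, ⟨0, 0⟩, 0⟩, 0, 0⟩ 0 0) (.pos 97 .pm ⟨⟨0, 0, 876465330, 0, 0, 0, 0, 0, 0, ⟨0, 0⟩, 0⟩, 0, 380⟩ 0 0)))) (.pos 82 .pm ⟨⟨0, 0, 2368120567, 0, 0, 0, 0, 0, 0, ⟨0, 0⟩, 0⟩, 0, 601⟩ 0 0)) (.pos 78 .pm ⟨⟨0, 0,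 4794653673, 0, 0, 0, 0, 0, 0, ⟨0, 0⟩, 0⟩, 0, 1369⟩ 0 0)) (.pos 5 .pm ⟨⟨0, 0, 11886894620, 0, 0, 0, 0, 0, 0, ⟨0, 0⟩, 0⟩, 0, 2281⟩ 0 0)) (.pos 3 .pm ⟨⟨0, 0, 0, 0, 0, 0, 0, 0, 0, ⟨0, 0⟩, 0⟩, 0, 0⟩ 0 0)) (.cut .v 4294967296 (.cut .v 268435456 (.cut .v 67108864 (.cut .v 33554432 (.cut .d 107866 (.cut .d 53933 (.cut .v 25165824 (.cut .d 26966 (.cut .v 20971520 (.cut .d 13483 (.cut .v 18874368 (.cut .s 16588800 (.pos 27 .pp ⟨⟨14546878246, 0, 0, 0, 0, 0, 0, 0, 0, ⟨0, 0⟩, 0⟩, 0, 3218⟩ 0 0) (.pos 27 .pp ⟨⟨17725050844, 0, 0, 0, 0, 0, 0, 0, 0, ⟨0, 0⟩, 0⟩, 0, 2388⟩ 0 0)) (.pos 28 .pp ⟨⟨22717823042, 0, 0, 0, 0, 0, 0, 0, 0, ⟨0, 0⟩, 0⟩, 0, 2842⟩ 0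 0)) (.pos 25 .pp ⟨⟨11112472676, 0, 0, 0, 0, 0, 0, 0, 0, ⟨0, 0⟩, 0⟩, 0, 4663⟩ 0 0)) (.cut .d 13483 (.pos 26 .pp ⟨⟨35776286378, 0, 0, 0, 0, 0, 0, 0, 0, ⟨0, 0⟩, 0⟩, 0, 2290⟩ 0 0) (.pos 26 .pp ⟨⟨25151217852, 0, 0, 0, 0, 0, 8014, 0, 0, ⟨0, 0⟩, 0⟩, 0, 0⟩ 0 0))) (.pos 23 .pp ⟨⟨0, 0, 0, 0, 0, 0, 0, 0, 0, ⟨0, 0⟩, 0⟩, 2898802796, 5019⟩ 0 0)) (.cut .d 26966 (.pos 24 .pp ⟨⟨0, 0, 0, 0, 0, 0, 7805, 0, 0, ⟨0, 0⟩, 0⟩, 8541701788, 0⟩ 0 0) (.cut .v 29360128 (.pos 88 .pp ⟨⟨0, 0, 0, 0, 0, 0, 10346, 0, 0, ⟨0, 0⟩, 0⟩, 5230835406, 0⟩ 0 0) (.pos 89 .pp ⟨⟨0, 0, 0, 0, 0, 0, 9104, 0, 0, ⟨0, 0⟩, 0⟩, 7496656820, 0⟩ 0 0)))) (.cut .v 25165824 (.pos 23 .pp ⟨⟨0, 0,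 0, 0, 0, 0, 0, 0, 0, ⟨0, 0⟩, 0⟩, 0, 7521⟩ 0 0) (.pos 24 .pp ⟨⟨0, 0, 0, 0, 0, 0, 13705, 0, 0, ⟨0, 0⟩, 0⟩, 3943848015, 0⟩ 0 0))) (.pos 22 .pp ⟨⟨0, 6055675105, 0, 0, 0, 0, 0, 0, 0, ⟨0, 0⟩, 0⟩, 0, 6267⟩ 0 0)) (.cut .v 50331648 (.cut .d 107866 (.cut .d 53933 (.pos 79 .pp ⟨⟨0, 0, 0, 0, 0, 0, 6050, 0, 0, ⟨0, 0⟩, 0⟩, 12494509514, 0⟩ 0 0) (.cut .v 41943040 (.pos 94 .pp ⟨⟨0, 0, 0, 0, 0, 0, 11648, 0, 0, ⟨0, 0⟩, 0⟩, 7146181880, 0⟩ 0 0) (.void 95 ⟨⟨0, 0, 0, 52751, 0, 0, 0, 0, 0, ⟨0, 0⟩, 0⟩, 47249, 0⟩ 0 0))) (.void 79 ⟨⟨0, 100000, 0, 0, 0, 0, 0, 0, 0, ⟨0, 0⟩, 0⟩, 0, 0⟩ 0 0)) (.void 80 ⟨⟨0, 0, 0, 54117, 0, 0, 0, 0, 0, ⟨0, 0⟩, 0⟩, 46960, 0⟩ 0 0)))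 (.void 68 ⟨⟨0, 0, 0, 52326, 0, 0, 0, 0, 0, ⟨0, 0⟩, 0⟩, 47658, 0⟩ 0 0)) (.void 87 ⟨⟨0, 0, 0, 0, 0, 0, 0, 0, 0, ⟨0, 0⟩, 0⟩, 100000, 0⟩ 0 0)) (.void 100 ⟨⟨0, 0, 0, 0, 0, 0, 0, 0, 0, ⟨0, 0⟩, 0⟩, 100000, 0⟩ 0 0)))),
    by decide +kernel⟩

def covers46 : cell.Covers Vale.Agent.P237.Petty.Cor.Grid.N7.table row46.1 :=
  ⟨(.cut .d 0 (.cut .v 16777216 (.cut .v 8388608 (.pos 2 .mm ⟨⟨0, 0, 1677721600000000, 0, 0, 0, 0, 0, 0, ⟨0, 0⟩, 0⟩, 0, 0⟩ 0 0) (.cut .d (-8388608) (.void 3 ⟨⟨74959, 0, 0, 0, 0, 0, 0, 0, 0, ⟨0, 0⟩, 0⟩, 0, 0⟩ 0 0) (.pos 3 .mm ⟨⟨0, 0, 0, 0, 0, 141355349155, 0, 0, 0, ⟨0, 0⟩, 0⟩, 0, 0⟩ 0 0))) (.cut .v 4294967296 (.cut .v 268435456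 (.cut .d (-8388608) (.void 67 ⟨⟨99852, 0, 0, 0, 0, 0, 0, 0, 0, ⟨0, 0⟩, 0⟩, 0, 0⟩ 0 0) (.cut .d (-4194304) (.void 67 ⟨⟨100000, 0, 0, 0, 0, 0, 0, 0, 0, ⟨0, 0⟩, 0⟩, 0, 0⟩ 0 0) (.cut .d (-2097152) (.void 67 ⟨⟨100000, 0, 0, 0, 0, 0, 0, 0, 0, ⟨0, 0⟩, 0⟩, 0, 0⟩ 0 0) (.cut .d (-1048576) (.void 67 ⟨⟨100000, 0, 0, 0, 0, 0, 0, 0, 0, ⟨0, 0⟩, 0⟩, 0, 0⟩ 0 0) (.cut .d (-524288) (.void 67 ⟨⟨100000, 0, 0, 0, 0, 0, 0, 0, 0, ⟨0, 0⟩, 0⟩, 0, 0⟩ 0 0) (.cut .d (-262144) (.void 67 ⟨⟨100000, 0, 0, 0, 0, 0, 0, 0, 0, ⟨0, 0⟩, 0⟩, 0, 0⟩ 0 0) (.cut .d (-131072) (.void 67 ⟨⟨100000, 0, 0, 0, 0, 0, 0, 0, 0, ⟨0, 0⟩, 0⟩, 0, 0⟩ 0 0) (.cut .d (-65536) (.void 67 ⟨⟨100000,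 0, 0, 0, 0, 0, 0, 0, 0, ⟨0, 0⟩, 0⟩, 0, 0⟩ 0 0) (.cut .d (-32768) (.void 67 ⟨⟨100000, 0, 0, 0, 0, 0, 0, 0, 0, ⟨0, 0⟩, 0⟩, 0, 0⟩ 0 0) (.cut .d (-16384) (.void 67 ⟨⟨100000, 0, 0, 0, 0, 0, 0, 0, 0, ⟨0, 0⟩, 0⟩, 0, 0⟩ 0 0) (.cut .d (-8192) (.void 67 ⟨⟨100000, 0, 0, 0, 0, 0, 0, 0, 0, ⟨0, 0⟩, 0⟩, 0, 0⟩ 0 0) (.cut .d (-4096) (.void 67 ⟨⟨100000, 0, 0, 0, 0, 0, 0, 0, 0, ⟨0, 0⟩, 0⟩, 0, 0⟩ 0 0) (.cut .d (-2048) (.void 67 ⟨⟨0, 0, 0, 0, 0, 100000, 0, 0, 0, ⟨0, 0⟩, 0⟩, 0, 0⟩ 0 0) (.cut .v 67108864 (.cut .v 33554432 (.cut .v 25165824 (.pos 23 .mp ⟨⟨45874096893, 0, 0, 0, 0, 18605421561, 0, 0, 0, ⟨0, 0⟩, 0⟩, 0, 0⟩ 0 0) (.void 24 ⟨⟨100000, 0, 0, 0, 0,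 0, 0, 0, 0, ⟨0, 0⟩, 0⟩, 0, 0⟩ 0 0)) (.void 57 ⟨⟨100000, 0, 0, 0, 0, 0, 0, 0, 0, ⟨0, 0⟩, 0⟩, 0, 0⟩ 0 0)) (.void 68 ⟨⟨100000, 0, 0, 0, 0, 0, 0, 0, 0, ⟨0, 0⟩, 0⟩, 0, 0⟩ 0 0))))))))))))))) (.void 87 ⟨⟨89335, 0, 0, 11084, 0, 0, 0, 0, 0, ⟨0, 0⟩, 0⟩, 0, 0⟩ 0 0)) (.void 100 ⟨⟨79999, 0, 10456, 9229, 0, 0, 0, 0, 0, ⟨0, 0⟩, 0⟩, 0, 0⟩ 0 0))) (.cut .v 16777216 (.cut .v 8388608 (.cut .v 4194304 (.cut .v 2097152 (.cut .v 1048576 (.cut .d 82729 (.void 81 ⟨⟨0, 0, 100000, 0, 0, 0, 0, 0, 0, ⟨0, 0⟩, 0⟩, 0, 0⟩ 0 0) (.cut .d 124093 (.pos 81 .pm ⟨⟨0, 0, 29595019105, 0, 0, 0, 0, 0, 0, ⟨0, 0⟩, 0⟩, 0, 83⟩ 0 0) (.cut .v 524288 (.pos 96 .pm ⟨⟨0, 0, 124881632,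 0, 0, 0, 0, 0, 0, ⟨0, 0⟩, 0⟩, 0, 0⟩ 0 0) (.pos 97 .pm ⟨⟨0, 0, 1331604233, 0, 0, 0, 0, 0, 0, ⟨0, 0⟩, 0⟩, 0, 207⟩ 0 0)))) (.pos 82 .pm ⟨⟨0, 0, 3464464707, 0, 0, 0, 0, 0, 0, ⟨0, 0⟩, 0⟩, 0, 379⟩ 0 0)) (.pos 78 .pm ⟨⟨0, 0, 7109291002, 0, 0, 0, 0, 0, 0, ⟨0, 0⟩, 0⟩, 0, 759⟩ 0 0)) (.pos 5 .pm ⟨⟨0, 0, 17970192722, 0, 0, 0, 0, 0, 0, ⟨0, 0⟩, 0⟩, 0, 1351⟩ 0 0)) (.pos 3 .pm ⟨⟨0, 0, 0, 0, 0, 0, 0, 0, 0, ⟨0, 0⟩, 0⟩, 0, 0⟩ 0 0)) (.cut .v 4294967296 (.cut .v 268435456 (.cut .v 67108864 (.cut .v 33554432 (.cut .d 82729 (.cut .v 25165824 (.cut .d 41364 (.cut .d 20682 (.cut .v 20971520 (.cut .d 10341 (.cut .v 18874368 (.cut .s 16629760 (.pos 27 .pp ⟨⟨21201653237,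 0, 0, 0, 0, 0, 0, 0, 0, ⟨0, 0⟩, 0⟩, 0, 1799⟩ 0 0) (.pos 27 .pp ⟨⟨25092632057, 0, 0, 0, 0, 0, 0, 0, 0, ⟨0, 0⟩, 0⟩, 0, 1388⟩ 0 0)) (.pos 28 .pp ⟨⟨32241750446, 0, 0, 0, 0, 0, 0, 0, 0, ⟨0, 0⟩, 0⟩, 0, 1690⟩ 0 0)) (.pos 25 .pp ⟨⟨16383462343, 0, 0, 0, 0, 0, 0, 0, 0, ⟨0, 0⟩, 0⟩, 0, 2579⟩ 0 0)) (.cut .d 10341 (.pos 26 .pp ⟨⟨48524092194, 0, 0, 0, 0, 0, 3165, 0, 0, ⟨0, 0⟩, 0⟩, 0, 0⟩ 0 0) (.pos 26 .pp ⟨⟨36621583247, 0, 0, 0, 0, 0, 4728, 0, 0, ⟨0, 0⟩, 0⟩, 0, 0⟩ 0 0))) (.pos 23 .pp ⟨⟨0, 0, 0, 0, 0, 0, 0, 0, 0, ⟨0, 0⟩, 0⟩, 4282071626, 2763⟩ 0 0)) (.pos 23 .pp ⟨⟨0, 0, 0, 0, 0, 0, 0, 0, 0, ⟨0, 0⟩, 0⟩, 0, 4099⟩ 0 0)) (.cut .d 41364 (.cut .d 20682 (.pos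 24 .pp ⟨⟨0, 0, 0, 0, 0, 0, 4340, 0, 0, ⟨0, 0⟩, 0⟩, 11967726184, 0⟩ 0 0) (.cut .v 29360128 (.pos 88 .pp ⟨⟨0, 0, 0, 0, 0, 0, 5594, 0, 0, ⟨0, 0⟩, 0⟩, 7659213377, 0⟩ 0 0) (.pos 89 .pp ⟨⟨0, 0, 0, 0, 0, 0, 5383, 0, 0, ⟨0, 0⟩, 0⟩, 10804784600, 0⟩ 0 0))) (.pos 24 .pp ⟨⟨0, 0, 0, 0, 0, 0, 7568, 0, 0, ⟨0, 0⟩, 0⟩, 5857059921, 0⟩ 0 0))) (.pos 22 .pp ⟨⟨0, 9357262461, 0, 0, 0, 0, 0, 0, 0, ⟨0, 0⟩, 0⟩, 0, 3416⟩ 0 0)) (.cut .v 50331648 (.cut .d 82729 (.cut .d 41364 (.pos 79 .pp ⟨⟨0, 0, 0, 0, 0, 0, 3713, 0, 0, ⟨0, 0⟩, 0⟩, 17442061038, 0⟩ 0 0) (.pos 79 .pp ⟨⟨0, 20044805161, 0, 0, 0, 0, 6131, 0, 0, ⟨0, 0⟩, 0⟩, 12329484597, 0⟩ 0 0)) (.void 79 ⟨⟨0, 100000,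 0, 0, 0, 0, 0, 0, 0, ⟨0, 0⟩, 0⟩, 0, 0⟩ 0 0)) (.void 80 ⟨⟨0, 0, 0, 54272, 0, 0, 0, 0, 0, ⟨0, 0⟩, 0⟩, 47917, 0⟩ 0 0))) (.void 68 ⟨⟨0, 0, 0, 52789, 0, 0, 0, 0, 0, ⟨0, 0⟩, 0⟩, 47211, 0⟩ 0 0)) (.void 87 ⟨⟨0, 0, 0, 0, 0, 0, 0, 0, 0, ⟨0, 0⟩, 0⟩, 100000, 0⟩ 0 0)) (.void 100 ⟨⟨0, 0, 0, 0, 0, 0, 0, 0, 0, ⟨0, 0⟩, 0⟩, 100000, 0⟩ 0 0)))),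
    by decide +kernel⟩

def covers47 : cell.Covers Vale.Agent.P237.Petty.Cor.Grid.N7.table row47.1 :=
  ⟨(.cut .d 0 (.cut .v 16777216 (.cut .v 8388608 (.pos 2 .mm ⟨⟨0, 0, 1677721600000000, 0, 0, 0, 0, 0, 0, ⟨0, 0⟩, 0⟩, 0, 0⟩ 0 0) (.cut .d (-8388608) (.void 3 ⟨⟨100000, 0, 0, 0, 0, 0, 0, 0, 0, ⟨0, 0⟩, 0⟩, 0, 0⟩ 0 0) (.pos 3 .mm ⟨⟨0, 0, 0, 0, 0, 167454704272, 0, 0, 0, ⟨0, 0⟩, 0⟩, 0, 0⟩ 0 0))) (.cut .v 4294967296 (.cut .v 268435456 (.cut .d (-8388608) (.void 67 ⟨⟨100005, 0, 0, 0, 0, 0, 0, 0, 0, ⟨0, 0⟩, 0⟩, 0, 0⟩ 0 0) (.cut .d (-4194304) (.void 67 ⟨⟨100000, 0, 0, 0, 0, 0, 0, 0, 0, ⟨0, 0⟩, 0⟩, 0, 0⟩ 0 0) (.cut .d (-2097152) (.void 67 ⟨⟨100000,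 0, 0, 0, 0, 0, 0, 0, 0, ⟨0, 0⟩, 0⟩, 0, 0⟩ 0 0) (.cut .d (-1048576) (.void 67 ⟨⟨100000, 0, 0, 0, 0, 0, 0, 0, 0, ⟨0, 0⟩, 0⟩, 0, 0⟩ 0 0) (.cut .d (-524288) (.void 67 ⟨⟨100000, 0, 0, 0, 0, 0, 0, 0, 0, ⟨0, 0⟩, 0⟩, 0, 0⟩ 0 0) (.cut .d (-262144) (.void 67 ⟨⟨100000, 0, 0, 0, 0, 0, 0, 0, 0, ⟨0, 0⟩, 0⟩, 0, 0⟩ 0 0) (.cut .d (-131072) (.void 67 ⟨⟨100000, 0, 0, 0, 0, 0, 0, 0, 0, ⟨0, 0⟩, 0⟩, 0, 0⟩ 0 0) (.cut .d (-65536) (.void 67 ⟨⟨100000, 0, 0, 0, 0, 0, 0, 0, 0, ⟨0, 0⟩, 0⟩, 0, 0⟩ 0 0) (.cut .d (-32768) (.void 67 ⟨⟨100000, 0, 0, 0, 0, 0, 0, 0, 0, ⟨0, 0⟩, 0⟩, 0, 0⟩ 0 0) (.cut .d (-16384) (.void 67 ⟨⟨100000, 0, 0, 0, 0, 0, 0, 0, 0, ⟨0, 0⟩, 0⟩, 0,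 0⟩ 0 0) (.cut .d (-8192) (.void 67 ⟨⟨100000, 0, 0, 0, 0, 0, 0, 0, 0, ⟨0, 0⟩, 0⟩, 0, 0⟩ 0 0) (.cut .d (-4096) (.void 67 ⟨⟨100000, 0, 0, 0, 0, 0, 0, 0, 0, ⟨0, 0⟩, 0⟩, 0, 0⟩ 0 0) (.cut .d (-2048) (.void 67 ⟨⟨100000, 0, 0, 0, 0, 0, 0, 0, 0, ⟨0, 0⟩, 0⟩, 0, 0⟩ 0 0) (.cut .v 67108864 (.cut .v 33554432 (.cut .v 25165824 (.pos 23 .mp ⟨⟨56580149457, 0, 0, 0, 0, 34942170312, 0, 0, 0, ⟨0, 0⟩, 0⟩, 0, 0⟩ 0 0) (.void 24 ⟨⟨100000, 0, 0, 0, 0, 0, 0, 0, 0, ⟨0, 0⟩, 0⟩, 0, 0⟩ 0 0)) (.void 57 ⟨⟨100000, 0, 0, 0, 0, 0, 0, 0, 0, ⟨0, 0⟩, 0⟩, 0, 0⟩ 0 0)) (.void 68 ⟨⟨100000, 0, 0, 0, 0, 0, 0, 0, 0, ⟨0, 0⟩, 0⟩, 0, 0⟩ 0 0))))))))))))))) (.void 87 ⟨⟨88734, 0, 0,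 11112, 0, 0, 0, 0, 0, ⟨0, 0⟩, 0⟩, 0, 0⟩ 0 0)) (.void 100 ⟨⟨76403, 0, 12534, 11046, 0, 0, 0, 0, 0, ⟨0, 0⟩, 0⟩, 0, 0⟩ 0 0))) (.cut .v 16777216 (.cut .v 8388608 (.cut .v 4194304 (.cut .v 2097152 (.cut .v 1048576 (.cut .v 524288 (.cut .v 262144 (.cut .d 66053 (.void 101 ⟨⟨0, 0, 100000, 0, 0, 0, 0, 0, 0, ⟨0, 0⟩, 0⟩, 0, 0⟩ 0 0) (.pos 101 .pm ⟨⟨0, 0, 214595442, 0, 0, 0, 0, 0, 0, ⟨0, 0⟩, 0⟩, 0, 0⟩ 0 0)) (.pos 102 .pm ⟨⟨0, 0, 1257165515, 0, 0, 0, 0, 0, 0, ⟨0, 0⟩, 0⟩, 0, 62⟩ 0 0)) (.pos 97 .pm ⟨⟨0, 0, 2348491108, 0, 0, 0, 0, 0, 0, ⟨0, 0⟩, 0⟩, 0, 123⟩ 0 0)) (.pos 82 .pm ⟨⟨0, 0, 4529818492, 0, 0, 0, 0, 0, 0, ⟨0, 0⟩, 0⟩, 0, 239⟩ 0 0)) (.pos 78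 .pm ⟨⟨0, 0, 9520915484, 0, 0, 0, 0, 0, 0, ⟨0, 0⟩, 0⟩, 0, 451⟩ 0 0)) (.pos 5 .pm ⟨⟨0, 0, 25196376503, 0, 0, 0, 0, 0, 0, ⟨0, 0⟩, 0⟩, 0, 812⟩ 0 0)) (.pos 3 .pm ⟨⟨0, 0, 0, 0, 0, 0, 0, 0, 0, ⟨0, 0⟩, 0⟩, 0, 0⟩ 0 0)) (.cut .v 4294967296 (.cut .v 268435456 (.cut .v 67108864 (.cut .v 33554432 (.cut .d 66053 (.cut .v 25165824 (.cut .d 33026 (.cut .d 16513 (.cut .v 20971520 (.cut .v 18874368 (.pos 27 .pp ⟨⟨30618692436, 0, 0, 0, 0, 0, 0, 0, 0, ⟨0, 0⟩, 0⟩, 0, 1018⟩ 0 0) (.pos 28 .pp ⟨⟨38668773954, 0, 0, 0, 0, 0, 0, 0, 0, ⟨0, 0⟩, 0⟩, 0, 1248⟩ 0 0)) (.pos 26 .pp ⟨⟨52336436699, 0, 0, 0, 0, 0, 3024, 0, 0, ⟨0, 0⟩, 0⟩, 0, 0⟩ 0 0)) (.pos 23 .pp ⟨⟨0, 0,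 0, 0, 0, 0, 0, 0, 0, ⟨0, 0⟩, 0⟩, 5954372328, 1655⟩ 0 0)) (.pos 23 .pp ⟨⟨0, 0, 0, 0, 0, 0, 0, 0, 0, ⟨0, 0⟩, 0⟩, 0, 2437⟩ 0 0)) (.cut .d 33026 (.cut .d 16513 (.pos 24 .pp ⟨⟨0, 0, 0, 0, 0, 0, 2845, 0, 0, ⟨0, 0⟩, 0⟩, 14759691063, 0⟩ 0 0) (.pos 24 .pp ⟨⟨0, 0, 0, 0, 0, 0, 3891, 0, 0, ⟨0, 0⟩, 0⟩, 11634313979, 0⟩ 0 0)) (.pos 24 .pp ⟨⟨0, 0, 0, 0, 0, 0, 4546, 0, 0, ⟨0, 0⟩, 0⟩, 8172400333, 0⟩ 0 0))) (.pos 22 .pp ⟨⟨0, 13245575229, 0, 0, 0, 0, 0, 0, 0, ⟨0, 0⟩, 0⟩, 0, 2031⟩ 0 0)) (.cut .v 50331648 (.cut .d 66053 (.cut .d 33026 (.pos 79 .pp ⟨⟨0, 0, 0, 0, 0, 0, 0, 0, 0, ⟨0, 0⟩, 0⟩, 39931558112, 0⟩ 0 0) (.pos 79 .pp ⟨⟨0, 21095692771, 0, 0, 0, 0, 3859,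 0, 0, ⟨0, 0⟩, 0⟩, 16415586554, 0⟩ 0 0)) (.void 79 ⟨⟨0, 100000, 0, 0, 0, 0, 0, 0, 0, ⟨0, 0⟩, 0⟩, 0, 0⟩ 0 0)) (.void 80 ⟨⟨0, 0, 0, 52728, 0, 0, 0, 0, 0, ⟨0, 0⟩, 0⟩, 46545, 0⟩ 0 0))) (.void 68 ⟨⟨0, 0, 0, 52809, 0, 0, 0, 0, 0, ⟨0, 0⟩, 0⟩, 47192, 0⟩ 0 0)) (.void 87 ⟨⟨0, 0, 0, 0, 0, 0, 0, 0, 0, ⟨0, 0⟩, 0⟩, 100000, 0⟩ 0 0)) (.void 100 ⟨⟨0, 0, 0, 0, 0, 0, 0, 0, 0, ⟨0, 0⟩, 0⟩, 100000, 0⟩ 0 0)))),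
    by decide +kernel⟩

def covers48 : cell.Covers Vale.Agent.P237.Petty.Cor.Grid.N7.table row48.1 :=
  ⟨(.cut .d 0 (.cut .v 16777216 (.cut .v 8388608 (.void 2 ⟨⟨0, 0, 100000, 0, 0, 0, 0, 0, 0, ⟨0, 0⟩, 0⟩, 0, 0⟩ 0 0) (.cut .d (-8388608) (.void 3 ⟨⟨102668, 0, 0, 0, 0, 0, 2, 0, 0, ⟨0, 0⟩, 0⟩, 0, 0⟩ 0 0) (.pos 3 .mm ⟨⟨0, 0, 0, 0, 0, 257394325999, 0, 0, 0, ⟨0, 0⟩, 0⟩, 0, 0⟩ 0 0))) (.cut .d (-8388608) (.void 99 ⟨⟨100002, 0, 0, 0, 0, 0, 0, 0, 0, ⟨0, 0⟩, 0⟩, 0, 0⟩ 0 0) (.cut .v 4294967296 (.cut .v 268435456 (.cut .d (-4194304) (.void 67 ⟨⟨100000, 0, 0, 0, 0, 0, 0, 0, 0, ⟨0, 0⟩, 0⟩, 0, 0⟩ 0 0) (.cut .d (-2097152) (.void 67 ⟨⟨100000, 0, 0,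 0, 0, 0, 0, 0, 0, ⟨0, 0⟩, 0⟩, 0, 0⟩ 0 0) (.cut .d (-1048576) (.void 67 ⟨⟨100000, 0, 0, 0, 0, 0, 0, 0, 0, ⟨0, 0⟩, 0⟩, 0, 0⟩ 0 0) (.cut .d (-524288) (.void 67 ⟨⟨100000, 0, 0, 0, 0, 0, 0, 0, 0, ⟨0, 0⟩, 0⟩, 0, 0⟩ 0 0) (.cut .d (-262144) (.void 67 ⟨⟨100000, 0, 0, 0, 0, 0, 0, 0, 0, ⟨0, 0⟩, 0⟩, 0, 0⟩ 0 0) (.cut .d (-131072) (.void 67 ⟨⟨100000, 0, 0, 0, 0, 0, 0, 0, 0, ⟨0, 0⟩, 0⟩, 0, 0⟩ 0 0) (.cut .d (-65536) (.void 67 ⟨⟨100000, 0, 0, 0, 0, 0, 0, 0, 0, ⟨0, 0⟩, 0⟩, 0, 0⟩ 0 0) (.cut .d (-32768) (.void 67 ⟨⟨100000, 0, 0, 0, 0, 0, 0, 0, 0, ⟨0, 0⟩, 0⟩, 0, 0⟩ 0 0) (.cut .d (-16384) (.void 67 ⟨⟨100000, 0, 0, 0, 0, 0, 0, 0, 0, ⟨0, 0⟩, 0⟩, 0, 0⟩ 0 0)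 (.cut .d (-8192) (.void 67 ⟨⟨100000, 0, 0, 0, 0, 0, 0, 0, 0, ⟨0, 0⟩, 0⟩, 0, 0⟩ 0 0) (.cut .d (-4096) (.void 67 ⟨⟨100000, 0, 0, 0, 0, 0, 0, 0, 0, ⟨0, 0⟩, 0⟩, 0, 0⟩ 0 0) (.cut .d (-2048) (.void 67 ⟨⟨100000, 0, 0, 0, 0, 0, 0, 0, 0, ⟨0, 0⟩, 0⟩, 0, 0⟩ 0 0) (.cut .d (-1024) (.void 67 ⟨⟨0, 0, 0, 0, 0, 100000, 0, 0, 0, ⟨0, 0⟩, 0⟩, 0, 0⟩ 0 0) (.cut .v 67108864 (.cut .v 33554432 (.cut .v 25165824 (.pos 23 .mp ⟨⟨90876341547, 0, 0, 0, 0, 28241048763, 0, 0, 0, ⟨0, 0⟩, 0⟩, 0, 0⟩ 0 0) (.void 24 ⟨⟨100000, 0, 0, 0, 0, 0, 0, 0, 0, ⟨0, 0⟩, 0⟩, 0, 0⟩ 0 0)) (.void 57 ⟨⟨100000, 0, 0, 0, 0, 0, 0, 0, 0, ⟨0, 0⟩, 0⟩, 0, 0⟩ 0 0)) (.void 68 ⟨⟨100000, 0, 0, 0,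 0, 0, 0, 0, 0, ⟨0, 0⟩, 0⟩, 0, 0⟩ 0 0))))))))))))))) (.void 87 ⟨⟨84132, 0, 0, 15716, 0, 0, 0, 0, 0, ⟨0, 0⟩, 0⟩, 0, 0⟩ 0 0)) (.void 100 ⟨⟨90578, 0, 0, 17238, 0, 0, 0, 0, 0, ⟨0, 0⟩, 0⟩, 0, 0⟩ 0 0)))) (.cut .v 16777216 (.cut .v 8388608 (.cut .v 4194304 (.cut .v 2097152 (.cut .d 57740 (.void 77 ⟨⟨0, 0, 100000, 0, 0, 0, 0, 0, 0, ⟨0, 0⟩, 0⟩, 0, 0⟩ 0 0) (.cut .v 1048576 (.cut .v 524288 (.cut .d 86610 (.pos 96 .pm ⟨⟨0, 0, 655541715, 0, 0, 0, 0, 0, 0, ⟨0, 0⟩, 0⟩, 0, 0⟩ 0 0) (.cut .v 262144 (.pos 101 .pm ⟨⟨0, 0, 81582302, 0, 0, 0, 0, 0, 0, ⟨0, 0⟩, 0⟩, 0, 0⟩ 0 0) (.pos 102 .pm ⟨⟨0, 0, 1278985138, 0, 0, 0, 0, 0, 0, ⟨0, 0⟩, 0⟩, 0, 37⟩ 0 0))) (.pos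 97 .pm ⟨⟨0, 0, 2627639581, 0, 0, 0, 0, 0, 0, ⟨0, 0⟩, 0⟩, 0, 73⟩ 0 0)) (.pos 82 .pm ⟨⟨0, 0, 5047884641, 0, 0, 0, 0, 0, 0, ⟨0, 0⟩, 0⟩, 0, 142⟩ 0 0))) (.pos 78 .pm ⟨⟨0, 0, 13178182413, 0, 0, 0, 0, 0, 0, ⟨0, 0⟩, 0⟩, 0, 262⟩ 0 0)) (.pos 5 .pm ⟨⟨0, 0, 31381331521, 0, 0, 0, 0, 0, 0, ⟨0, 0⟩, 0⟩, 0, 437⟩ 0 0)) (.pos 3 .pm ⟨⟨0, 0, 0, 0, 0, 0, 0, 0, 0, ⟨0, 0⟩, 0⟩, 0, 0⟩ 0 0)) (.cut .v 4294967296 (.cut .v 268435456 (.cut .v 67108864 (.cut .v 33554432 (.cut .d 57740 (.cut .d 28870 (.cut .v 25165824 (.cut .d 14435 (.cut .v 20971520 (.cut .d 7217 (.cut .v 18874368 (.cut .s 16678912 (.pos 27 .pp ⟨⟨37204368841, 0, 0, 0, 0, 0, 0, 0, 0, ⟨0, 0⟩, 0⟩, 0,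 736⟩ 0 0) (.pos 27 .pp ⟨⟨47774801791, 0, 0, 0, 0, 0, 0, 0, 0, ⟨0, 0⟩, 0⟩, 0, 496⟩ 0 0)) (.pos 28 .pp ⟨⟨61069443214, 0, 0, 0, 0, 0, 0, 0, 0, ⟨0, 0⟩, 0⟩, 0, 566⟩ 0 0)) (.pos 25 .pp ⟨⟨27767431875, 0, 0, 0, 0, 0, 0, 0, 0, ⟨0, 0⟩, 0⟩, 0, 1011⟩ 0 0)) (.cut .d 7217 (.pos 26 .pp ⟨⟨93463121892, 0, 0, 0, 0, 0, 0, 0, 0, ⟨0, 0⟩, 0⟩, 0, 535⟩ 0 0) (.pos 26 .pp ⟨⟨63868701196, 0, 0, 0, 0, 0, 1608, 0, 0, ⟨0, 0⟩, 0⟩, 0, 0⟩ 0 0))) (.pos 23 .pp ⟨⟨0, 0, 0, 0, 0, 0, 0, 0, 0, ⟨0, 0⟩, 0⟩, 7281522331, 1176⟩ 0 0)) (.cut .d 14435 (.pos 24 .pp ⟨⟨0, 0, 0, 0, 0, 0, 1724, 0, 0, ⟨0, 0⟩, 0⟩, 23412750731, 0⟩ 0 0) (.cut .v 29360128 (.pos 88 .pp ⟨⟨0, 0, 0, 0, 0, 0, 2436,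 0, 0, ⟨0, 0⟩, 0⟩, 13443824182, 0⟩ 0 0) (.pos 89 .pp ⟨⟨0, 0, 0, 0, 0, 0, 1881, 0, 0, ⟨0, 0⟩, 0⟩, 19325254456, 0⟩ 0 0)))) (.cut .v 25165824 (.pos 23 .pp ⟨⟨0, 0, 0, 0, 0, 0, 0, 0, 0, ⟨0, 0⟩, 0⟩, 0, 1726⟩ 0 0) (.pos 24 .pp ⟨⟨0, 0, 0, 0, 0, 0, 3232, 0, 0, ⟨0, 0⟩, 0⟩, 10016648573, 0⟩ 0 0))) (.pos 22 .pp ⟨⟨0, 0, 0, 0, 0, 0, 0, 0, 0, ⟨0, 0⟩, 0⟩, 0, 1918⟩ 0 0)) (.cut .v 50331648 (.cut .d 57740 (.cut .d 28870 (.pos 79 .pp ⟨⟨0, 0, 0, 0, 0, 0, 1274, 0, 0, ⟨0, 0⟩, 0⟩, 35138916152, 0⟩ 0 0) (.cut .v 41943040 (.pos 94 .pp ⟨⟨0, 0, 0, 0, 0, 0, 3089, 0, 0, ⟨0, 0⟩, 0⟩, 18477272217, 0⟩ 0 0) (.void 95 ⟨⟨0, 0, 0, 52846, 0, 0, 0, 0, 0, ⟨0, 0⟩, 0⟩, 47154,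 0⟩ 0 0))) (.pos 79 .pp ⟨⟨0, 197232493842, 0, 0, 0, 0, 0, 0, 0, ⟨0, 0⟩, 0⟩, 0, 1918⟩ 0 0)) (.void 80 ⟨⟨0, 0, 0, 52846, 0, 0, 0, 0, 0, ⟨0, 0⟩, 0⟩, 47154, 0⟩ 0 0))) (.void 68 ⟨⟨0, 0, 0, 58536, 0, 0, 0, 0, 0, ⟨0, 0⟩, 0⟩, 47688, 0⟩ 0 0)) (.void 87 ⟨⟨0, 0, 0, 0, 0, 0, 0, 0, 0, ⟨0, 0⟩, 0⟩, 100000, 0⟩ 0 0)) (.void 100 ⟨⟨0, 0, 0, 0, 0, 0, 0, 0, 0, ⟨0, 0⟩, 0⟩, 100000, 0⟩ 0 0)))),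
    by decide +kernel⟩

def covers49 : cell.Covers Vale.Agent.P237.Petty.Cor.Grid.N7.table row49.1 :=
  ⟨(.cut .d 0 (.cut .v 16777216 (.cut .v 8388608 (.void 2 ⟨⟨0, 0, 100014, 0, 0, 0, 0, 0, 0, ⟨0, 0⟩, 0⟩, 0, 0⟩ 0 0) (.pos 3 .mm ⟨⟨0, 0, 0, 0, 0, 506498946764, 0, 0, 0, ⟨0, 0⟩, 0⟩, 0, 0⟩ 0 0)) (.cut .v 4294967296 (.cut .v 268435456 (.cut .v 67108864 (.cut .v 33554432 (.cut .v 25165824 (.cut .d (-8388608) (.void 23 ⟨⟨99976, 0, 0, 0, 0, 0, 0, 0, 0, ⟨0, 0⟩, 0⟩, 0, 0⟩ 0 0) (.cut .d (-4194304) (.void 23 ⟨⟨100000, 0, 0, 0, 0, 0, 0, 0, 0, ⟨0, 0⟩, 0⟩, 0, 0⟩ 0 0) (.pos 23 .mp ⟨⟨124858237222, 0, 0, 0, 0, 171339364584, 0, 0, 0, ⟨0, 0⟩, 0⟩, 0, 0⟩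 0 0))) (.void 24 ⟨⟨100000, 0, 0, 0, 0, 0, 0, 0, 0, ⟨0, 0⟩, 0⟩, 0, 0⟩ 0 0)) (.void 57 ⟨⟨100000, 0, 0, 0, 0, 0, 0, 0, 0, ⟨0, 0⟩, 0⟩, 0, 0⟩ 0 0)) (.void 68 ⟨⟨100000, 0, 0, 0, 0, 0, 0, 0, 0, ⟨0, 0⟩, 0⟩, 0, 0⟩ 0 0)) (.void 87 ⟨⟨88803, 0, 0, 11065, 0, 0, 0, 0, 0, ⟨0, 0⟩, 0⟩, 0, 0⟩ 0 0)) (.void 100 ⟨⟨90395, 0, 0, 9941, 0, 0, 0, 0, 0, ⟨0, 0⟩, 0⟩, 0, 0⟩ 0 0))) (.cut .v 16777216 (.cut .v 8388608 (.cut .v 4194304 (.cut .v 2097152 (.cut .v 1048576 (.cut .d 41162 (.void 81 ⟨⟨0, 0, 100000, 0, 0, 0, 0, 0, 0, ⟨0, 0⟩, 0⟩, 0, 0⟩ 0 0) (.cut .d 61743 (.pos 81 .pm ⟨⟨0, 0, 84623772690, 0, 0, 0, 0, 0, 0, ⟨0, 0⟩, 0⟩, 0, 16⟩ 0 0) (.cut .v 524288 (.cut .v 262144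 (.pos 101 .pm ⟨⟨0, 0, 151121003, 0, 0, 0, 0, 0, 0, ⟨0, 0⟩, 0⟩, 0, 0⟩ 0 0) (.pos 102 .pm ⟨⟨0, 0, 1966826515, 0, 0, 0, 0, 0, 0, ⟨0, 0⟩, 0⟩, 0, 17⟩ 0 0)) (.pos 97 .pm ⟨⟨0, 0, 3869183219, 0, 0, 0, 0, 0, 0, ⟨0, 0⟩, 0⟩, 0, 38⟩ 0 0)))) (.pos 82 .pm ⟨⟨0, 0, 10028824164, 0, 0, 0, 0, 0, 0, ⟨0, 0⟩, 0⟩, 0, 75⟩ 0 0)) (.pos 78 .pm ⟨⟨0, 0, 20646069598, 0, 0, 0, 0, 0, 0, ⟨0, 0⟩, 0⟩, 0, 146⟩ 0 0)) (.pos 5 .pm ⟨⟨0, 0, 52068069386, 0, 0, 0, 0, 0, 0, ⟨0, 0⟩, 0⟩, 0, 257⟩ 0 0)) (.pos 3 .pm ⟨⟨0, 0, 0, 0, 0, 0, 0, 0, 0, ⟨0, 0⟩, 0⟩, 0, 0⟩ 0 0)) (.cut .v 4294967296 (.cut .v 268435456 (.cut .v 67108864 (.cut .v 33554432 (.cut .d 41162 (.cut .v 25165824 (.cut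 .d 20581 (.cut .d 10290 (.cut .v 20971520 (.cut .v 18874368 (.cut .s 16703488 (.pos 27 .pp ⟨⟨60667489144, 0, 0, 0, 0, 0, 0, 0, 0, ⟨0, 0⟩, 0⟩, 0, 345⟩ 0 0) (.pos 27 .pp ⟨⟨71382373012, 0, 0, 0, 0, 0, 0, 0, 0, ⟨0, 0⟩, 0⟩, 0, 264⟩ 0 0)) (.pos 28 .pp ⟨⟨81796534452, 0, 0, 0, 0, 0, 0, 0, 0, ⟨0, 0⟩, 0⟩, 0, 339⟩ 0 0)) (.cut .d 5145 (.pos 26 .pp ⟨⟨134999397556, 0, 0, 0, 0, 0, 0, 0, 0, ⟨0, 0⟩, 0⟩, 0, 281⟩ 0 0) (.pos 26 .pp ⟨⟨102080776619, 0, 0, 0, 0, 0, 921, 0, 0, ⟨0, 0⟩, 0⟩, 0, 0⟩ 0 0))) (.pos 23 .pp ⟨⟨0, 0, 0, 0, 0, 0, 0, 0, 0, ⟨0, 0⟩, 0⟩, 11924619462, 543⟩ 0 0)) (.pos 23 .pp ⟨⟨0, 0, 0, 0, 0, 0, 0, 0, 0, ⟨0, 0⟩, 0⟩, 0, 790⟩ 0 0)) (.cut .d 20581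 (.cut .d 10290 (.pos 24 .pp ⟨⟨0, 0, 0, 0, 0, 0, 858, 0, 0, ⟨0, 0⟩, 0⟩, 33341375364, 0⟩ 0 0) (.cut .v 29360128 (.pos 88 .pp ⟨⟨0, 0, 0, 0, 0, 0, 1087, 0, 0, ⟨0, 0⟩, 0⟩, 21440263140, 0⟩ 0 0) (.pos 89 .pp ⟨⟨0, 0, 0, 0, 0, 0, 1065, 0, 0, ⟨0, 0⟩, 0⟩, 30174874571, 0⟩ 0 0))) (.pos 24 .pp ⟨⟨0, 0, 0, 0, 0, 0, 1499, 0, 0, ⟨0, 0⟩, 0⟩, 16454354451, 0⟩ 0 0))) (.pos 22 .pp ⟨⟨0, 0, 0, 0, 0, 0, 0, 0, 0, ⟨0, 0⟩, 0⟩, 0, 877⟩ 0 0)) (.cut .v 50331648 (.cut .d 41162 (.cut .d 20581 (.pos 79 .pp ⟨⟨0, 0, 0, 0, 0, 0, 773, 0, 0, ⟨0, 0⟩, 0⟩, 48601858715, 0⟩ 0 0) (.pos 79 .pp ⟨⟨0, 0, 0, 7120113696, 0, 0, 1254, 0, 0, ⟨0, 0⟩, 0⟩, 34628560936, 0⟩ 0 0)) (.pos 79 .pp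 ⟨⟨0, 326431000401, 0, 0, 0, 0, 0, 0, 0, ⟨0, 0⟩, 0⟩, 0, 877⟩ 0 0)) (.void 80 ⟨⟨0, 0, 0, 52865, 0, 0, 0, 0, 0, ⟨0, 0⟩, 0⟩, 47135, 0⟩ 0 0))) (.void 68 ⟨⟨0, 0, 0, 52201, 0, 0, 0, 0, 0, ⟨0, 0⟩, 0⟩, 47799, 0⟩ 0 0)) (.void 87 ⟨⟨0, 0, 0, 0, 0, 0, 0, 0, 0, ⟨0, 0⟩, 0⟩, 100000, 0⟩ 0 0)) (.void 100 ⟨⟨0, 0, 0, 0, 0, 0, 0, 0, 0, ⟨0, 0⟩, 0⟩, 100000, 0⟩ 0 0)))),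
    by decide +kernel⟩

def covers50 : cell.Covers Vale.Agent.P237.Petty.Cor.Grid.N7.table row50.1 :=
  ⟨(.cut .d 0 (.cut .v 16777216 (.cut .v 8388608 (.pos 2 .mm ⟨⟨0, 0, 1677721600000000, 0, 0, 0, 0, 0, 0, ⟨0, 0⟩, 0⟩, 0, 0⟩ 0 0) (.pos 3 .mm ⟨⟨0, 0, 0, 0, 0, 716683615765, 0, 0, 0, ⟨0, 0⟩, 0⟩, 0, 0⟩ 0 0)) (.cut .v 4294967296 (.cut .v 268435456 (.cut .v 67108864 (.cut .v 33554432 (.cut .v 25165824 (.cut .d (-8388608) (.void 23 ⟨⟨932503000, 0, 0, 0, 0, 5481824575, 0, 0, 0, ⟨0, 0⟩, 0⟩, 0, 0⟩ 0 0) (.cut .d (-4194304) (.void 23 ⟨⟨100000, 0, 0, 0, 0, 0, 0, 0, 0, ⟨0, 0⟩, 0⟩, 0, 0⟩ 0 0) (.pos 23 .mp ⟨⟨189618468787, 0, 0, 0, 0, 243224497924,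 0, 0, 0, ⟨0, 0⟩, 0⟩, 0, 0⟩ 0 0))) (.void 24 ⟨⟨100000, 0, 0, 0, 0, 0, 0, 0, 0, ⟨0, 0⟩, 0⟩, 0, 0⟩ 0 0)) (.void 57 ⟨⟨100000, 0, 0, 0, 0, 0, 0, 0, 0, ⟨0, 0⟩, 0⟩, 0, 0⟩ 0 0)) (.void 68 ⟨⟨99991, 0, 0, 0, 0, 0, 0, 0, 0, ⟨0, 0⟩, 0⟩, 0, 0⟩ 0 0)) (.void 87 ⟨⟨88769, 0, 0, 11052, 0, 0, 0, 0, 0, ⟨0, 0⟩, 0⟩, 0, 0⟩ 0 0)) (.void 100 ⟨⟨150204, 0, 0, 18231, 0, 0, 0, 0, 0, ⟨0, 0⟩, 0⟩, 0, 0⟩ 0 0))) (.cut .v 16777216 (.cut .v 8388608 (.cut .v 4194304 (.cut .v 2097152 (.cut .d 32898 (.pos 77 .pm ⟨⟨0, 0, 1677721599999958, 0, 0, 0, 0, 0, 0, ⟨0, 0⟩, 0⟩, 0, 43⟩ 0 0) (.cut .d 49347 (.pos 77 .pm ⟨⟨0, 0, 7858181446, 0, 0, 0, 0, 0, 0, ⟨0, 0⟩, 0⟩, 0, 0⟩ 0 0) (.cut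 .v 1048576 (.cut .v 524288 (.cut .v 262144 (.cut .v 131072 (.pos 103 .pm ⟨⟨0, 0, 95824216, 0, 0, 0, 0, 0, 0, ⟨0, 0⟩, 0⟩, 0, 0⟩ 0 0) (.pos 104 .pm ⟨⟨0, 0, 1514575599, 0, 0, 0, 0, 0, 0, ⟨0, 0⟩, 0⟩, 0, 5⟩ 0 0)) (.pos 102 .pm ⟨⟨0, 0, 2848018261, 0, 0, 0, 0, 0, 0, ⟨0, 0⟩, 0⟩, 0, 10⟩ 0 0)) (.pos 97 .pm ⟨⟨0, 0, 5410338252, 0, 0, 0, 0, 0, 0, ⟨0, 0⟩, 0⟩, 0, 20⟩ 0 0)) (.pos 82 .pm ⟨⟨0, 0, 10800046819, 0, 0, 0, 0, 0, 0, ⟨0, 0⟩, 0⟩, 0, 45⟩ 0 0)))) (.pos 78 .pm ⟨⟨0, 0, 30042371618, 0, 0, 0, 0, 0, 0, ⟨0, 0⟩, 0⟩, 0, 77⟩ 0 0)) (.pos 5 .pm ⟨⟨0, 0, 73238876651, 0, 0, 0, 0, 0, 0, ⟨0, 0⟩, 0⟩, 0, 128⟩ 0 0)) (.pos 3 .pm ⟨⟨0, 0, 0, 0, 0, 0, 0, 0, 0, ⟨0,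 0⟩, 0⟩, 0, 0⟩ 0 0)) (.cut .v 4294967296 (.cut .v 268435456 (.cut .v 67108864 (.cut .v 33554432 (.cut .d 32898 (.cut .d 16449 (.cut .v 25165824 (.cut .d 8224 (.cut .v 20971520 (.cut .d 4112 (.cut .v 18874368 (.cut .s 16719872 (.pos 27 .pp ⟨⟨83831759952, 0, 0, 0, 0, 0, 0, 0, 0, ⟨0, 0⟩, 0⟩, 0, 201⟩ 0 0) (.pos 27 .pp ⟨⟨103992081138, 0, 0, 0, 0, 0, 0, 0, 0, ⟨0, 0⟩, 0⟩, 0, 142⟩ 0 0)) (.pos 28 .pp ⟨⟨133300269678, 0, 0, 0, 0, 0, 0, 0, 0, ⟨0, 0⟩, 0⟩, 0, 167⟩ 0 0)) (.pos 25 .pp ⟨⟨63168743980, 0, 0, 0, 0, 0, 0, 0, 0, ⟨0, 0⟩, 0⟩, 0, 271⟩ 0 0)) (.cut .d 4112 (.pos 26 .pp ⟨⟨219924528669, 0, 0, 0, 0, 0, 0, 0, 0, ⟨0, 0⟩, 0⟩, 0, 137⟩ 0 0) (.pos 26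 .pp ⟨⟨144844435383, 0, 0, 0, 0, 0, 469, 0, 0, ⟨0, 0⟩, 0⟩, 0, 0⟩ 0 0))) (.pos 23 .pp ⟨⟨0, 0, 0, 0, 0, 0, 0, 0, 0, ⟨0, 0⟩, 0⟩, 16590730908, 316⟩ 0 0)) (.cut .d 8224 (.pos 24 .pp ⟨⟨0, 0, 0, 0, 0, 0, 483, 0, 0, ⟨0, 0⟩, 0⟩, 50409187622, 0⟩ 0 0) (.cut .v 29360128 (.pos 88 .pp ⟨⟨0, 0, 0, 0, 0, 0, 627, 0, 0, ⟨0, 0⟩, 0⟩, 30372809262, 0⟩ 0 0) (.pos 89 .pp ⟨⟨0, 0, 0, 0, 0, 0, 548, 0, 0, ⟨0, 0⟩, 0⟩, 43634404161, 0⟩ 0 0)))) (.cut .v 25165824 (.pos 23 .pp ⟨⟨0, 0, 0, 0, 0, 0, 0, 0, 0, ⟨0, 0⟩, 0⟩, 0, 457⟩ 0 0) (.pos 24 .pp ⟨⟨0, 0, 0, 0, 0, 0, 873, 0, 0, ⟨0, 0⟩, 0⟩, 22937469845, 0⟩ 0 0))) (.pos 22 .pp ⟨⟨0, 0, 0, 0, 0, 0, 0, 0, 0, ⟨0, 0⟩, 0⟩, 0, 508⟩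 0 0)) (.cut .v 50331648 (.cut .d 32898 (.cut .d 16449 (.pos 79 .pp ⟨⟨0, 0, 0, 0, 0, 0, 396, 0, 0, ⟨0, 0⟩, 0⟩, 73975693146, 0⟩ 0 0) (.cut .d 24673 (.pos 79 .pp ⟨⟨0, 0, 0, 0, 0, 0, 681, 0, 0, ⟨0, 0⟩, 0⟩, 54656365307, 0⟩ 0 0) (.pos 79 .pp ⟨⟨0, 0, 0, 1556021054, 0, 0, 890, 0, 0, ⟨0, 0⟩, 0⟩, 40457346570, 0⟩ 0 0))) (.pos 79 .pp ⟨⟨0, 0, 0, 57079673888, 0, 0, 0, 0, 0, ⟨0, 0⟩, 0⟩, 0, 508⟩ 0 0)) (.pos 80 .pp ⟨⟨0, 0, 0, 887204741232778, 0, 0, 0, 0, 0, ⟨0, 0⟩, 0⟩, 790516858767223, 0⟩ 0 0))) (.void 68 ⟨⟨0, 0, 0, 52459, 0, 0, 0, 0, 0, ⟨0, 0⟩, 0⟩, 45804, 0⟩ 0 0)) (.void 87 ⟨⟨0, 0, 0, 0, 0, 0, 0, 0, 0, ⟨0, 0⟩, 0⟩, 100000, 0⟩ 0 0)) (.void 100 ⟨⟨0,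 0, 0, 0, 0, 0, 0, 0, 0, ⟨0, 0⟩, 0⟩, 100000, 0⟩ 0 0)))),
    by decide +kernel⟩

end Vale.Agent.P237.Petty.Cor.Grid.Tiny.N7
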